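import Vale.Agent.P075.R.Pt

/-!
# Moving a saturated Gram matrix: the outer pair step

`mv N X = (1 + N) X (1 + N)ᵀ` is a Gram matrix after a left multiplication by `1 + N`;
`phi_mv` is the exact lower bound for `phi (mv N X)` by the first order term, and
`pair_outer` is the outer step of the pair energy `tr (Q phi X)` with a fixed partner `Q`,
when the two children are moved by `1 + (N + D)` and `1 + (-N + D)`, `D = F * E`.
-/

namespace Vale.Agent.P141.H585.PairCh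

open Matrix Vale.Agent.P075

variable {n p : Type*} [Fintype n] [DecidableEq n] [Fintype p]

/-- the matrix after the left multiplication by `1 + N` -/
def mv (N X : Matrix n n ℝ) : Matrix n n ℝ := (1 + N) * X * (1 + N)ᵀ

theorem mv_psd {X : Matrix n n ℝ} (hX : X.PosSemidef) (N : Matrix n n ℝ) :
    (mv N X).PosSemidef := psd_conj hX (1 + N)

theorem mv_smul (a : ℝ) (N X : Matrix n n ℝ) : mv N (a • X) = a • mv N X := by
  simp only [mv, Matrix.mul_smul, Matrix.smul_mul]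

theorem mv_zero (X : Matrix n n ℝ) : mv 0 X = X := by
  simp [mv]

/-- **The move**, exact: the difference is a positive matrix. -/
theorem phi_mv_eq {X : Matrix n n ℝ} (hX : X.PosSemidef) (N : Matrix n n ℝ) :
    phi (mv N X) - phi X - (res X * N * phi X + phi X * Nᵀ * res X) + phi X * (Nᵀ * N) * phi X
      = (res X - (1 + N)ᵀ * res (mv N X))ᵀ * (X + X * ((1 + N)ᵀ * (1 + N)) * X)
        * (res X - (1 + N)ᵀ * res (mv N X)) := by
  have hZ := mv_psd hX N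
  have h1 : X * res X = 1 - res X := mul_res hX
  have h2 : res X * X = 1 - res X := res_mul hX
  have h3 : mv N X * res (mv N X) = 1 - res (mv N X) := mul_res hZ
  have h4 : res (mv N X) * mv N X = 1 - res (mv N X) := res_mul hZ
  have sP : (res X)ᵀ = res X := res_symm hX
  have sR : (res (mv N X))ᵀ = res (mv N X) := res_symm hZ
  have eM : (1 + N)ᵀ = 1 + Nᵀ := by rw [transpose_add, transpose_one]
  rw [phi, phi]
  have h3' : (1 + N) * X * (1 + N)ᵀ * res (mv N X) = 1 - res (mv N X) := h3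
  have h4' : res (mv N X) * ((1 + N) * X * (1 + N)ᵀ) = 1 - res (mv N X) := h4
  generalize res (mv N X) = R at *
  generalize res X = P at *
  have e1 : X * (P - (1 + N)ᵀ * R) = (1 - P) - X * (1 + N)ᵀ * R := by
    rw [Matrix.mul_sub, h1, Matrix.mul_assoc]
  have e2 : (1 + N) * (X * (P - (1 + N)ᵀ * R)) = (1 + N) * (1 - P) - (1 - R) := by
    rw [e1, Matrix.mul_sub, ← h3']
    simp only [Matrix.mul_assoc]
  have eT : (P - (1 + N)ᵀ * R)ᵀ = P - R * (1 + N) := by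
    rw [transpose_sub, sP, transpose_mul, transpose_transpose, sR]
  have e1' : (P - R * (1 + N)) * X = (1 - P) - R * (1 + N) * X := by
    rw [Matrix.sub_mul, h2]
  have e2' : (P - R * (1 + N)) * X * (1 + N)ᵀ = (1 - P) * (1 + N)ᵀ - (1 - R) := by
    rw [e1', Matrix.sub_mul, ← h4']
    simp only [Matrix.mul_assoc]
  have split : (P - (1 + N)ᵀ * R)ᵀ * (X + X * ((1 + N)ᵀ * (1 + N)) * X) * (P - (1 + N)ᵀ * R)
      = (P - R * (1 + N)) * (X * (P - (1 + N)ᵀ * R))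
        + ((P - R * (1 + N)) * X * (1 + N)ᵀ) * ((1 + N) * (X * (P - (1 + N)ᵀ * R))) := by
    rw [eT]
    noncomm_ring
  have f1 : (P - R * (1 + N)) * (X * (P - (1 + N)ᵀ * R))
      = P * (1 - P) - (P * X) * (1 + N)ᵀ * R - R * (1 + N) * (1 - P)
        + (R * ((1 + N) * X * (1 + N)ᵀ)) * R := by
    rw [e1]
    noncomm_ring
  rw [split, f1, h4', h2, e2, e2', eM]
  noncomm_ring

theorem phi_mv {X : Matrix n n ℝ} (hX : X.PosSemidef) (N : Matrix n n ℝ) :
    (phi (mv N X) - phi X - (res X * N * phi X + phi X * Nᵀ * res X)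
      + phi X * (Nᵀ * N) * phi X).PosSemidef := by
  rw [phi_mv_eq hX N]
  have h1 : (X + X * ((1 + N)ᵀ * (1 + N)) * X).PosSemidef :=
    hX.add (psd_conj_symm (psd_transpose_mul (1 + N)) (psd_isSymm hX))
  have h2 := psd_conj h1 (res X - (1 + N)ᵀ * res (mv N X))ᵀ
  rwa [transpose_transpose] at h2

/-! ### Traces -/

theorem trace_form_le {A B : Matrix n n ℝ} (h : (B - A).PosSemidef) (V : Matrix n p ℝ) :
    (Vᵀ * A * V).trace ≤ (Vᵀ * B * V).trace := by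
  have h1 := (psd_conj h Vᵀ).trace_nonneg
  rw [transpose_transpose, Matrix.mul_sub, Matrix.sub_mul, trace_sub] at h1
  linarith

theorem trace_form_le' {A B : Matrix n n ℝ} (h : (B - A).PosSemidef) (V : Matrix p n ℝ) :
    (V * A * Vᵀ).trace ≤ (V * B * Vᵀ).trace := by
  have h1 := (psd_conj h V).trace_nonneg
  rw [Matrix.mul_sub, Matrix.sub_mul, trace_sub] at h1
  linarith

/-- Cauchy-Schwarz with a parameter, rectangular -/
theorem abs_trace_le {c : ℝ} (hc : 0 < c) (U : Matrix n p ℝ) (V : Matrix p n ℝ) :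
    |(U * V).trace| ≤ (1 / 2) * (c * (U * Uᵀ).trace + c⁻¹ * (Vᵀ * V).trace) := by
  have key : ∀ e : ℝ, e * e = 1 →
      2 * e * (U * V).trace ≤ c * (U * Uᵀ).trace + c⁻¹ * (Vᵀ * V).trace := by
    intro e he
    have h := (psd_mul_transpose (c • U - e • Vᵀ)).trace_nonneg
    have h1 : (c • U - e • Vᵀ) * (c • U - e • Vᵀ)ᵀ
        = (c * c) • (U * Uᵀ) - (c * e) • (U * V) - (e * c) • (Vᵀ * Uᵀ)
          + (e * e) • (Vᵀ * V) := by
      simp only [transpose_sub, transpose_smul, transpose_transpose, Matrix.mul_sub,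
        Matrix.sub_mul, Matrix.mul_smul, Matrix.smul_mul]
      module
    have h2 : (Vᵀ * Uᵀ).trace = (U * V).trace := by
      rw [← transpose_mul, trace_transpose]
    rw [h1, trace_add, trace_sub, trace_sub, trace_smul, trace_smul, trace_smul, trace_smul,
      h2, he] at h
    simp only [smul_eq_mul] at h
    have h3 := mul_le_mul_of_nonneg_left h (inv_nonneg.2 hc.le)
    have h4 : c⁻¹ * (c * c * (U * Uᵀ).trace - c * e * (U * V).trace - e * c * (U * V).trace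
        + 1 * (Vᵀ * V).trace)
        = c * (U * Uᵀ).trace - 2 * e * (U * V).trace + c⁻¹ * (Vᵀ * V).trace := by
      field_simp
      ring
    rw [h4, mul_zero] at h3
    linarith
  rw [abs_le]
  constructor
  · have := key (-1) (by norm_num)
    linarith
  · have := key 1 (by norm_num)
    linarith

section child

variable {X Q : Matrix n n ℝ} {q : ℝ}

theorem sub_phi_psd (hX : X.PosSemidef) : (X - phi X).PosSemidef := by
  have e : X - phi X = X * res X * X := by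
    rw [mul_res hX, Matrix.sub_mul, Matrix.one_mul, res_mul hX, phi]
  rw [e]
  exact psd_conj_symm (res_psd hX) (psd_isSymm hX)

/-- `phi² ≤ X` -/
theorem phi_sq_le (hX : X.PosSemidef) : (X - phi X * phi X).PosSemidef := by
  have e : X - phi X * phi X = (X - phi X) + (phi X - phi X * phi X) := by abel
  rw [e]
  exact (sub_phi_psd hX).add (phi_sub_sq_psd hX)

/-- `Q² ≤ q Q` -/
theorem sq_le_smul (hQ : Q.PosSemidef) (hq : (q • (1 : Matrix n n ℝ) - Q).PosSemidef) :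
    (q • Q - Q * Q).PosSemidef := by
  obtain ⟨S, hS, rfl⟩ := exists_sq hQ
  have h := psd_conj_symm hq (psd_isSymm hS)
  have e : S * (q • (1 : Matrix n n ℝ) - S * S) * S = q • (S * S) - S * S * (S * S) := by
    rw [Matrix.mul_sub, Matrix.sub_mul, Matrix.mul_smul, Matrix.smul_mul, Matrix.mul_one]
    simp only [Matrix.mul_assoc]
  rwa [e] at h

/-- `Q² ≤ q²` -/
theorem sq_le_one (hq0 : 0 ≤ q) (hQ : Q.PosSemidef)
    (hq : (q • (1 : Matrix n n ℝ) - Q).PosSemidef) :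
    (q ^ 2 • (1 : Matrix n n ℝ) - Q * Q).PosSemidef := by
  have e : q ^ 2 • (1 : Matrix n n ℝ) - Q * Q
      = q • (q • (1 : Matrix n n ℝ) - Q) + (q • Q - Q * Q) := by
    rw [smul_sub, smul_smul, sq]; abel
  rw [e]
  exact (hq.smul hq0).add (sq_le_smul hQ hq)

/-- `tr ((N φ)(N φ)ᵀ) ≤ tr (N X Nᵀ)` -/
theorem hs_right (hX : X.PosSemidef) (N : Matrix p n ℝ) :
    ((N * phi X) * (N * phi X)ᵀ).trace ≤ (N * X * Nᵀ).trace := by
  have e : (N * phi X) * (N * phi X)ᵀ = N * (phi X * phi X) * Nᵀ := by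
    rw [transpose_mul, phi_symm hX]; simp only [Matrix.mul_assoc]
  rw [e]
  exact trace_form_le' (phi_sq_le hX) N

/-- `tr ((N φ Q)(N φ Q)ᵀ) ≤ q² tr (N X Nᵀ)` -/
theorem hs_right_Q (hq0 : 0 ≤ q) (hX : X.PosSemidef) (hQ : Q.PosSemidef)
    (hq : (q • (1 : Matrix n n ℝ) - Q).PosSemidef) (N : Matrix p n ℝ) :
    ((N * phi X * Q) * (N * phi X * Q)ᵀ).trace ≤ q ^ 2 * (N * X * Nᵀ).trace := by
  have e : (N * phi X * Q) * (N * phi X * Q)ᵀ = (N * phi X) * (Q * Q) * (N * phi X)ᵀ := by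
    rw [transpose_mul (N * phi X) Q, psd_isSymm hQ]; simp only [Matrix.mul_assoc]
  have h1 := trace_form_le' (sq_le_one hq0 hQ hq) (N * phi X)
  have e2 : (N * phi X) * (q ^ 2 • (1 : Matrix n n ℝ)) * (N * phi X)ᵀ
      = q ^ 2 • ((N * phi X) * (N * phi X)ᵀ) := by
    rw [Matrix.mul_smul, Matrix.smul_mul, Matrix.mul_one]
  rw [e2, trace_smul, smul_eq_mul] at h1
  rw [e]
  exact h1.trans (mul_le_mul_of_nonneg_left (hs_right hX N) (sq_nonneg q))

/-- `tr ((Q φ F)(Q φ F)ᵀ) ≤ q² tr (Fᵀ X F)` -/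
theorem hs_left_Q (hq0 : 0 ≤ q) (hX : X.PosSemidef) (hQ : Q.PosSemidef)
    (hq : (q • (1 : Matrix n n ℝ) - Q).PosSemidef) (F : Matrix n p ℝ) :
    ((Q * phi X * F) * (Q * phi X * F)ᵀ).trace ≤ q ^ 2 * (Fᵀ * X * F).trace := by
  have h := hs_right_Q hq0 hX hQ hq Fᵀ
  rw [transpose_transpose] at h
  have e : ((Q * phi X * F) * (Q * phi X * F)ᵀ).trace
      = ((Fᵀ * phi X * Q) * (Fᵀ * phi X * Q)ᵀ).trace := by
    have e1 : Fᵀ * phi X * Q = (Q * phi X * F)ᵀ := by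
      rw [transpose_mul, transpose_mul, phi_symm hX, psd_isSymm hQ, Matrix.mul_assoc]
    rw [e1, transpose_transpose, trace_mul_comm]
  rw [e]
  exact h

/-- `tr ((Q F)(Q F)ᵀ) ≤ q tr (Fᵀ Q F)` -/
theorem hs_Q (hQ : Q.PosSemidef) (hq : (q • (1 : Matrix n n ℝ) - Q).PosSemidef)
    (F : Matrix n p ℝ) :
    ((Q * F) * (Q * F)ᵀ).trace ≤ q * (Fᵀ * Q * F).trace := by
  have h := trace_form_le (sq_le_smul hQ hq) F
  have e2 : Fᵀ * (q • Q) * F = q • (Fᵀ * Q * F) := by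
    rw [Matrix.mul_smul, Matrix.smul_mul]
  rw [e2, trace_smul, smul_eq_mul] at h
  have e : ((Q * F) * (Q * F)ᵀ).trace = (Fᵀ * (Q * Q) * F).trace := by
    rw [trace_mul_comm, transpose_mul, psd_isSymm hQ]
    simp only [Matrix.mul_assoc]
  rw [e]
  exact h

/-- `tr ((Q P F)(Q P F)ᵀ)` with `P = 1 - phi` -/
theorem hs_res (hq0 : 0 ≤ q) (hX : X.PosSemidef) (hQ : Q.PosSemidef)
    (hq : (q • (1 : Matrix n n ℝ) - Q).PosSemidef) (F : Matrix n p ℝ) :
    ((Q * res X * F) * (Q * res X * F)ᵀ).trace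
      ≤ 2 * q * (Fᵀ * Q * F).trace + 2 * q ^ 2 * (Fᵀ * X * F).trace := by
  have e : Q * res X * F = Q * F - Q * phi X * F := by
    rw [phi, Matrix.mul_sub, Matrix.mul_one, Matrix.sub_mul]; abel
  have h := (psd_mul_transpose (Q * F + Q * phi X * F)).trace_nonneg
  have e2 : (Q * F + Q * phi X * F) * (Q * F + Q * phi X * F)ᵀ
      + (Q * F - Q * phi X * F) * (Q * F - Q * phi X * F)ᵀ
      = (2 : ℝ) • ((Q * F) * (Q * F)ᵀ) + (2 : ℝ) • ((Q * phi X * F) * (Q * phi X * F)ᵀ) := by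
    simp only [transpose_add, transpose_sub, Matrix.add_mul, Matrix.mul_add, Matrix.sub_mul,
      Matrix.mul_sub, two_smul]
    abel
  have e3 := congrArg trace e2
  rw [trace_add, trace_add, trace_smul, trace_smul, smul_eq_mul, smul_eq_mul] at e3
  have h1 := hs_Q hQ hq F
  have h2 := hs_left_Q hq0 hX hQ hq F
  rw [e]
  linarith

/-- **One child.** -/
theorem pair_child (hX : X.PosSemidef) (hQ : Q.PosSemidef)
    (hq : (q • (1 : Matrix n n ℝ) - Q).PosSemidef) (hq0 : 0 ≤ q) (N : Matrix n n ℝ) :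
    (Q * phi X).trace + 2 * (Q * res X * N * phi X).trace - q * (N * X * Nᵀ).trace
      ≤ (Q * phi (mv N X)).trace := by
  have h := trace_mul_nonneg hQ (phi_mv hX N)
  have e : Q * (phi (mv N X) - phi X - (res X * N * phi X + phi X * Nᵀ * res X)
      + phi X * (Nᵀ * N) * phi X)
      = Q * phi (mv N X) - Q * phi X - Q * res X * N * phi X - Q * (phi X * Nᵀ * res X)
        + Q * ((N * phi X)ᵀ * (N * phi X)) := by
    rw [transpose_mul, phi_symm hX]
    noncomm_ring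
  have e1 : (Q * (phi X * Nᵀ * res X)).trace = (Q * res X * N * phi X).trace := by
    rw [← trace_transpose (Q * (phi X * Nᵀ * res X)), transpose_mul, transpose_mul, transpose_mul,
      transpose_transpose, phi_symm hX, res_symm hX, psd_isSymm hQ, trace_mul_comm]
    simp only [Matrix.mul_assoc]
  have e2 : (Q * ((N * phi X)ᵀ * (N * phi X))).trace ≤ q * (N * X * Nᵀ).trace := by
    have h1 := trace_mul_le_left (psd_transpose_mul (N * phi X)) hq
    rw [Matrix.smul_mul, Matrix.one_mul, trace_smul, smul_eq_mul,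
      trace_mul_comm (N * phi X)ᵀ] at h1
    exact h1.trans (mul_le_mul_of_nonneg_left (hs_right hX N) hq0)
  rw [e, trace_add, trace_sub, trace_sub, trace_sub, e1] at h
  linarith

end child

/-! ### The outer step -/

section outer

variable {X₀ X₁ Q : Matrix n n ℝ} {q : ℝ}

theorem form_mean (h0 : X₀.PosSemidef) (h1 : X₁.PosSemidef) (V : Matrix n p ℝ) :
    (Vᵀ * X₀ * V).trace + (Vᵀ * X₁ * V).trace
      = 2 * (Vᵀ * ((1 / 2 : ℝ) • (X₀ + X₁)) * V).trace := by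
  rw [Matrix.mul_smul, Matrix.smul_mul, trace_smul, Matrix.mul_add, Matrix.add_mul, trace_add,
    smul_eq_mul]
  ring

theorem form_mean' (h0 : X₀.PosSemidef) (h1 : X₁.PosSemidef) (V : Matrix p n ℝ) :
    (V * X₀ * Vᵀ).trace + (V * X₁ * Vᵀ).trace
      = 2 * (V * ((1 / 2 : ℝ) • (X₀ + X₁)) * Vᵀ).trace := by
  rw [Matrix.mul_smul, Matrix.smul_mul, trace_smul, Matrix.mul_add, Matrix.add_mul, trace_add,
    smul_eq_mul]
  ring

theorem form_nonneg {X : Matrix n n ℝ} (hX : X.PosSemidef) (V : Matrix n p ℝ) :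
    0 ≤ (Vᵀ * X * V).trace := by
  have h := (psd_conj hX Vᵀ).trace_nonneg
  rwa [transpose_transpose] at h

theorem form_nonneg' {X : Matrix n n ℝ} (hX : X.PosSemidef) (V : Matrix p n ℝ) :
    0 ≤ (V * X * Vᵀ).trace := (psd_conj hX V).trace_nonneg

theorem hs_sum (hX : X₀.PosSemidef) (N D : Matrix n n ℝ) :
    ((N + D) * X₀ * (N + D)ᵀ).trace ≤ 2 * (N * X₀ * Nᵀ).trace + 2 * (D * X₀ * Dᵀ).trace := by
  have h := (psd_conj hX (N - D)).trace_nonneg
  have e : (N + D) * X₀ * (N + D)ᵀ + (N - D) * X₀ * (N - D)ᵀ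
      = (2 : ℝ) • (N * X₀ * Nᵀ) + (2 : ℝ) • (D * X₀ * Dᵀ) := by
    simp only [transpose_add, transpose_sub, Matrix.add_mul, Matrix.mul_add, Matrix.sub_mul,
      Matrix.mul_sub, two_smul]
    abel
  have e3 := congrArg trace e
  rw [trace_add, trace_add, trace_smul, trace_smul, smul_eq_mul, smul_eq_mul] at e3
  linarith

/-- the first order terms of the antisymmetric part -/
theorem first_order (h0 : X₀.PosSemidef) (h1 : X₁.PosSemidef) (hQ : Q.PosSemidef)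
    (hq : (q • (1 : Matrix n n ℝ) - Q).PosSemidef) (hq0 : 0 ≤ q) (N : Matrix n n ℝ)
    {c : ℝ} (hc : 0 < c) :
    |(Q * res X₀ * N * phi X₀).trace - (Q * res X₁ * N * phi X₁).trace|
      ≤ 3 * c * (delt X₀ X₁).trace + c⁻¹ * (q * (Nᵀ * Q * N).trace
        + 2 * q ^ 2 * ((N * ((1 / 2 : ℝ) • (X₀ + X₁)) * Nᵀ).trace
          + (Nᵀ * ((1 / 2 : ℝ) • (X₀ + X₁)) * N).trace)) := by
  set H := hdiff X₀ X₁ with hH
  have hHs : Hᵀ = H := R.hdiff_symm h0 h1
  have hHd : (H * H).trace ≤ (delt X₀ X₁).trace := R.hdiff_sq_le h0 h1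
  have e : Q * res X₀ * N * phi X₀ - Q * res X₁ * N * phi X₁
      = (2 : ℝ) • (Q * N * H) - (2 : ℝ) • (Q * H * (N * phi X₀))
        - (2 : ℝ) • (Q * phi X₁ * N * H) := by
    have e1 : (2 : ℝ) • H = phi X₀ - phi X₁ := by
      rw [hH, hdiff, smul_smul]; norm_num
    have e2 : res X₀ = 1 - phi X₀ := by rw [phi]; abel
    have e3 : res X₁ = 1 - phi X₁ := by rw [phi]; abel
    have e4 : (2 : ℝ) • (Q * N * H) = Q * N * (phi X₀ - phi X₁) := by
      rw [← e1, Matrix.mul_smul]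
    have e5 : (2 : ℝ) • (Q * H * (N * phi X₀)) = Q * (phi X₀ - phi X₁) * (N * phi X₀) := by
      rw [← e1, Matrix.mul_smul, Matrix.smul_mul]
    have e6 : (2 : ℝ) • (Q * phi X₁ * N * H) = Q * phi X₁ * N * (phi X₀ - phi X₁) := by
      rw [← e1, Matrix.mul_smul]
    rw [e4, e5, e6, e2, e3]
    noncomm_ring
  have et := congrArg trace e
  rw [trace_sub, trace_sub, trace_sub, trace_smul, trace_smul, trace_smul] at et
  simp only [smul_eq_mul] at et
  -- the three products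
  have b1 : |(Q * N * H).trace| ≤ (1 / 2) * (c * (H * H).trace
      + c⁻¹ * (q * (Nᵀ * Q * N).trace)) := by
    have h := abs_trace_le hc H (Q * N)
    rw [hHs] at h
    have t1 : (H * (Q * N)).trace = (Q * N * H).trace := by rw [trace_mul_comm]
    have t2 : ((Q * N)ᵀ * (Q * N)).trace = ((Q * N) * (Q * N)ᵀ).trace := by rw [trace_mul_comm]
    rw [t1, t2] at h
    have := mul_le_mul_of_nonneg_left (hs_Q hQ hq N) (inv_nonneg.2 hc.le)
    linarith
  have b2 : |(Q * H * (N * phi X₀)).trace| ≤ (1 / 2) * (c * (H * H).trace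
      + c⁻¹ * (q ^ 2 * (N * X₀ * Nᵀ).trace)) := by
    have h := abs_trace_le hc H (N * phi X₀ * Q)
    rw [hHs] at h
    have t1 : (H * (N * phi X₀ * Q)).trace = (Q * H * (N * phi X₀)).trace := by
      rw [← Matrix.mul_assoc, trace_mul_comm, ← Matrix.mul_assoc]
    have t2 : ((N * phi X₀ * Q)ᵀ * (N * phi X₀ * Q)).trace
        = ((N * phi X₀ * Q) * (N * phi X₀ * Q)ᵀ).trace := by rw [trace_mul_comm]
    rw [t1, t2] at h
    have := mul_le_mul_of_nonneg_left (hs_right_Q hq0 h0 hQ hq N) (inv_nonneg.2 hc.le)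
    linarith
  have b3 : |(Q * phi X₁ * N * H).trace| ≤ (1 / 2) * (c * (H * H).trace
      + c⁻¹ * (q ^ 2 * (Nᵀ * X₁ * N).trace)) := by
    have h := abs_trace_le hc H (Q * phi X₁ * N)
    rw [hHs] at h
    have t1 : (H * (Q * phi X₁ * N)).trace = (Q * phi X₁ * N * H).trace := by
      rw [trace_mul_comm]
    have t2 : ((Q * phi X₁ * N)ᵀ * (Q * phi X₁ * N)).trace
        = ((Q * phi X₁ * N) * (Q * phi X₁ * N)ᵀ).trace := by rw [trace_mul_comm]
    rw [t1, t2] at h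
    have := mul_le_mul_of_nonneg_left (hs_left_Q hq0 h1 hQ hq N) (inv_nonneg.2 hc.le)
    linarith
  have m1 := form_mean' h0 h1 N
  have m2 := form_mean h0 h1 N
  have p1 := form_nonneg' h1 N
  have p2 := form_nonneg h0 N
  have hc' := inv_nonneg.2 hc.le
  have g1 : c⁻¹ * (q ^ 2 * (N * X₀ * Nᵀ).trace)
      ≤ c⁻¹ * (2 * q ^ 2 * (N * ((1 / 2 : ℝ) • (X₀ + X₁)) * Nᵀ).trace) := by
    refine mul_le_mul_of_nonneg_left ?_ hc'
    nlinarith [sq_nonneg q, mul_nonneg (sq_nonneg q) p1]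
  have g2 : c⁻¹ * (q ^ 2 * (Nᵀ * X₁ * N).trace)
      ≤ c⁻¹ * (2 * q ^ 2 * (Nᵀ * ((1 / 2 : ℝ) • (X₀ + X₁)) * N).trace) := by
    refine mul_le_mul_of_nonneg_left ?_ hc'
    nlinarith [sq_nonneg q, mul_nonneg (sq_nonneg q) p2]
  have g3 := mul_le_mul_of_nonneg_left hHd hc.le
  rw [et]
  rw [abs_le] at b1 b2 b3 ⊢
  constructor <;> nlinarith [b1.1, b1.2, b2.1, b2.2, b3.1, b3.2, g1, g2, g3]

/-- the drift terms -/
theorem drift_term (h0 : X₀.PosSemidef) (hQ : Q.PosSemidef)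
    (hq : (q • (1 : Matrix n n ℝ) - Q).PosSemidef) (hq0 : 0 ≤ q) (F : Matrix n p ℝ)
    (E : Matrix p n ℝ) {d : ℝ} (hd : 0 < d) :
    |(Q * res X₀ * (F * E) * phi X₀).trace|
      ≤ d⁻¹ * (q * (Fᵀ * Q * F).trace + q ^ 2 * (Fᵀ * X₀ * F).trace)
        + (1 / 2) * (d * (E * X₀ * Eᵀ).trace) := by
  have h := abs_trace_le (inv_pos.2 hd) (Q * res X₀ * F) (E * phi X₀)
  have e : Q * res X₀ * F * (E * phi X₀) = Q * res X₀ * (F * E) * phi X₀ := by
    simp only [Matrix.mul_assoc]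
  have t2 : ((E * phi X₀)ᵀ * (E * phi X₀)).trace = ((E * phi X₀) * (E * phi X₀)ᵀ).trace := by
    rw [trace_mul_comm]
  rw [e, t2, inv_inv] at h
  have h1 := mul_le_mul_of_nonneg_left (hs_res hq0 h0 hQ hq F) (inv_nonneg.2 hd.le)
  have h2 := mul_le_mul_of_nonneg_left (hs_right h0 E) hd.le
  refine h.trans ?_
  calc (1 / 2) * (d⁻¹ * ((Q * res X₀ * F) * (Q * res X₀ * F)ᵀ).trace
        + d * ((E * phi X₀) * (E * phi X₀)ᵀ).trace)
      ≤ (1 / 2) * (d⁻¹ * (2 * q * (Fᵀ * Q * F).trace + 2 * q ^ 2 * (Fᵀ * X₀ * F).trace)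
        + d * (E * X₀ * Eᵀ).trace) := by linarith
    _ = _ := by ring

/-- concavity, static: the parent of the outer step -/
theorem parent_le (h0 : X₀.PosSemidef) (h1 : X₁.PosSemidef)
    (hq : (q • (1 : Matrix n n ℝ) - Q).PosSemidef) :
    (Q * phi ((1 / 2 : ℝ) • (X₀ + X₁))).trace
      ≤ (1 / 2) * ((Q * phi X₀).trace + (Q * phi X₁).trace) + q * (delt X₀ X₁).trace := by
  have e : phi ((1 / 2 : ℝ) • (X₀ + X₁)) = (1 / 2 : ℝ) • (phi X₀ + phi X₁) + delt X₀ X₁ := by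
    rw [delt]; abel
  have h := trace_mul_le_left (delt_psd h0 h1) hq
  rw [Matrix.smul_mul, Matrix.one_mul, trace_smul, smul_eq_mul] at h
  rw [e, Matrix.mul_add, trace_add, Matrix.mul_smul, trace_smul, Matrix.mul_add, trace_add,
    smul_eq_mul]
  linarith

/-- **The outer step of a pair with a moving slot**, antisymmetric move `N` and drift `F * E`. -/
theorem pair_outer (h0 : X₀.PosSemidef) (h1 : X₁.PosSemidef) (hQ : Q.PosSemidef)
    (hq : (q • (1 : Matrix n n ℝ) - Q).PosSemidef) (hq0 : 0 ≤ q) (N : Matrix n n ℝ)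
    (F : Matrix n p ℝ) (E : Matrix p n ℝ) {c d : ℝ} (hc : 0 < c) (hd : 0 < d) :
    (Q * phi ((1 / 2 : ℝ) • (X₀ + X₁))).trace
      ≤ (1 / 2) * ((Q * phi (mv (N + F * E) X₀)).trace + (Q * phi (mv (-N + F * E) X₁)).trace)
        + (q + 3 * c) * (delt X₀ X₁).trace
        + c⁻¹ * (q * (Nᵀ * Q * N).trace
          + 2 * q ^ 2 * ((N * ((1 / 2 : ℝ) • (X₀ + X₁)) * Nᵀ).trace
            + (Nᵀ * ((1 / 2 : ℝ) • (X₀ + X₁)) * N).trace))
        + (d⁻¹ * (2 * q * (Fᵀ * Q * F).trace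
            + 2 * q ^ 2 * (Fᵀ * ((1 / 2 : ℝ) • (X₀ + X₁)) * F).trace)
          + d * (E * ((1 / 2 : ℝ) • (X₀ + X₁)) * Eᵀ).trace)
        + 2 * q * ((N * ((1 / 2 : ℝ) • (X₀ + X₁)) * Nᵀ).trace
          + ((F * E) * ((1 / 2 : ℝ) • (X₀ + X₁)) * (F * E)ᵀ).trace) := by
  have c0 := pair_child h0 hQ hq hq0 (N + F * E)
  have c1 := pair_child h1 hQ hq hq0 (-N + F * E)
  have par := parent_le h0 h1 hq
  have fo := first_order h0 h1 hQ hq hq0 N hc
  have d0 := drift_term h0 hQ hq hq0 F E hd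
  have d1 := drift_term h1 hQ hq hq0 F E hd
  have e0 : (Q * res X₀ * (N + F * E) * phi X₀).trace
      = (Q * res X₀ * N * phi X₀).trace + (Q * res X₀ * (F * E) * phi X₀).trace := by
    rw [Matrix.mul_add, Matrix.add_mul, trace_add]
  have e1 : (Q * res X₁ * (-N + F * E) * phi X₁).trace
      = -(Q * res X₁ * N * phi X₁).trace + (Q * res X₁ * (F * E) * phi X₁).trace := by
    rw [Matrix.mul_add, Matrix.add_mul, trace_add, Matrix.mul_neg, Matrix.neg_mul, trace_neg]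
  have s0 := mul_le_mul_of_nonneg_left (hs_sum h0 N (F * E)) hq0
  have s1 := mul_le_mul_of_nonneg_left (hs_sum h1 (-N) (F * E)) hq0
  have eN : ((-N) * X₁ * (-N)ᵀ) = N * X₁ * Nᵀ := by
    rw [transpose_neg, Matrix.neg_mul, Matrix.neg_mul, Matrix.mul_neg, neg_neg]
  rw [eN] at s1
  have m1 := form_mean' h0 h1 N
  have m2 := form_mean' h0 h1 (F * E)
  have m3 := form_mean h0 h1 F
  have m4 := form_mean' h0 h1 E
  rw [e0] at c0
  rw [e1] at c1
  rw [abs_le] at fo d0 d1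
  have q1 : q * (N * ((1 / 2 : ℝ) • (X₀ + X₁)) * Nᵀ).trace
      = (1 / 2) * (q * (N * X₀ * Nᵀ).trace + q * (N * X₁ * Nᵀ).trace) := by
    rw [← mul_add, m1]; ring
  have q2 : q * ((F * E) * ((1 / 2 : ℝ) • (X₀ + X₁)) * (F * E)ᵀ).trace
      = (1 / 2) * (q * ((F * E) * X₀ * (F * E)ᵀ).trace
        + q * ((F * E) * X₁ * (F * E)ᵀ).trace) := by
    rw [← mul_add, m2]; ring
  have q3 : d⁻¹ * (2 * q * (Fᵀ * Q * F).trace
      + 2 * q ^ 2 * (Fᵀ * ((1 / 2 : ℝ) • (X₀ + X₁)) * F).trace)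
      = d⁻¹ * (q * (Fᵀ * Q * F).trace + q ^ 2 * (Fᵀ * X₀ * F).trace)
        + d⁻¹ * (q * (Fᵀ * Q * F).trace + q ^ 2 * (Fᵀ * X₁ * F).trace) := by
    have : 2 * q ^ 2 * (Fᵀ * ((1 / 2 : ℝ) • (X₀ + X₁)) * F).trace
        = q ^ 2 * ((Fᵀ * X₀ * F).trace + (Fᵀ * X₁ * F).trace) := by rw [m3]; ring
    rw [this]; ring
  have q4 : d * (E * ((1 / 2 : ℝ) • (X₀ + X₁)) * Eᵀ).trace
      = (1 / 2) * (d * (E * X₀ * Eᵀ).trace) + (1 / 2) * (d * (E * X₁ * Eᵀ).trace) := by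
    rw [← mul_add, ← mul_add, m4]; ring
  rw [q3, q4, mul_assoc 2 q, mul_add q, q1, q2]
  linarith [fo.1, fo.2, d0.1, d0.2, d1.1, d1.2]

/-- **The outer step without drift.** -/
theorem pair_outer' (h0 : X₀.PosSemidef) (h1 : X₁.PosSemidef) (hQ : Q.PosSemidef)
    (hq : (q • (1 : Matrix n n ℝ) - Q).PosSemidef) (hq0 : 0 ≤ q) (N : Matrix n n ℝ)
    {c : ℝ} (hc : 0 < c) :
    (Q * phi ((1 / 2 : ℝ) • (X₀ + X₁))).trace
      ≤ (1 / 2) * ((Q * phi (mv N X₀)).trace + (Q * phi (mv (-N) X₁)).trace)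
        + (q + 3 * c) * (delt X₀ X₁).trace
        + c⁻¹ * (q * (Nᵀ * Q * N).trace
          + 2 * q ^ 2 * ((N * ((1 / 2 : ℝ) • (X₀ + X₁)) * Nᵀ).trace
            + (Nᵀ * ((1 / 2 : ℝ) • (X₀ + X₁)) * N).trace))
        + q * (N * ((1 / 2 : ℝ) • (X₀ + X₁)) * Nᵀ).trace := by
  have c0 := pair_child h0 hQ hq hq0 N
  have c1 := pair_child h1 hQ hq hq0 (-N)
  have par := parent_le h0 h1 hq
  have fo := first_order h0 h1 hQ hq hq0 N hc
  have e1 : (Q * res X₁ * (-N) * phi X₁).trace = -(Q * res X₁ * N * phi X₁).trace := by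
    rw [Matrix.mul_neg, Matrix.neg_mul, trace_neg]
  have eN : ((-N) * X₁ * (-N)ᵀ) = N * X₁ * Nᵀ := by
    rw [transpose_neg, Matrix.neg_mul, Matrix.neg_mul, Matrix.mul_neg, neg_neg]
  have m1 := form_mean' h0 h1 N
  rw [e1, eN] at c1
  rw [abs_le] at fo
  have q1 : q * (N * ((1 / 2 : ℝ) • (X₀ + X₁)) * Nᵀ).trace
      = (1 / 2) * (q * (N * X₀ * Nᵀ).trace + q * (N * X₁ * Nᵀ).trace) := by
    rw [← mul_add, m1]; ring
  rw [q1]
  linarith [fo.1, fo.2]

end outer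

/-! ### At a level -/

section level

variable {X₀ X₁ Q : Matrix n n ℝ} {q s : ℝ}

/-- `s phi (X / s)` -/
noncomputable def phs (s : ℝ) (X : Matrix n n ℝ) : Matrix n n ℝ := s • phi (s⁻¹ • X)

/-- deficiency of operator concavity of `phs s` times `s` -/
noncomputable def dls (s : ℝ) (X₀ X₁ : Matrix n n ℝ) : ℝ :=
  s ^ 2 * (delt (s⁻¹ • X₀) (s⁻¹ • X₁)).trace

/-- **The outer step at level `s`** (`s` = square of the level), with `dls` = own defect. -/
theorem pair_outer_lev (hs : 0 < s) (h0 : X₀.PosSemidef) (h1 : X₁.PosSemidef)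
    (hQ : Q.PosSemidef) (hq : (q • (1 : Matrix n n ℝ) - Q).PosSemidef) (hq0 : 0 ≤ q)
    (N : Matrix n n ℝ) (F : Matrix n p ℝ) (E : Matrix p n ℝ) {c d : ℝ} (hc : 0 < c)
    (hd : 0 < d) :
    (Q * phs s ((1 / 2 : ℝ) • (X₀ + X₁))).trace
      ≤ (1 / 2) * ((Q * phs s (mv (N + F * E) X₀)).trace
          + (Q * phs s (mv (-N + F * E) X₁)).trace)
        + (q * s⁻¹ + 3 * c) * dls s X₀ X₁
        + c⁻¹ * (q * (Nᵀ * Q * N).trace
          + 2 * q ^ 2 * s⁻¹ * ((N * ((1 / 2 : ℝ) • (X₀ + X₁)) * Nᵀ).trace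
            + (Nᵀ * ((1 / 2 : ℝ) • (X₀ + X₁)) * N).trace))
        + (d⁻¹ * (2 * q * s * (Fᵀ * Q * F).trace
            + 2 * q ^ 2 * (Fᵀ * ((1 / 2 : ℝ) • (X₀ + X₁)) * F).trace)
          + d * (E * ((1 / 2 : ℝ) • (X₀ + X₁)) * Eᵀ).trace)
        + 2 * q * ((N * ((1 / 2 : ℝ) • (X₀ + X₁)) * Nᵀ).trace
          + ((F * E) * ((1 / 2 : ℝ) • (X₀ + X₁)) * (F * E)ᵀ).trace) := by
  have hs' : 0 < s⁻¹ := inv_pos.2 hs
  have k0 : (s⁻¹ • X₀).PosSemidef := h0.smul hs'.le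
  have k1 : (s⁻¹ • X₁).PosSemidef := h1.smul hs'.le
  have h := pair_outer k0 k1 hQ hq hq0 N F E (mul_pos hc hs) hd
  have eW : (1 / 2 : ℝ) • (s⁻¹ • X₀ + s⁻¹ • X₁) = s⁻¹ • ((1 / 2 : ℝ) • (X₀ + X₁)) := by
    rw [← smul_add, smul_comm]
  rw [eW] at h
  generalize (1 / 2 : ℝ) • (X₀ + X₁) = W at h ⊢
  simp only [mv_smul, Matrix.mul_smul, Matrix.smul_mul, trace_smul, smul_eq_mul] at h
  have h2 := mul_le_mul_of_nonneg_left h hs.le
  have hss : s * s⁻¹ = 1 := mul_inv_cancel₀ hs.ne'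
  simp only [phs, dls, Matrix.mul_smul, trace_smul, smul_eq_mul]
  refine (le_of_eq rfl).trans (h2.trans (le_of_eq ?_))
  have ec : (c * s)⁻¹ = c⁻¹ * s⁻¹ := by rw [mul_inv]
  rw [ec]
  field_simp

/-- **The outer step at level `s` without drift.** -/
theorem pair_outer_lev' (hs : 0 < s) (h0 : X₀.PosSemidef) (h1 : X₁.PosSemidef)
    (hQ : Q.PosSemidef) (hq : (q • (1 : Matrix n n ℝ) - Q).PosSemidef) (hq0 : 0 ≤ q)
    (N : Matrix n n ℝ) {c : ℝ} (hc : 0 < c) :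
    (Q * phs s ((1 / 2 : ℝ) • (X₀ + X₁))).trace
      ≤ (1 / 2) * ((Q * phs s (mv N X₀)).trace + (Q * phs s (mv (-N) X₁)).trace)
        + (q * s⁻¹ + 3 * c) * dls s X₀ X₁
        + c⁻¹ * (q * (Nᵀ * Q * N).trace
          + 2 * q ^ 2 * s⁻¹ * ((N * ((1 / 2 : ℝ) • (X₀ + X₁)) * Nᵀ).trace
            + (Nᵀ * ((1 / 2 : ℝ) • (X₀ + X₁)) * N).trace))
        + q * (N * ((1 / 2 : ℝ) • (X₀ + X₁)) * Nᵀ).trace := by
  have hs' : 0 < s⁻¹ := inv_pos.2 hs
  have k0 : (s⁻¹ • X₀).PosSemidef := h0.smul hs'.le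
  have k1 : (s⁻¹ • X₁).PosSemidef := h1.smul hs'.le
  have h := pair_outer' k0 k1 hQ hq hq0 N (mul_pos hc hs)
  have eW : (1 / 2 : ℝ) • (s⁻¹ • X₀ + s⁻¹ • X₁) = s⁻¹ • ((1 / 2 : ℝ) • (X₀ + X₁)) := by
    rw [← smul_add, smul_comm]
  rw [eW] at h
  generalize (1 / 2 : ℝ) • (X₀ + X₁) = W at h ⊢
  simp only [mv_smul, Matrix.mul_smul, Matrix.smul_mul, trace_smul, smul_eq_mul] at h
  have h2 := mul_le_mul_of_nonneg_left h hs.le
  simp only [phs, dls, Matrix.mul_smul, trace_smul, smul_eq_mul]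
  refine (le_of_eq rfl).trans (h2.trans (le_of_eq ?_))
  have ec : (c * s)⁻¹ = c⁻¹ * s⁻¹ := by rw [mul_inv]
  rw [ec]
  field_simp

end level

end Vale.Agent.P141.H585.PairCh
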