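import Vale.Agent.P141.H389.PlaneV
import Vale.Agent.P141.H45.PhiMid
import Vale.Agent.P141.H585.PairCh

/-!
# The pair (B, C~): middle variable carries the labels, the stack moves in the outer step

Abstract families: `P` is the raw Gram family of the partner, `W` the Gram family of the moving
stack; the second family of the plane step is `phs s (W ..)`.
-/

namespace Vale.Agent.P141.H585.PairO

open Finset Matrix Vale.Agent.P075 Vale.Agent.P141.PL Vale.Agent.P141.PL.H103 Vale.Agent.P141.H103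
open Vale.Agent.P141.H389 Vale.Agent.P141.H585.PairCh

noncomputable section

/-! ### Plane sums of one sided and two sided terms -/

theorem GW_add (N : ℕ) (R S T : ℤ) (k : ℕ) (c : ℤ) (g h : ℤ → ℤ → ℤ → ℝ) :
    GW N R S T k c (fun n n' m => g n n' m + h n n' m)
      = GW N R S T k c g + GW N R S T k c h := by
  unfold GW
  rw [← mul_add, ← Finset.sum_add_distrib]
  refine congrArg (fun z => (4 : ℝ) ^ k * z) (Finset.sum_congr rfl fun m _ => ?_)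
  rw [← Finset.sum_add_distrib]
  refine Finset.sum_congr rfl fun n _ => ?_
  split_ifs <;> simp

theorem GW_mul (N : ℕ) (R S T : ℤ) (k : ℕ) (c : ℤ) (a : ℝ) (g : ℤ → ℤ → ℤ → ℝ) :
    GW N R S T k c (fun n n' m => a * g n n' m) = a * GW N R S T k c g := by
  unfold GW
  rw [mul_left_comm]
  refine congrArg (fun z => (4 : ℝ) ^ k * z) ?_
  rw [Finset.mul_sum]
  refine Finset.sum_congr rfl fun m _ => ?_
  rw [Finset.mul_sum]
  refine Finset.sum_congr rfl fun n _ => ?_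
  split_ifs <;> simp

theorem GW_mono {N : ℕ} {R S T : ℤ} {k : ℕ} {c : ℤ} {g h : ℤ → ℤ → ℤ → ℝ}
    (H : ∀ n ∈ iv (N - k) R, ∀ n' ∈ iv (N - k) T, ∀ m ∈ iv (N - k) S, g n n' m ≤ h n n' m) :
    GW N R S T k c g ≤ GW N R S T k c h := by
  unfold GW
  refine mul_le_mul_of_nonneg_left ?_ (by positivity)
  refine Finset.sum_le_sum fun m hm => Finset.sum_le_sum fun n hn => ?_
  split_ifs with hc
  · exact H n hn _ hc m hm
  · exact le_rfl

/-- a term which sees the second outer cell only -/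
theorem GW_le_one (N : ℕ) (R S T : ℤ) (k : ℕ) (c : ℤ) {f : ℤ → ℤ → ℝ}
    (hf : ∀ n m, 0 ≤ f n m) :
    GW N R S T k c (fun _ n' m => f n' m)
      ≤ (4 : ℝ) ^ k * ∑ m ∈ iv (N - k) S, ∑ n' ∈ iv (N - k) T, f n' m := by
  unfold GW
  refine mul_le_mul_of_nonneg_left ?_ (by positivity)
  refine Finset.sum_le_sum fun m _ => ?_
  exact H588.sum_refl_le (N - k) R T (c - m) (fun n' => f n' m) (fun n' => hf n' m)

/-! ### The node -/

section node

variable {κ κ' : Type*} [Fintype κ] [DecidableEq κ] [Fintype κ'] [DecidableEq κ']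

/-- own gap of the saturated parent -/
def gp (s : ℝ) (r W : Matrix κ κ ℝ) : ℝ := s ^ 2 * (phi (s⁻¹ • W) * (r * phi (s⁻¹ • W) * r)).trace

theorem gp_nonneg {s : ℝ} (hs : 0 < s) {r W : Matrix κ κ ℝ} (hW : W.PosSemidef) (hr : rᵀ = r) :
    0 ≤ gp s r W := by
  have h : (s⁻¹ • W).PosSemidef := hW.smul (inv_pos.2 hs).le
  exact mul_nonneg (sq_nonneg _) (trace_mul_nonneg (phi_psd h) (psd_conj_symm (phi_psd h) hr))

/-- the middle step at level `s` -/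
theorem mid_lev {s K : ℝ} (hs : 0 < s) {X W r : Matrix κ κ ℝ} (hX : X.PosSemidef)
    (hK : (K • (1 : Matrix κ κ ℝ) - X).PosSemidef) (hK0 : 0 ≤ K) (hW : W.PosSemidef)
    (hr : rᵀ = r) (hr2 : r * r = 1) :
    (X * phs s W).trace + (1 / 2) * (X * (r * phs s W * r)).trace
      ≤ (X * phs s (W + r * W * r)).trace + K * s⁻¹ * gp s r W := by
  have h := H45.mid_partner hX hK hK0 (hW.smul (α := ℝ) (inv_pos.2 hs).le) hr hr2
  have h2 := mul_le_mul_of_nonneg_left h hs.le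
  have e1 : s⁻¹ • W + r * (s⁻¹ • W) * r = s⁻¹ • (W + r * W * r) := by
    rw [Matrix.mul_smul, Matrix.smul_mul, ← smul_add]
  rw [e1] at h2
  have e2 : s⁻¹ * s ^ 2 = s := by
    field_simp
  have e3 : K * s⁻¹ * gp s r W
      = s * (K * (phi (s⁻¹ • W) * (r * phi (s⁻¹ • W) * r)).trace) := by
    unfold gp
    rw [← mul_assoc, mul_assoc K, e2]
    ring
  rw [e3]
  unfold phs
  simp only [Matrix.mul_smul, Matrix.smul_mul, trace_smul, smul_eq_mul]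
  linarith

theorem dls_nonneg {s : ℝ} (hs : 0 < s) {X₀ X₁ : Matrix κ κ ℝ} (h0 : X₀.PosSemidef)
    (h1 : X₁.PosSemidef) : 0 ≤ dls s X₀ X₁ :=
  mul_nonneg (sq_nonneg _) (delt_psd (h0.smul (inv_pos.2 hs).le)
    (h1.smul (inv_pos.2 hs).le)).trace_nonneg

/-- energy of the move, right and left -/
def mvE (M X₀ X₁ : Matrix κ κ ℝ) : ℝ :=
  (M * ((1 / 2 : ℝ) • (X₀ + X₁)) * Mᵀ).trace + (Mᵀ * ((1 / 2 : ℝ) • (X₀ + X₁)) * M).trace

theorem mvE_nonneg {M X₀ X₁ : Matrix κ κ ℝ} (h0 : X₀.PosSemidef) (h1 : X₁.PosSemidef) :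
    0 ≤ mvE M X₀ X₁ :=
  add_nonneg (form_nonneg' (half_psd h0 h1) M) (form_nonneg (half_psd h0 h1) M)

/-- **One half of the middle cell**: the outer step with the move, errors linear. -/
theorem half_step {s t2 c : ℝ} (hs : 0 < s) (ht : 0 ≤ t2) (hc : 0 < c)
    {Q X₀ X₁ M : Matrix κ κ ℝ} (h0 : X₀.PosSemidef) (h1 : X₁.PosSemidef) (hQ : Q.PosSemidef)
    (hq : (t2 • (1 : Matrix κ κ ℝ) - Q).PosSemidef) :
    (Q * phs s ((1 / 2 : ℝ) • (X₀ + X₁))).trace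
      ≤ (1 / 2) * ((Q * phs s (mv M X₀)).trace + (Q * phs s (mv (-M) X₁)).trace)
        + (t2 * s⁻¹ + 3 * c) * dls s X₀ X₁ + c⁻¹ * t2 * (Mᵀ * Q * M).trace
        + (t2 + c⁻¹ * (2 * t2 ^ 2 * s⁻¹)) * mvE M X₀ X₁ := by
  have h := pair_outer_lev' hs h0 h1 hQ hq ht M hc
  have p1 := form_nonneg (half_psd h0 h1) M
  have p2 := mul_nonneg ht p1
  unfold mvE
  nlinarith

end node

/-! ### The plane theorem -/

section plane

variable {ι : ℕ → Type*} [∀ k, Fintype (ι k)] [∀ k, DecidableEq (ι k)]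

/-- Data of the moving pair: `P` raw partner, `W` stack, `r` the signs of the two halves of the
middle cell, `P'` partner of time `k + 1` on a half, `X₀, X₁` static halves, `M` the move. -/
structure MPair (N k₀ : ℕ) (s t2 : ℝ) (P W : ∀ k, ℕ → ℤ → ℤ → Matrix (ι k) (ι k) ℝ)
    (r : ∀ k, Matrix (ι (k + 1)) (ι (k + 1)) ℝ) (P' X₀ X₁ M : ∀ k, ℤ → ℤ → Matrix (ι k) (ι k) ℝ)
    (x : ℕ → ℤ → ℤ → ℤ → ℝ) : Prop where
  sP : ∀ k a n m, (P k a n m).PosSemidef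
  sW : ∀ k a n m, (W k a n m).PosSemidef
  hr : ∀ k, (r k)ᵀ = r k
  hr2 : ∀ k, r k * r k = 1
  capP : ∀ k, k₀ ≤ k → k < N → ∀ n m,
    (t2 • (1 : Matrix (ι (k + 1)) (ι (k + 1)) ℝ) - P (k + 1) (k + 1) n m).PosSemidef
  sP' : ∀ k n m, (P' k n m).PosSemidef
  capP' : ∀ k, k₀ ≤ k → k < N → ∀ n m,
    (t2 • (1 : Matrix (ι k) (ι k) ℝ) - P' k n m).PosSemidef
  s0 : ∀ k n m, (X₀ k n m).PosSemidef
  s1 : ∀ k n m, (X₁ k n m).PosSemidef
  blk : ∀ k, k₀ ≤ k → k < N → ∀ n n' m,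
    (P (k + 1) (k + 1) n m * phs s (W (k + 1) (k + 1) n' m
      + r k * W (k + 1) (k + 1) n' m * r k)).trace
    = (1 / 2) * ((P' k n (2 * m)
        * phs s ((1 / 2 : ℝ) • (X₀ k n' (2 * m) + X₁ k n' (2 * m)))).trace
      + (P' k n (2 * m + 1)
        * phs s ((1 / 2 : ℝ) • (X₀ k n' (2 * m + 1) + X₁ k n' (2 * m + 1)))).trace)
  kill : ∀ k, k₀ ≤ k → k < N → ∀ n n' h,
    (1 / 2) * ((P' k n h * phs s (mv (M k n' h) (X₀ k n' h))).trace
        + (P' k n h * phs s (mv (-M k n' h) (X₁ k n' h))).trace)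
      ≤ (mn (fun n => P k k n h) n * mn (fun n => phs s (W k k n h)) n').trace + x k n n' h

variable {N k₀ : ℕ} {s t2 : ℝ} {P W : ∀ k, ℕ → ℤ → ℤ → Matrix (ι k) (ι k) ℝ}
  {r : ∀ k, Matrix (ι (k + 1)) (ι (k + 1)) ℝ} {P' X₀ X₁ M : ∀ k, ℤ → ℤ → Matrix (ι k) (ι k) ℝ}
  {x : ℕ → ℤ → ℤ → ℤ → ℝ}

/-- the gain of the middle step -/
def gain (s : ℝ) (P W : ∀ k, ℕ → ℤ → ℤ → Matrix (ι k) (ι k) ℝ)
    (r : ∀ k, Matrix (ι (k + 1)) (ι (k + 1)) ℝ) (k : ℕ) (n n' m : ℤ) : ℝ :=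
  (P (k + 1) (k + 1) n m * (r k * phs s (W (k + 1) (k + 1) n' m) * r k)).trace

/-- mean over the two halves of the middle cell -/
def mh (f : ℤ → ℝ) (m : ℤ) : ℝ := (1 / 2) * (f (2 * m) + f (2 * m + 1))

theorem mh_nonneg {f : ℤ → ℝ} (h : ∀ m, 0 ≤ f m) (m : ℤ) : 0 ≤ mh f m := by
  unfold mh
  have := h (2 * m)
  have := h (2 * m + 1)
  positivity

/-- all losses of the node -/
def loss (s t2 c : ℝ) (W : ∀ k, ℕ → ℤ → ℤ → Matrix (ι k) (ι k) ℝ)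
    (r : ∀ k, Matrix (ι (k + 1)) (ι (k + 1)) ℝ) (P' X₀ X₁ M : ∀ k, ℤ → ℤ → Matrix (ι k) (ι k) ℝ)
    (x : ℕ → ℤ → ℤ → ℤ → ℝ) (k : ℕ) (n n' m : ℤ) : ℝ :=
  t2 * s⁻¹ * gp s (r k) (W (k + 1) (k + 1) n' m)
    + (t2 * s⁻¹ + 3 * c) * mh (fun h => dls s (X₀ k n' h) (X₁ k n' h)) m
    + c⁻¹ * t2 * mh (fun h => ((M k n' h)ᵀ * P' k n h * M k n' h).trace) m
    + (t2 + c⁻¹ * (2 * t2 ^ 2 * s⁻¹)) * mh (fun h => mvE (M k n' h) (X₀ k n' h) (X₁ k n' h)) m
    + mh (fun h => x k n n' h) m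

/-- **The node inequality.** -/
theorem MPair.mid (H : MPair N k₀ s t2 P W r P' X₀ X₁ M x) (hs : 0 < s) (ht : 0 ≤ t2) {c : ℝ}
    (hc : 0 < c) {k : ℕ} (h1 : k₀ ≤ k) (h2 : k < N) (n n' m : ℤ) :
    (P (k + 1) (k + 1) n m * phs s (W (k + 1) (k + 1) n' m)).trace
      + ((1 / 2) * gain s P W r k n n' m - loss s t2 c W r P' X₀ X₁ M x k n n' m)
      ≤ (1 / 2) * ((mn (fun n => P k k n (2 * m)) n
          * mn (fun n => phs s (W k k n (2 * m))) n').trace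
        + (mn (fun n => P k k n (2 * m + 1)) n
          * mn (fun n => phs s (W k k n (2 * m + 1))) n').trace) := by
  have a1 := mid_lev hs (H.sP (k + 1) (k + 1) n m) (H.capP k h1 h2 n m) ht
    (H.sW (k + 1) (k + 1) n' m) (H.hr k) (H.hr2 k)
  rw [H.blk k h1 h2 n n' m] at a1
  have b0 := half_step (M := M k n' (2 * m)) hs ht hc (H.s0 k n' (2 * m)) (H.s1 k n' (2 * m))
    (H.sP' k n (2 * m)) (H.capP' k h1 h2 n (2 * m))
  have b1 := half_step (M := M k n' (2 * m + 1)) hs ht hc (H.s0 k n' (2 * m + 1))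
    (H.s1 k n' (2 * m + 1)) (H.sP' k n (2 * m + 1)) (H.capP' k h1 h2 n (2 * m + 1))
  have k0 := H.kill k h1 h2 n n' (2 * m)
  have k1 := H.kill k h1 h2 n n' (2 * m + 1)
  unfold gain loss mh
  nlinarith

theorem phs_symm {s : ℝ} (hs : 0 < s) {κ : Type*} [Fintype κ] [DecidableEq κ] {X : Matrix κ κ ℝ}
    (hX : X.PosSemidef) : (phs s X)ᵀ = phs s X := by
  unfold phs
  rw [transpose_smul, phi_symm (hX.smul (α := ℝ) (inv_pos.2 hs).le)]

/-- **The plane theorem, with a parameter.** -/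
theorem MPair.total (H : MPair N k₀ s t2 P W r P' X₀ X₁ M x) (hs : 0 < s) (ht : 0 ≤ t2) {c : ℝ}
    (hc : 0 < c) (hkN : k₀ ≤ N) {R S T : ℤ} {cc : ℕ → ℤ} (hcc : H588.Pl cc)
    {OM OO ZB ZM X : ℝ}
    (hOM : ∑ k ∈ Ico k₀ N, (4 : ℝ) ^ (k + 1) * ∑ m ∈ iv (N - (k + 1)) S,
      ∑ n ∈ iv (N - (k + 1)) T, gp s (r k) (W (k + 1) (k + 1) n m) ≤ OM)
    (hOO : ∑ k ∈ Ico k₀ N, (4 : ℝ) ^ (k + 1) * ∑ m ∈ iv (N - (k + 1)) S,
      ∑ n ∈ iv (N - (k + 1)) T, mh (fun h => dls s (X₀ k n h) (X₁ k n h)) m ≤ OO)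
    (hZM : ∑ k ∈ Ico k₀ N, (4 : ℝ) ^ (k + 1) * ∑ m ∈ iv (N - (k + 1)) S,
      ∑ n ∈ iv (N - (k + 1)) T, mh (fun h => mvE (M k n h) (X₀ k n h) (X₁ k n h)) m ≤ ZM)
    (hZB : ∑ k ∈ Ico k₀ N, GW N R S T (k + 1) (cc (k + 1)) (fun n n' m =>
      mh (fun h => ((M k n' h)ᵀ * P' k n h * M k n' h).trace) m) ≤ ZB)
    (hX : ∑ k ∈ Ico k₀ N, GW N R S T (k + 1) (cc (k + 1)) (fun n n' m =>
      mh (fun h => x k n n' h) m) ≤ X) :
    (1 / 2) * ∑ k ∈ Ico k₀ N, GW N R S T (k + 1) (cc (k + 1)) (gain s P W r k)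
      ≤ √(TV k₀ N R S P * TV k₀ N T S (fun k a n m => phs s (W k a n m)))
        + (t2 * s⁻¹ * OM + (t2 * s⁻¹ + 3 * c) * OO + c⁻¹ * t2 * ZB
          + (t2 + c⁻¹ * (2 * t2 ^ 2 * s⁻¹)) * ZM + X) := by
  have h := totalV_sqrt hkN hcc (P := P) (Q := fun k a n m => phs s (W k a n m))
    (g := fun k n n' m => (1 / 2) * gain s P W r k n n' m
      - loss s t2 c W r P' X₀ X₁ M x k n n' m) (R := R) (S := S) (T := T)
    (fun k a n m => psd_isSymm (H.sP k a n m)) (fun k a n m => phs_symm hs (H.sW k a n m))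
    (fun k h1 h2 n n' m => H.mid hs ht hc h1 h2 n n' m)
  have eg : ∀ k, GW N R S T (k + 1) (cc (k + 1)) (fun n n' m => (1 / 2) * gain s P W r k n n' m
      - loss s t2 c W r P' X₀ X₁ M x k n n' m)
      = (1 / 2) * GW N R S T (k + 1) (cc (k + 1)) (gain s P W r k)
        - GW N R S T (k + 1) (cc (k + 1)) (loss s t2 c W r P' X₀ X₁ M x k) := by
    intro k
    have e1 := GW_add N R S T (k + 1) (cc (k + 1))
      (fun n n' m => (1 / 2) * gain s P W r k n n' m)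
      (fun n n' m => (-1) * loss s t2 c W r P' X₀ X₁ M x k n n' m)
    rw [GW_mul, GW_mul] at e1
    have e2 : (fun n n' m => (1 / 2) * gain s P W r k n n' m
        - loss s t2 c W r P' X₀ X₁ M x k n n' m)
        = fun n n' m => (1 / 2) * gain s P W r k n n' m
          + (-1) * loss s t2 c W r P' X₀ X₁ M x k n n' m := by
      funext n n' m
      ring
    rw [e2, e1]
    ring
  simp only [eg, Finset.sum_sub_distrib, ← Finset.mul_sum] at h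
  -- the losses
  have hs' : 0 < s⁻¹ := inv_pos.2 hs
  have hc' : 0 < c⁻¹ := inv_pos.2 hc
  have el : ∀ k, GW N R S T (k + 1) (cc (k + 1)) (loss s t2 c W r P' X₀ X₁ M x k)
      = t2 * s⁻¹ * GW N R S T (k + 1) (cc (k + 1))
          (fun _ n' m => gp s (r k) (W (k + 1) (k + 1) n' m))
        + (t2 * s⁻¹ + 3 * c) * GW N R S T (k + 1) (cc (k + 1))
          (fun _ n' m => mh (fun h => dls s (X₀ k n' h) (X₁ k n' h)) m)
        + c⁻¹ * t2 * GW N R S T (k + 1) (cc (k + 1))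
          (fun n n' m => mh (fun h => ((M k n' h)ᵀ * P' k n h * M k n' h).trace) m)
        + (t2 + c⁻¹ * (2 * t2 ^ 2 * s⁻¹)) * GW N R S T (k + 1) (cc (k + 1))
          (fun _ n' m => mh (fun h => mvE (M k n' h) (X₀ k n' h) (X₁ k n' h)) m)
        + GW N R S T (k + 1) (cc (k + 1)) (fun n n' m => mh (fun h => x k n n' h) m) := by
    intro k
    rw [← GW_mul, ← GW_mul, ← GW_mul, ← GW_mul, ← GW_add, ← GW_add, ← GW_add, ← GW_add]
    rfl
  have g1 : ∑ k ∈ Ico k₀ N, GW N R S T (k + 1) (cc (k + 1))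
      (fun _ n' m => gp s (r k) (W (k + 1) (k + 1) n' m)) ≤ OM :=
    (Finset.sum_le_sum fun k _ => GW_le_one N R S T (k + 1) (cc (k + 1))
      (fun n m => gp_nonneg hs (H.sW (k + 1) (k + 1) n m) (H.hr k))).trans hOM
  have g2 : ∑ k ∈ Ico k₀ N, GW N R S T (k + 1) (cc (k + 1))
      (fun _ n' m => mh (fun h => dls s (X₀ k n' h) (X₁ k n' h)) m) ≤ OO :=
    (Finset.sum_le_sum fun k _ => GW_le_one N R S T (k + 1) (cc (k + 1))
      (f := fun n' m => mh (fun h => dls s (X₀ k n' h) (X₁ k n' h)) m)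
      (fun n m => mh_nonneg (fun h => dls_nonneg hs (H.s0 k n h) (H.s1 k n h)) m)).trans hOO
  have g4 : ∑ k ∈ Ico k₀ N, GW N R S T (k + 1) (cc (k + 1))
      (fun _ n' m => mh (fun h => mvE (M k n' h) (X₀ k n' h) (X₁ k n' h)) m) ≤ ZM :=
    (Finset.sum_le_sum fun k _ => GW_le_one N R S T (k + 1) (cc (k + 1))
      (f := fun n' m => mh (fun h => mvE (M k n' h) (X₀ k n' h) (X₁ k n' h)) m)
      (fun n m => mh_nonneg (fun h => mvE_nonneg (H.s0 k n h) (H.s1 k n h)) m)).trans hZM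
  simp only [el, Finset.sum_add_distrib, ← Finset.mul_sum] at h
  have f1 := mul_le_mul_of_nonneg_left g1 (show 0 ≤ t2 * s⁻¹ by positivity)
  have f2 := mul_le_mul_of_nonneg_left g2 (show 0 ≤ t2 * s⁻¹ + 3 * c by positivity)
  have f3 := mul_le_mul_of_nonneg_left hZB (show 0 ≤ c⁻¹ * t2 by positivity)
  have f4 := mul_le_mul_of_nonneg_left g4 (show 0 ≤ t2 + c⁻¹ * (2 * t2 ^ 2 * s⁻¹) by positivity)
  linarith

end plane

end

end Vale.Agent.P141.H585.PairO
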