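import Vale.Agent.P141.H585.PairRX

/-!
# The pair (B, C~), hub x1: the sum over `x0` in the letters of the stage

`RX_BC`: the pair sum `RX` of `MB` and `MC` of `H747.StageM`, numbers summed over `x0`.
-/

set_option linter.unusedSectionVars false

namespace Vale.Agent.P141.H585.PairRX

open Finset Matrix Vale.Agent.P075 Vale.Agent.P141.PL Vale.Agent.P141.PL.H103 Vale.Agent.P141.H103
open Vale.Agent.P141.H389 Vale.Agent.P141.H585.PairCh Vale.Agent.P141.H585.PairO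
open Vale.Agent.P141.H505 Vale.Agent.P141.H297.Ch Vale.Agent.P141.H585.StkG
open Vale.Agent.P141.H585.PairR Vale.Agent.P141.H585.PairFR
open Vale.Agent.P141.H336 (StkR EstR)
open Vale.Agent.P141.H38.Q (bP AfC)
open Vale.Agent.P141.H747 (RgS MSb MSc MB MC shB shC sG sL)
open Vale.Agent.P141.H677.Sk (FamA FamV Slt)
open Vale.Agent.P141.H795 (ys)
open Vale.Agent.P141.H581 (RX)
open Vale.Agent.P141.H958 (lbs)
open Vale.Agent.P141.H43.Seam (RX_x DQ mvo_Q pl_grid)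

noncomputable section

open scoped Classical

/-- sums of square roots of products -/
theorem sum_sqrt {X : Type*} (I : Finset X) {f g : X → ℝ} (hf : ∀ i, 0 ≤ f i)
    (hg : ∀ i, 0 ≤ g i) {A B : ℝ} (hA : ∑ i ∈ I, f i ≤ A) (hB : ∑ i ∈ I, g i ≤ B) :
    ∑ i ∈ I, √(f i * g i) ≤ √(A * B) := by
  have h1 := Real.sum_sqrt_mul_sqrt_le I hf hg
  have nA : 0 ≤ ∑ i ∈ I, f i := Finset.sum_nonneg fun i _ => hf i
  have nB : 0 ≤ ∑ i ∈ I, g i := Finset.sum_nonneg fun i _ => hg i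
  calc ∑ i ∈ I, √(f i * g i) = ∑ i ∈ I, √(f i) * √(g i) :=
        Finset.sum_congr rfl fun i _ => Real.sqrt_mul (hf i) _
    _ ≤ √(∑ i ∈ I, f i) * √(∑ i ∈ I, g i) := h1
    _ ≤ √A * √B := mul_le_mul (Real.sqrt_le_sqrt hA) (Real.sqrt_le_sqrt hB)
        (Real.sqrt_nonneg _) (Real.sqrt_nonneg _)
    _ = √(A * B) := (Real.sqrt_mul (nA.trans hA) _).symm

/-- the total energy with a constant number -/
theorem EstR_le {N J : ℕ} {H Qo Qm : ℕ → ℝ} {B : ℝ} (hB : 0 ≤ B)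
    (h : ∀ l, l ≤ N → ((J : ℝ) + 1) * H l + Qo l + Qm l ≤ B) : EstR N J H Qo Qm ≤ 4 * B := by
  unfold H336.EstR
  calc ∑ r ∈ range (N + 1), (3 / 4 : ℝ) ^ r * (((J : ℝ) + 1) * H r + Qo r + Qm r)
      ≤ ∑ r ∈ range (N + 1), (3 / 4 : ℝ) ^ r * B := Finset.sum_le_sum fun r hr =>
        mul_le_mul_of_nonneg_left (h r (by have := Finset.mem_range.1 hr; omega)) (by positivity)
    _ = (∑ r ∈ range (N + 1), (3 / 4 : ℝ) ^ r) * B := by rw [Finset.sum_mul]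
    _ ≤ 4 * B := mul_le_mul_of_nonneg_right (H336.geo _) hB

section fam

variable {ι : Type*} [Fintype ι] [DecidableEq ι]

/-- **Sum over a family.** -/
theorem sum_x0 {X : Type*} {I : Finset X} {N J : ℕ} {S T Y : ℤ} {r : ℝ}
    {R D : X → ℕ → ℤ → ℤ → Matrix ι ι ℝ} {c : X → ℕ → ℤ → ℤ → ι → ℝ}
    {b : X → ℕ → ℤ → ℤ → ι ⊕ ι → ℝ} {cc : X → ℕ → ℤ} {Bo : X → ℕ → ℤ → ℤ → Prop}
    {s t2 : ℝ} (hs : 0 ≤ s) (ht : 0 ≤ t2) {E V : ℝ} (nE : 0 ≤ E)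
    (hE1 : ∀ l, l ≤ N → ∑ i ∈ I, H0 0 N S T r (R i) (c i) l ≤ E)
    (hE2 : ∀ l, l ≤ N → ∑ i ∈ I, Q0 0 N S T r (R i) (D i) (c i) l ≤ E)
    (hE3 : ∀ l, l ≤ N → ∑ i ∈ I, M0 0 N S T r (R i) (c i) l ≤ E)
    (hE4 : ∑ i ∈ I, EX 0 N S T (cc i) (Bo i) r (R i) (c i) ≤ E)
    (hV1 : ∑ i ∈ I, MV 0 N Y S (b i) ≤ V)
    (hV2 : (r ^ 2)⁻¹ * ∑ i ∈ I, ZV 0 N Y S (cc i) (D i) (b i) ≤ V) :
    ∑ i ∈ I, 400 * (√(s * (EQ J 0 N S T r (R i) (D i) (c i)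
          + EX 0 N S T (cc i) (Bo i) r (R i) (c i))
          * (t2 * (MV 0 N Y S (b i) + (r ^ 2)⁻¹ * ZV 0 N Y S (cc i) (D i) (b i))))
        + t2 * (EQ J 0 N S T r (R i) (D i) (c i) + EX 0 N S T (cc i) (Bo i) r (R i) (c i)))
      ≤ 10 ^ 6 * ((J : ℝ) + 1) ^ 3 * (√(s * E * (t2 * V)) + t2 * E) := by
  have hJ0 : (0 : ℝ) ≤ J := Nat.cast_nonneg J
  set j3 : ℝ := ((J : ℝ) + 1) ^ 3 with hj3
  have nj : 1 ≤ j3 := one_le_pow₀ (by linarith)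
  have n1 : ∀ i, 0 ≤ EQ J 0 N S T r (R i) (D i) (c i)
      + EX 0 N S T (cc i) (Bo i) r (R i) (c i) := fun i =>
    add_nonneg (EQ_nonneg _ _ _ _ _ _ _ _ _) (EX_nonneg _ _ _ _ _ _ _ _ _)
  have nr : 0 ≤ (r ^ 2)⁻¹ := inv_nonneg.2 (sq_nonneg r)
  have n2 : ∀ i, 0 ≤ MV 0 N Y S (b i) + (r ^ 2)⁻¹ * ZV 0 N Y S (cc i) (D i) (b i) := fun i =>
    add_nonneg (MV_nonneg _ _ _ _ _) (mul_nonneg nr (ZV_nonneg _ _ _ _ _ _ _))
  -- energies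
  have s1 : ∑ i ∈ I, EQ J 0 N S T r (R i) (D i) (c i) ≤ 4 * (260 * j3 * E) := by
    have e1 : ∑ i ∈ I, EQ J 0 N S T r (R i) (D i) (c i)
        = EstR N J (fun l => ∑ i ∈ I, H0 0 N S T r (R i) (c i) l)
          (fun l => ∑ i ∈ I, 258 * ((J : ℝ) + 1) ^ 3 * Q0 0 N S T r (R i) (D i) (c i) l)
          (fun l => ∑ i ∈ I, ((J : ℝ) + 1) * M0 0 N S T r (R i) (c i) l) := by
      unfold EQ
      exact H336.EstR_sum I N J _ _ _
    rw [e1]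
    refine EstR_le (by positivity) fun l hl => ?_
    rw [← Finset.mul_sum, ← Finset.mul_sum]
    have a1 := mul_le_mul_of_nonneg_left (hE1 l hl) (show 0 ≤ (J : ℝ) + 1 by positivity)
    have a2 := mul_le_mul_of_nonneg_left (hE2 l hl) (show 0 ≤ 258 * ((J : ℝ) + 1) ^ 3 by positivity)
    have a3 := mul_le_mul_of_nonneg_left (hE3 l hl) (show 0 ≤ (J : ℝ) + 1 by positivity)
    have a4 : (J : ℝ) + 1 ≤ j3 := by
      rw [hj3]
      exact le_self_pow₀ (by linarith) (by norm_num)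
    have a5 := mul_le_mul_of_nonneg_right a4 nE
    rw [← hj3] at a2
    linarith
  have s2 : ∑ i ∈ I, (EQ J 0 N S T r (R i) (D i) (c i)
      + EX 0 N S T (cc i) (Bo i) r (R i) (c i)) ≤ 1041 * j3 * E := by
    rw [Finset.sum_add_distrib]
    have := mul_le_mul_of_nonneg_right nj nE
    linarith
  have s3 : ∑ i ∈ I, (MV 0 N Y S (b i) + (r ^ 2)⁻¹ * ZV 0 N Y S (cc i) (D i) (b i)) ≤ 2 * V := by
    rw [Finset.sum_add_distrib, ← Finset.mul_sum]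
    linarith
  have nV : 0 ≤ V := by
    refine le_trans ?_ hV1
    exact Finset.sum_nonneg fun i _ => MV_nonneg _ _ _ _ _
  have k1 := sum_sqrt I (f := fun i => s * (EQ J 0 N S T r (R i) (D i) (c i)
      + EX 0 N S T (cc i) (Bo i) r (R i) (c i)))
    (g := fun i => t2 * (MV 0 N Y S (b i) + (r ^ 2)⁻¹ * ZV 0 N Y S (cc i) (D i) (b i)))
    (fun i => mul_nonneg hs (n1 i)) (fun i => mul_nonneg ht (n2 i))
    (A := s * (1041 * j3 * E)) (B := t2 * (2 * V))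
    (by rw [← Finset.mul_sum]; exact mul_le_mul_of_nonneg_left s2 hs)
    (by rw [← Finset.mul_sum]; exact mul_le_mul_of_nonneg_left s3 ht)
  have k2 : √(s * (1041 * j3 * E) * (t2 * (2 * V))) ≤ 50 * j3 * √(s * E * (t2 * V)) := by
    have e0 : √(s * E * (t2 * V)) ^ 2 = s * E * (t2 * V) := Real.sq_sqrt (by positivity)
    refine Real.sqrt_le_iff.2 ⟨by positivity, ?_⟩
    rw [mul_pow, e0]
    have q1 : 2082 * j3 ≤ (50 * j3) ^ 2 := by nlinarith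
    have q2 := mul_le_mul_of_nonneg_right q1 (show 0 ≤ s * E * (t2 * V) by positivity)
    linarith
  have k3 := mul_le_mul_of_nonneg_left s2 ht
  rw [← Finset.mul_sum, Finset.sum_add_distrib, ← Finset.mul_sum]
  have k4 : 0 ≤ √(s * E * (t2 * V)) := Real.sqrt_nonneg _
  have k5 : 0 ≤ j3 * √(s * E * (t2 * V)) := by positivity
  have k6 : 0 ≤ j3 * (t2 * E) := by positivity
  nlinarith

end fam

section stage

variable {κ : Type} [Fintype κ] [DecidableEq κ]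

/-- the slot on the grid, letters of the hub `x1` -/
def RR (R : Slt κ) (s : Pt) (x0 : ℤ) (k : ℕ) (x n : ℤ) : Matrix κ κ ℝ := RgS R s.2.2 s.1 x0 k n x

/-- its half differences -/
def DR (R : Slt κ) (s : Pt) (x0 : ℤ) (k : ℕ) (x n : ℤ) : Matrix κ κ ℝ :=
  DQ (RgS R s.2.2 s.1 x0) k n x

/-- the slot function on the grid, letters of the hub `x1` -/
def cR (K : ℕ) (M : Pt) (C : FamV κ) (s : Pt) (x0 : ℤ) (k : ℕ) (x z : ℤ) : κ → ℝ :=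
  shC K M s (C x0) k z x

/-- **hBC of the stage**: the pair sum of `MB` (raw) and `MC`, numbers summed over `x0`. -/
theorem RX_BC (K : ℕ) (M : Pt) (R : Slt κ) (b C : FamV κ) {L : ℕ} {e : κ ⊕ κ → ℤ}
    (he : Function.Injective e) (hm : ∀ i, e i ∈ lbs L) {ε : ℝ} (hε : ε ≠ 0) (s : Pt) (t : ℤ)
    {j : ℤ} (hj : j ∈ Icc (0 : ℤ) 2) (q : Pt) {x y : ℝ} (hx : 0 < x) (hy : 0 < y) {t2 : ℝ}
    (ht : 0 ≤ t2)
    (cap : ∀ x0 ∈ iv K t, ∀ k, k ≤ K → ∀ n m,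
      (t2 • (1 : Matrix (Ix k × (κ ⊕ κ)) (Ix k × (κ ⊕ κ)) ℝ)
        - PB (MSb K M b s x0) k k n m).PosSemidef)
    {cC : ℝ} (capC : ∀ x0 ∈ iv K t, ∀ k a n m, k ≤ a → a < K →
      (cC • (1 : Matrix (Ix k × (κ ⊕ κ)) (Ix k × (κ ⊕ κ)) ℝ)
        - XH ε (RR R s x0) (cR K M C s x0 k) k a n m).PosSemidef)
    {J : ℕ} (hJ : cC ≤ 4 ^ J * y ^ 2)
    {Bo : ℤ → ℕ → ℤ → ℤ → Prop}
    (hBo : ∀ x0 ∈ iv K t, ∀ k < K, ∀ x1 x2,
      AfC k (MSb K M b s x0 k) (MSb K M b s x0 (k + 1)) (ix k x1) x2 →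
      Bo x0 k (ix (k + 1) x2) (ix k x1))
    {E V : ℝ} (nE : 0 ≤ E)
    (hE1 : ∀ l, l ≤ K → ∑ x0 ∈ iv K t, H0 0 K (M.1 - q.1) (M.2.2 - q.2.2) ε (RR R s x0)
      (cR K M C s x0) l ≤ E)
    (hE2 : ∀ l, l ≤ K → ∑ x0 ∈ iv K t, Q0 0 K (M.1 - q.1) (M.2.2 - q.2.2) ε (RR R s x0)
      (DR R s x0) (cR K M C s x0) l ≤ E)
    (hE3 : ∀ l, l ≤ K → ∑ x0 ∈ iv K t, M0 0 K (M.1 - q.1) (M.2.2 - q.2.2) ε (RR R s x0)
      (cR K M C s x0) l ≤ E)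
    (hE4 : ∑ x0 ∈ iv K t, EX 0 K (M.1 - q.1) (M.2.2 - q.2.2)
      (fun k => ix k (ys (-x0) s) - j) (Bo x0) ε (RR R s x0) (cR K M C s x0) ≤ E)
    (hV1 : ∑ x0 ∈ iv K t, MV 0 K (M.2.1 - q.2.1) (M.1 - q.1) (MSb K M b s x0) ≤ V)
    (hV2 : (ε ^ 2)⁻¹ * ∑ x0 ∈ iv K t, ZV 0 K (M.2.1 - q.2.1) (M.1 - q.1)
      (fun k => ix k (ys (-x0) s) - j) (DR R s x0) (MSb K M b s x0) ≤ V) :
    RX (iv K t) (K + L) (fun x0 => sL L (sG K M (-x0) s j q)) x y (MB K M b L e s)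
      (MC K M R C L e ε s) ≤
    4 ^ L * (10 ^ 6 * ((J : ℝ) + 1) ^ 3 * (√(y ^ 2 * E * (t2 * V)) + t2 * E)) := by
  refine (RX_x K M R b C he hm ε s t j q hx y).trans ?_
  refine mul_le_mul_of_nonneg_left ?_ (by positivity)
  refine le_trans (Finset.sum_le_sum fun x0 hx0 => ?_) (sum_x0 (X := ℤ) (I := iv K t) (N := K)
    (S := M.1 - q.1) (T := M.2.2 - q.2.2) (Y := M.2.1 - q.2.1) (R := fun x0 => RR R s x0)
    (D := fun x0 => DR R s x0) (c := fun x0 => cR K M C s x0) (b := fun x0 => MSb K M b s x0)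
    (cc := fun x0 k => ix k (ys (-x0) s) - j) (Bo := Bo) (sq_nonneg y) ht nE hE1 hE2 hE3 hE4 hV1
    hV2)
  exact pair_x0 (ι := κ) (k₀ := 0) (N := K) (Nat.zero_le K) (Y := M.2.1 - q.2.1)
    (S := M.1 - q.1) (T := M.2.2 - q.2.2) (cc := fun k => ix k (ys (-x0) s) - j)
    (pl_grid x0 s hj) (J := J) (s := y ^ 2) (by positivity) ht (r := ε) hε (R := RR R s x0)
    (D := DR R s x0) (c := cR K M C s x0) (b := MSb K M b s x0)
    (fun a _ _ => mvo_Q (Q := RgS R s.2.2 s.1 x0)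
      (fun k n x => H747.RgS_mart R s.2.2 s.1 x0 k n x) a)
    (fun k x y => by
      funext i
      rcases i with i | i
      · rfl
      · rfl)
    (fun k _ h2 n m => cap x0 hx0 k h2 n m)
    (fun k a n m _ h2 h3 => capC x0 hx0 k a n m h2 h3) hJ (Bo := Bo x0)
    (fun k _ h2 x y h3 => hBo x0 hx0 k h2 x y h3)

end stage

end

end Vale.Agent.P141.H585.PairRX
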