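import Vale.Agent.P141.H585.Stop3
import Vale.Agent.P141.H911.Shift
import Vale.Agent.P141.H443.Plane1

/-!
# P141, line W, end lemma: the events of a moving plane kernel

The carriers `lvS θ E K k` of the main atom decrease with `k`.  `evt θ E K t k n`: the carrier,
translated by `t`, changes on the interval `iv k n` between the scales `k + 1` and `k`.

* `uT_eq12`, `uT_eq13`, `uT_eq23`: no event, no change of the edge;
* `ev_count`: the points of the carrier in the event intervals, over all scales: at most `6 |E|`;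
* `ev_power`: the energies of the event squares, over all scales and a family of kernels.
-/

namespace Vale.Agent.P141.H585

open Finset
open Vale.Agent.P141.PL (iv ix Pt cb cx mem_iv mem_cb card_iv card_cb ix_ix el)
open Vale.Agent.P141.PL.H315 (avg avg_nonneg cube3 card_cube3 atm Tri e12 e13 e23)
open Vale.Agent.P141.H829 (ind ind_mem ind_not rst abs_rst_le rst_ne rs3)
open Vale.Agent.P141.H911 (uT)
open Vale.Agent.P141.H443 (E2 E2_nonneg)

noncomputable section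

/-- the carrier translated by `t` changes on the interval `iv k n` -/
def evt (θ : ℝ) (E : Finset ℤ) (K : ℕ) (t : ℤ) (k : ℕ) (n : ℤ) : Prop :=
  ∃ x ∈ iv k n, x + t ∈ lvS θ E K (k + 1) ∧ x + t ∉ lvS θ E K k

variable {θ : ℝ} {E E' : Finset ℤ} {K k : ℕ} {t t' n m : ℤ}

theorem mem_of_not_evt (h : ¬ evt θ E K t k n) {x : ℤ} (hx : x ∈ iv k n) :
    x + t ∈ lvS θ E K (k + 1) ↔ x + t ∈ lvS θ E K k :=
  ⟨fun h1 => by_contra fun h2 => h ⟨x, hx, h1, h2⟩, fun h1 => lvS_anti (Nat.le_succ k) h1⟩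

theorem rst_eq_of_not_evt (h : ¬ evt θ E K t k n) (h' : ¬ evt θ E' K t' k m) (d : ℤ × ℤ → ℝ)
    {x y : ℤ} (hx : x ∈ iv k n) (hy : y ∈ iv k m) :
    rst (lvS θ E K k) (lvS θ E' K k) d (x + t, y + t') =
      rst (lvS θ E K (k + 1)) (lvS θ E' K (k + 1)) d (x + t, y + t') := by
  have e1 : ind (lvS θ E K k) (x + t) = ind (lvS θ E K (k + 1)) (x + t) := by
    by_cases h1 : x + t ∈ lvS θ E K k
    · rw [ind_mem h1, ind_mem ((mem_of_not_evt h hx).mpr h1)]
    · rw [ind_not h1, ind_not fun h2 => h1 ((mem_of_not_evt h hx).mp h2)]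
  have e2 : ind (lvS θ E' K k) (y + t') = ind (lvS θ E' K (k + 1)) (y + t') := by
    by_cases h1 : y + t' ∈ lvS θ E' K k
    · rw [ind_mem h1, ind_mem ((mem_of_not_evt h' hy).mpr h1)]
    · rw [ind_not h1, ind_not fun h2 => h1 ((mem_of_not_evt h' hy).mp h2)]
  unfold rst
  simp only [e1, e2]

theorem cs_congr' {Q : Finset (ℤ × ℤ)} {h : ℤ × ℤ} {f g : ℤ × ℤ → ℝ} {x : ℤ × ℤ}
    (hfg : f (x.1 + h.1, x.2 + h.2) = g (x.1 + h.1, x.2 + h.2)) :
    PL.H560.cs Q h f x = PL.H560.cs Q h g x := by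
  by_cases hx : (x.1 + h.1, x.2 + h.2) ∈ Q
  · rw [PL.H560.cs_of_mem hx, PL.H560.cs_of_mem hx, hfg]
  · rw [PL.H560.cs_of_not_mem hx, PL.H560.cs_of_not_mem hx]

/-- **No event, no change**, edge `12`. -/
theorem uT_eq12 {E1 E2 E3 : Finset ℤ} {v : Tri} (q τ : Pt) (h : ¬ evt θ E1 K τ.1 k n)
    (h' : ¬ evt θ E2 K τ.2.1 k m) {x y : ℤ} (hx : x ∈ iv k n) (hy : y ∈ iv k m) :
    (uT K q τ (mnA θ E1 E2 E3 K k v)).1 (x, y) =
      (uT K q τ (mnA θ E1 E2 E3 K (k + 1) v)).1 (x, y) :=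
  cs_congr' (rst_eq_of_not_evt h h' v.1 hx hy)

/-- **No event, no change**, edge `13`. -/
theorem uT_eq13 {E1 E2 E3 : Finset ℤ} {v : Tri} (q τ : Pt) (h : ¬ evt θ E1 K τ.1 k n)
    (h' : ¬ evt θ E3 K τ.2.2 k m) {x y : ℤ} (hx : x ∈ iv k n) (hy : y ∈ iv k m) :
    (uT K q τ (mnA θ E1 E2 E3 K k v)).2.1 (x, y) =
      (uT K q τ (mnA θ E1 E2 E3 K (k + 1) v)).2.1 (x, y) :=
  cs_congr' (rst_eq_of_not_evt h h' v.2.1 hx hy)

/-- **No event, no change**, edge `23`. -/
theorem uT_eq23 {E1 E2 E3 : Finset ℤ} {v : Tri} (q τ : Pt) (h : ¬ evt θ E2 K τ.2.1 k n)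
    (h' : ¬ evt θ E3 K τ.2.2 k m) {x y : ℤ} (hx : x ∈ iv k n) (hy : y ∈ iv k m) :
    (uT K q τ (mnA θ E1 E2 E3 K k v)).2.2 (x, y) =
      (uT K q τ (mnA θ E1 E2 E3 K (k + 1) v)).2.2 (x, y) :=
  cs_congr' (rst_eq_of_not_evt h h' v.2.2 hx hy)

/-! ### Counting -/

/-- the points which die at scale `k` -/
def dd (θ : ℝ) (E : Finset ℤ) (K k : ℕ) : Finset ℤ := lvS θ E K (k + 1) \ lvS θ E K k

theorem dense_of_dd {y : ℤ} (h : y ∈ dd θ E K k) : θ < dn E k (ix k y) := by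
  unfold dd at h
  rw [mem_sdiff, mem_lvS, mem_lvS, not_and] at h
  obtain ⟨⟨hE, hL⟩, h2⟩ := h
  by_contra h3
  refine h2 hE fun j h4 h5 => ?_
  rcases Nat.eq_or_lt_of_le h4 with rfl | h6
  · exact not_lt.mp h3
  · exact hL j h6 h5

theorem dd_of_same {y z : ℤ} (hk : k ≤ K) (h : y ∈ dd θ E K k) (hz : z ∈ E)
    (he : ix k z = ix k y) : z ∈ dd θ E K k := by
  have h1 := dense_of_dd h
  unfold dd at h ⊢
  rw [mem_sdiff, mem_lvS] at h
  rw [mem_sdiff, mem_lvS]
  refine ⟨⟨hz, h.1.2.congr ?_⟩, fun h2 => ?_⟩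
  · rw [← ix_ix, ← ix_ix, he]
  · have := (mem_lvS.mp h2).2 k le_rfl hk
    rw [he] at this
    exact absurd this (not_le.mpr h1)

/-- the carrier of scale `k + 1` on an interval of scale `k` -/
theorem sum_iv_lvS_le (hθ : 0 ≤ θ) (hk : k < K) (s : ℤ) :
    ∑ x ∈ iv k s, id1 (lvS θ E K (k + 1)) x ≤ 2 * (θ * 2 ^ k) := by
  have h1 : iv k s ⊆ iv (k + 1) (ix 1 s) := by
    intro x hx
    rw [mem_iv] at hx ⊢
    rw [← hx, ix_ix]
  calc ∑ x ∈ iv k s, id1 (lvS θ E K (k + 1)) x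
      ≤ ∑ x ∈ iv (k + 1) (ix 1 s), id1 (lvS θ E K (k + 1)) x :=
        sum_le_sum_of_subset_of_nonneg h1 fun _ _ _ => id1_nonneg _ _
    _ = 2 ^ (k + 1) * dn (lvS θ E K (k + 1)) (k + 1) (ix 1 s) := sum_id1 _ _ _
    _ ≤ 2 ^ (k + 1) * θ :=
        mul_le_mul_of_nonneg_left (dn_lvS_le hθ le_rfl hk _) (by positivity)
    _ = _ := by ring

/-- a sum over translated disjoint intervals is at most the sum over the set where the function
lives -/
theorem sum_shift_le {N : Finset ℤ} {f : ℤ → ℝ} (hf : ∀ y, 0 ≤ f y) {S : Finset ℤ}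
    (hS : ∀ x, (∃ n ∈ N, x ∈ iv k n) → f (x + t) ≠ 0 → x + t ∈ S) :
    ∑ n ∈ N, ∑ x ∈ iv k n, f (x + t) ≤ ∑ y ∈ S, f y := by
  classical
  have hdis : (N : Set ℤ).PairwiseDisjoint fun n => iv k n := by
    intro a _ b _ hab
    rw [Function.onFun, disjoint_left]
    intro x hx hx'
    exact hab (by rw [← mem_iv.mp hx, ← mem_iv.mp hx'])
  rw [← sum_biUnion hdis]
  have h1 : ∑ x ∈ N.biUnion (fun n => iv k n), f (x + t) =
      ∑ x ∈ (N.biUnion (fun n => iv k n)).filter (fun x => x + t ∈ S), f (x + t) := by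
    rw [sum_filter]
    refine sum_congr rfl fun x hx => ?_
    by_cases h : x + t ∈ S
    · rw [if_pos h]
    · rw [if_neg h]
      by_contra h2
      obtain ⟨n, hn, hxn⟩ := mem_biUnion.mp hx
      exact h (hS x ⟨n, hn, hxn⟩ h2)
  rw [h1, ← sum_image (f := f) (g := fun x => x + t) fun a _ b _ hab => by
    exact add_right_cancel hab]
  refine sum_le_sum_of_subset_of_nonneg ?_ fun y _ _ => hf y
  intro y hy
  obtain ⟨x, hx, rfl⟩ := mem_image.mp hy
  exact (mem_filter.mp hx).2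

theorem id1_ne {x : ℤ} (h : id1 E x ≠ 0) : x ∈ E := by
  unfold id1 at h
  by_contra h2
  rw [if_neg h2] at h
  exact h rfl

theorem sum_id1_self (E : Finset ℤ) : ∑ y ∈ E, id1 E y = E.card := by
  rw [sum_congr rfl fun y hy => show id1 E y = 1 by unfold id1; rw [if_pos hy], sum_const,
    nsmul_eq_mul, mul_one]

/-- the points of a translated carrier in disjoint intervals -/
theorem count_le (N : Finset ℤ) (t : ℤ) (k : ℕ) :
    ∑ n ∈ N, ∑ x ∈ iv k n, id1 E (x + t) ≤ E.card := by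
  rw [← sum_id1_self E]
  exact sum_shift_le (id1_nonneg E) fun x _ h => id1_ne h

open Classical in
/-- **One scale.** -/
theorem ev_count_one (hθ : 0 ≤ θ) (hk : k < K) (t : ℤ) (N : Finset ℤ) :
    ∑ n ∈ N, (if evt θ E K t k n then ∑ x ∈ iv k n, id1 (lvS θ E K (k + 1)) (x + t) else 0) ≤
      6 * ((dd θ E K k).card : ℝ) := by
  set f := id1 (lvS θ E K (k + 1)) with hf
  set S := (dd θ E K k).image (ix k) with hS
  set D : Finset ℤ := {-1, 0, 1} with hD
  have hf0 : ∀ y, 0 ≤ f y := fun y => id1_nonneg _ y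
  rw [← sum_filter]
  -- pointwise domination
  have h1 : ∀ n ∈ N.filter (fun n => evt θ E K t k n), ∀ x ∈ iv k n,
      f (x + t) ≤ ∑ s ∈ S, ∑ d ∈ D, if x + t ∈ iv k (s + d) then f (x + t) else 0 := by
    intro n hn x hx
    obtain ⟨x0, hx0, h2, h3⟩ := (mem_filter.mp hn).2
    have hy0 : x0 + t ∈ dd θ E K k := by unfold dd; exact mem_sdiff.mpr ⟨h2, h3⟩
    have hs : ix k (x0 + t) ∈ S := mem_image_of_mem _ hy0
    have hd : ix k (x + t) - ix k (x0 + t) ∈ D := by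
      have h2k : (0 : ℤ) < 2 ^ k := by positivity
      unfold iv at hx hx0
      rw [mem_Ico] at hx hx0
      have e1 := Int.mul_ediv_add_emod (x + t) (2 ^ k)
      have e2 := Int.emod_nonneg (x + t) h2k.ne'
      have e3 := Int.emod_lt_of_pos (x + t) h2k
      have e4 := Int.mul_ediv_add_emod (x0 + t) (2 ^ k)
      have e5 := Int.emod_nonneg (x0 + t) h2k.ne'
      have e6 := Int.emod_lt_of_pos (x0 + t) h2k
      unfold ix
      set a := (x + t) / 2 ^ k
      set b := (x0 + t) / 2 ^ k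
      have g1 : 2 ^ k * (a - b) < 2 * 2 ^ k := by nlinarith
      have g2 : -(2 * 2 ^ k) < 2 ^ k * (a - b) := by nlinarith
      have g3 : a - b < 2 := by
        by_contra h; push Not at h; nlinarith
      have g4 : -2 < a - b := by
        by_contra h; push Not at h; nlinarith
      rw [hD]
      simp only [mem_insert, mem_singleton]
      omega
    have h4 : f (x + t) = if x + t ∈ iv k (ix k (x0 + t) + (ix k (x + t) - ix k (x0 + t)))
        then f (x + t) else 0 := by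
      rw [if_pos]
      rw [mem_iv]; ring
    rw [h4]
    have nn : ∀ s ∈ S, 0 ≤ ∑ d ∈ D, if x + t ∈ iv k (s + d) then f (x + t) else 0 :=
      fun s _ => sum_nonneg fun d _ => by split_ifs; exacts [hf0 _, le_rfl]
    have h5 := single_le_sum (f := fun d => if x + t ∈ iv k (ix k (x0 + t) + d) then f (x + t)
      else 0) (fun d _ => by split_ifs; exacts [hf0 _, le_rfl]) hd
    have h6 := single_le_sum (f := fun s => ∑ d ∈ D, if x + t ∈ iv k (s + d) then f (x + t)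
      else 0) nn hs
    rw [← h4]
    rw [← h4] at h5
    exact h5.trans h6
  refine (sum_le_sum fun n hn => sum_le_sum (h1 n hn)).trans ?_
  have h2 : ∑ n ∈ N.filter (fun n => evt θ E K t k n), ∑ x ∈ iv k n, ∑ s ∈ S, ∑ d ∈ D,
      (if x + t ∈ iv k (s + d) then f (x + t) else 0) =
      ∑ s ∈ S, ∑ d ∈ D, ∑ n ∈ N.filter (fun n => evt θ E K t k n), ∑ x ∈ iv k n,
        (if x + t ∈ iv k (s + d) then f (x + t) else 0) := by
    rw [sum_congr rfl fun n _ => sum_comm, sum_comm]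
    refine sum_congr rfl fun s _ => ?_
    rw [sum_congr rfl fun n _ => sum_comm, sum_comm]
  rw [h2]
  have h3 : ∀ s ∈ S, ∑ d ∈ D, ∑ n ∈ N.filter (fun n => evt θ E K t k n), ∑ x ∈ iv k n,
      (if x + t ∈ iv k (s + d) then f (x + t) else 0) ≤ 6 * (θ * 2 ^ k) := by
    intro s _
    have h4 : ∀ d ∈ D, ∑ n ∈ N.filter (fun n => evt θ E K t k n), ∑ x ∈ iv k n,
        (if x + t ∈ iv k (s + d) then f (x + t) else 0) ≤ 2 * (θ * 2 ^ k) := by
      intro d _
      have h5 := sum_shift_le (N := N.filter (fun n => evt θ E K t k n)) (k := k) (t := t)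
        (f := fun y => if y ∈ iv k (s + d) then f y else 0) (S := iv k (s + d))
        (fun y => by split_ifs; exacts [hf0 _, le_rfl])
        (fun x _ h => by
          by_contra h6
          rw [if_neg h6] at h
          exact h rfl)
      refine h5.trans ?_
      rw [sum_congr rfl fun y hy => if_pos hy]
      exact sum_iv_lvS_le hθ hk _
    refine (sum_le_card_nsmul _ _ _ h4).trans ?_
    have hc : D.card ≤ 3 := by rw [hD]; decide
    have hp : 0 ≤ 2 * (θ * 2 ^ k) := by positivity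
    rw [nsmul_eq_mul]
    have : (D.card : ℝ) ≤ 3 := by exact_mod_cast hc
    nlinarith
  refine (sum_le_sum h3).trans ?_
  -- each stop pays
  have h4 : ∀ s ∈ S, 6 * (θ * 2 ^ k) ≤ 6 * (((dd θ E K k).filter fun y => ix k y = s).card : ℝ) := by
    intro s hs
    obtain ⟨y, hy, rfl⟩ := mem_image.mp hs
    have h5 := dense_of_dd hy
    rw [dn_eq, lt_inv_mul_iff₀ (by positivity)] at h5
    have h6 : (iv k (ix k y)).filter (· ∈ E) ⊆ (dd θ E K k).filter fun z => ix k z = ix k y := by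
      intro z hz
      rw [mem_filter] at hz ⊢
      have := mem_iv.mp hz.1
      exact ⟨dd_of_same hk.le hy hz.2 this, this⟩
    have h7 : (((iv k (ix k y)).filter (· ∈ E)).card : ℝ) ≤
        ((dd θ E K k).filter fun z => ix k z = ix k y).card := by
      exact_mod_cast card_le_card h6
    linarith
  refine (sum_le_sum h4).trans ?_
  rw [← mul_sum]
  have h5 : ∑ s ∈ S, (((dd θ E K k).filter fun y => ix k y = s).card : ℝ) =
      ((dd θ E K k).card : ℝ) := by
    rw [card_eq_sum_card_image (ix k) (dd θ E K k)]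
    push_cast; rfl
  rw [h5]

theorem sum_dd_le (θ : ℝ) (E : Finset ℤ) (K : ℕ) :
    ∑ k ∈ range K, ((dd θ E K k).card : ℝ) ≤ E.card := by
  have h1 : ∀ k, ((dd θ E K k).card : ℝ) =
      ((lvS θ E K (k + 1)).card : ℝ) - (lvS θ E K k).card := by
    intro k
    unfold dd
    have h2 := card_sdiff_add_card_eq_card (lvS_anti (θ := θ) (E := E) (L := K) (Nat.le_succ k))
    have h3 : ((lvS θ E K (k + 1) \ lvS θ E K k).card : ℝ) + (lvS θ E K k).card =
        (lvS θ E K (k + 1)).card := by exact_mod_cast h2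
    linarith
  rw [sum_congr rfl fun k _ => h1 k, sum_range_sub fun k => ((lvS θ E K k).card : ℝ)]
  have h4 : ((lvS θ E K K).card : ℝ) ≤ E.card := by
    exact_mod_cast card_le_card (lvS_sub θ E K K)
  have h5 : (0 : ℝ) ≤ (lvS θ E K 0).card := Nat.cast_nonneg _
  linarith

open Classical in
/-- **The points of the carrier in the event intervals, over all scales.** -/
theorem ev_count (hθ : 0 ≤ θ) (t : ℤ) (N : ℕ → Finset ℤ) :
    ∑ k ∈ range K, ∑ n ∈ N k,
      (if evt θ E K t k n then ∑ x ∈ iv k n, id1 (lvS θ E K (k + 1)) (x + t) else 0) ≤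
      6 * (E.card : ℝ) := by
  refine (sum_le_sum fun k hk => ev_count_one hθ (mem_range.mp hk) t (N k)).trans ?_
  rw [← mul_sum]
  exact mul_le_mul_of_nonneg_left (sum_dd_le θ E K) (by norm_num)

/-! ### The energies of the event squares -/

/-- the energy of the family on one square -/
theorem sum_E2_le {ι : Type*} {X : Finset ι} {L h : ℝ} {d : ℤ × ℤ → ℝ} (hd : ∀ r, |d r| ≤ h)
    {F F' : Finset ℤ} {A G : ι → ℤ → ℤ → ℝ}
    (hA : ∀ i ∈ X, ∀ x y, |A i x y| ≤ |rst F F' d (x + t, y + t')| * |G i x y|)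
    (hG : ∀ x y, ∑ i ∈ X, G i x y ^ 2 ≤ L) (I J : Finset ℤ) :
    ∑ i ∈ X, E2 I J (A i) ≤
      h ^ 2 * L * ((∑ x ∈ I, id1 F (x + t)) * ∑ y ∈ J, id1 F' (y + t')) := by
  have h0 : 0 ≤ h := (abs_nonneg _).trans (hd (0, 0))
  unfold E2
  rw [sum_comm]
  have e1 : h ^ 2 * L * ((∑ x ∈ I, id1 F (x + t)) * ∑ y ∈ J, id1 F' (y + t')) =
      ∑ x ∈ I, ∑ y ∈ J, h ^ 2 * L * (id1 F (x + t) * id1 F' (y + t')) := by
    rw [sum_mul_sum, mul_sum]
    exact sum_congr rfl fun x _ => by rw [mul_sum]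
  rw [e1]
  refine sum_le_sum fun x _ => ?_
  rw [sum_comm]
  refine sum_le_sum fun y _ => ?_
  have h1 : |rst F F' d (x + t, y + t')| ≤ h * (id1 F (x + t) * id1 F' (y + t')) :=
    ed_rst hd (x + t) (y + t')
  have h2 : ∀ i ∈ X, A i x y ^ 2 ≤ (h * (id1 F (x + t) * id1 F' (y + t'))) ^ 2 * G i x y ^ 2 := by
    intro i hi
    rw [← sq_abs (A i x y), ← sq_abs (G i x y), ← mul_pow]
    refine pow_le_pow_left₀ (abs_nonneg _) ((hA i hi x y).trans ?_) 2
    exact mul_le_mul_of_nonneg_right h1 (abs_nonneg _)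
  refine (sum_le_sum h2).trans ?_
  rw [← mul_sum]
  have q1 := id1_sq F (x + t)
  have q2 := id1_sq F' (y + t')
  have e2 : (h * (id1 F (x + t) * id1 F' (y + t'))) ^ 2 =
      h ^ 2 * (id1 F (x + t) * id1 F' (y + t')) := by
    rw [mul_pow, mul_pow, q1, q2]
  rw [e2]
  have n1 := id1_nonneg F (x + t)
  have n2 := id1_nonneg F' (y + t')
  calc h ^ 2 * (id1 F (x + t) * id1 F' (y + t')) * ∑ i ∈ X, G i x y ^ 2 ≤
        h ^ 2 * (id1 F (x + t) * id1 F' (y + t')) * L :=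
        mul_le_mul_of_nonneg_left (hG x y) (by positivity)
    _ = _ := by ring

open Classical in
/-- **The energies of the event squares.** `A k i`: the kernels before the event at scale `k`. -/
theorem ev_power {ι : Type*} {X : Finset ι} {L h : ℝ} (hL : 0 ≤ L) (hθ : 0 ≤ θ)
    {d : ℤ × ℤ → ℝ} (hd : ∀ r, |d r| ≤ h) {A G : ℕ → ι → ℤ → ℤ → ℝ}
    (hA : ∀ k < K, ∀ i ∈ X, ∀ x y, |A k i x y| ≤
      |rst (lvS θ E K (k + 1)) (lvS θ E' K (k + 1)) d (x + t, y + t')| * |G k i x y|)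
    (hG : ∀ k < K, ∀ x y, ∑ i ∈ X, G k i x y ^ 2 ≤ L) (N M : ℕ → Finset ℤ) :
    ∑ i ∈ X, ∑ k ∈ range K, ∑ n ∈ N k, ∑ m ∈ M k,
      (if evt θ E K t k n ∨ evt θ E' K t' k m then E2 (iv k n) (iv k m) (A k i) else 0) ≤
      12 * h ^ 2 * L * ((E.card : ℝ) * E'.card) := by
  have h0 : 0 ≤ h := (abs_nonneg _).trans (hd (0, 0))
  have hc : 0 ≤ h ^ 2 * L := by positivity
  set a : ℕ → ℤ → ℝ := fun k n => ∑ x ∈ iv k n, id1 (lvS θ E K (k + 1)) (x + t) with ha
  set b : ℕ → ℤ → ℝ := fun k m => ∑ y ∈ iv k m, id1 (lvS θ E' K (k + 1)) (y + t') with hb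
  have ha0 : ∀ k n, 0 ≤ a k n := fun k n => sum_nonneg fun _ _ => id1_nonneg _ _
  have hb0 : ∀ k n, 0 ≤ b k n := fun k n => sum_nonneg fun _ _ => id1_nonneg _ _
  rw [sum_comm]
  have step : ∀ k ∈ range K, ∑ i ∈ X, ∑ n ∈ N k, ∑ m ∈ M k,
      (if evt θ E K t k n ∨ evt θ E' K t' k m then E2 (iv k n) (iv k m) (A k i) else 0) ≤
      h ^ 2 * L * ((∑ n ∈ N k, if evt θ E K t k n then a k n else 0) * E'.card +
        (E.card : ℝ) * ∑ m ∈ M k, if evt θ E' K t' k m then b k m else 0) := by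
    intro k hk
    have hk' := mem_range.mp hk
    rw [sum_comm]
    have s1 : ∀ n ∈ N k, ∑ i ∈ X, ∑ m ∈ M k,
        (if evt θ E K t k n ∨ evt θ E' K t' k m then E2 (iv k n) (iv k m) (A k i) else 0) ≤
        ∑ m ∈ M k, h ^ 2 * L * ((if evt θ E K t k n then a k n else 0) * b k m +
          a k n * (if evt θ E' K t' k m then b k m else 0)) := by
      intro n _
      rw [sum_comm]
      refine sum_le_sum fun m _ => ?_
      have s2 := sum_E2_le (t := t) (t' := t') hd (hA k hk') (hG k hk') (iv k n) (iv k m)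
      have s3 : 0 ≤ h ^ 2 * L * (a k n * b k m) := mul_nonneg hc (mul_nonneg (ha0 _ _) (hb0 _ _))
      by_cases e1 : evt θ E K t k n
      · rw [if_pos e1]
        simp only [e1, true_or, if_true]
        refine s2.trans ?_
        have : 0 ≤ a k n * (if evt θ E' K t' k m then b k m else 0) :=
          mul_nonneg (ha0 _ _) (by split_ifs; exacts [hb0 _ _, le_rfl])
        exact mul_le_mul_of_nonneg_left (le_add_of_nonneg_right this) hc
      · by_cases e2 : evt θ E' K t' k m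
        · rw [if_neg e1, if_pos e2, zero_mul, zero_add]
          simp only [e2, or_true, if_true]
          exact s2
        · rw [if_neg e1, if_neg e2]
          simp only [e1, e2, or_self, if_false, sum_const_zero]
          simp
    refine (sum_le_sum s1).trans ?_
    have s4 : ∑ n ∈ N k, ∑ m ∈ M k, h ^ 2 * L * ((if evt θ E K t k n then a k n else 0) * b k m +
          a k n * (if evt θ E' K t' k m then b k m else 0)) =
        h ^ 2 * L * ((∑ n ∈ N k, if evt θ E K t k n then a k n else 0) * (∑ m ∈ M k, b k m) +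
          (∑ n ∈ N k, a k n) * ∑ m ∈ M k, if evt θ E' K t' k m then b k m else 0) := by
      rw [sum_mul_sum, sum_mul_sum, ← sum_add_distrib, mul_sum]
      refine sum_congr rfl fun n _ => ?_
      rw [← sum_add_distrib, mul_sum]
    rw [s4]
    refine mul_le_mul_of_nonneg_left (add_le_add ?_ ?_) hc
    · refine mul_le_mul_of_nonneg_left ?_
        (sum_nonneg fun n _ => by split_ifs; exacts [ha0 _ _, le_rfl])
      refine (count_le (M k) t' k).trans ?_
      exact_mod_cast card_le_card (lvS_sub θ E' K (k + 1))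
    · refine mul_le_mul_of_nonneg_right ?_
        (sum_nonneg fun n _ => by split_ifs; exacts [hb0 _ _, le_rfl])
      refine (count_le (N k) t k).trans ?_
      exact_mod_cast card_le_card (lvS_sub θ E K (k + 1))
  refine (sum_le_sum step).trans ?_
  rw [← mul_sum, sum_add_distrib, ← sum_mul, ← mul_sum]
  have c1 := ev_count (E := E) hθ t (K := K) N
  have c2 := ev_count (E := E') hθ t' (K := K) M
  have hE : (0 : ℝ) ≤ E.card := Nat.cast_nonneg _
  have hE' : (0 : ℝ) ≤ E'.card := Nat.cast_nonneg _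
  calc h ^ 2 * L * ((∑ k ∈ range K, ∑ n ∈ N k, if evt θ E K t k n then a k n else 0) * E'.card +
        E.card * ∑ k ∈ range K, ∑ m ∈ M k, if evt θ E' K t' k m then b k m else 0)
      ≤ h ^ 2 * L * (6 * E.card * E'.card + E.card * (6 * E'.card)) := by
        refine mul_le_mul_of_nonneg_left (add_le_add ?_ ?_) hc
        · exact mul_le_mul_of_nonneg_right c1 hE'
        · exact mul_le_mul_of_nonneg_left c2 hE
    _ = _ := by ring

/-! ### The numbers of a vertex-type atom -/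

theorem num_le {κ r s A B P : ℝ} (hκ : 0 < κ) (hB : 0 ≤ B)
    (hA' : κ ^ 2 * r ^ 2 * A ≤ 2 * P) (hB' : κ ^ 2 * r ^ 2 * B ≤ 2 * P) (hP : 0 ≤ P) :
    κ ^ 8 * ((r ^ 2 * s / κ ^ 2) ^ 2 * (A * B)) ≤ 4 * s ^ 2 * P ^ 2 := by
  have h1 : κ ^ 8 * ((r ^ 2 * s / κ ^ 2) ^ 2 * (A * B)) =
      s ^ 2 * ((κ ^ 2 * r ^ 2 * A) * (κ ^ 2 * r ^ 2 * B)) := by
    field_simp
  rw [h1]
  have h2 : 0 ≤ κ ^ 2 * r ^ 2 * B := by positivity
  have h3 : (κ ^ 2 * r ^ 2 * A) * (κ ^ 2 * r ^ 2 * B) ≤ (2 * P) * (2 * P) :=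
    mul_le_mul hA' hB' h2 (by positivity)
  calc s ^ 2 * ((κ ^ 2 * r ^ 2 * A) * (κ ^ 2 * r ^ 2 * B)) ≤ s ^ 2 * ((2 * P) * (2 * P)) :=
        mul_le_mul_of_nonneg_left h3 (sq_nonneg s)
    _ = _ := by ring

theorem num23 {κ : ℝ} {q : Pt} {u v : Tri} {E1 E2 E3 : Finset ℤ} (hκ : 0 < κ)
    (hv : VC κ K q u v E1 E2 E3) :
    κ ^ 8 * ((rC K q u ^ 2 * sd23 K q u / κ ^ 2) ^ 2 * ((E2.card : ℝ) * E3.card)) ≤
      4 * sd23 K q u ^ 2 * 4 ^ K := by
  have := num_le (s := sd23 K q u) hκ (Nat.cast_nonneg _) (mn_card2 hv) (mn_card3 hv)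
    (by positivity)
  rwa [← pow_mul, mul_comm K 2, pow_mul, show (2 : ℝ) ^ 2 = 4 by norm_num] at this

theorem num12 {κ : ℝ} {q : Pt} {u v : Tri} {E1 E2 E3 : Finset ℤ} (hκ : 0 < κ)
    (hv : VC κ K q u v E1 E2 E3) :
    κ ^ 8 * ((rC K q u ^ 2 * sd12 K q u / κ ^ 2) ^ 2 * ((E1.card : ℝ) * E2.card)) ≤
      4 * sd12 K q u ^ 2 * 4 ^ K := by
  have := num_le (s := sd12 K q u) hκ (Nat.cast_nonneg _) (mn_card1 hv) (mn_card2 hv)
    (by positivity)
  rwa [← pow_mul, mul_comm K 2, pow_mul, show (2 : ℝ) ^ 2 = 4 by norm_num] at this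

theorem num13 {κ : ℝ} {q : Pt} {u v : Tri} {E1 E2 E3 : Finset ℤ} (hκ : 0 < κ)
    (hv : VC κ K q u v E1 E2 E3) :
    κ ^ 8 * ((rC K q u ^ 2 * sd13 K q u / κ ^ 2) ^ 2 * ((E1.card : ℝ) * E3.card)) ≤
      4 * sd13 K q u ^ 2 * 4 ^ K := by
  have := num_le (s := sd13 K q u) hκ (Nat.cast_nonneg _) (mn_card1 hv) (mn_card3 hv)
    (by positivity)
  rwa [← pow_mul, mul_comm K 2, pow_mul, show (2 : ℝ) ^ 2 = 4 by norm_num] at this

end

end Vale.Agent.P141.H585
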