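import Vale.Agent.P141.H865.Ker
import Vale.Agent.P141.H998.ExMOf

/-!
# P141, line W, end lemma: the birth data of the main family

`bthO`: the data of a birth in the letters of `H865.Ker`; `a b = cf`, the two coefficients are
balanced by `lamB`; the levels of the plane process are multiples of `tauB = sg · rC · sd23`.
`mainF_pos`, `pdec_pos`: only births with `0 < rC` count.  `mainF_eq`: the main family.
-/

namespace Vale.Agent.P141.H585

open Finset
open Vale.Agent.P141.H315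
open Vale.Agent.P141.PL (Pt)
open Vale.Agent.P141.PL.H315 (cube3 atm Tri e12)
open Vale.Agent.P141.PL.H318 (a1)
open Vale.Agent.P141.H922 (n2 pw3)
open Vale.Agent.P141.H829 (rW s3 pwB bw bw_nonneg)
open Vale.Agent.P141.H998 (Bi thB mnB mainF PDec lmM lmM_eq mB mB_nonneg)
open Vale.Agent.P141.H865 (Bth mainO)

noncomputable section

open scoped Classical

/-! ### The three norms -/

/-- the ratio of the weights of a birth -/
def rB (b : Bi) : ℝ := rC b.1.1 b.1.2 b.2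
/-- the three `L²` norms of a birth -/
def sB12 (b : Bi) : ℝ := sd12 b.1.1 b.1.2 b.2
@[inherit_doc sB12] def sB13 (b : Bi) : ℝ := sd13 b.1.1 b.1.2 b.2
@[inherit_doc sB12] def sB23 (b : Bi) : ℝ := sd23 b.1.1 b.1.2 b.2

theorem rB_nonneg (b : Bi) : 0 ≤ rB b := rC_nonneg _ _ _
theorem sB12_nonneg (b : Bi) : 0 ≤ sB12 b := sd12_nonneg _ _ _
theorem sB13_nonneg (b : Bi) : 0 ≤ sB13 b := sd13_nonneg _ _ _
theorem sB23_nonneg (b : Bi) : 0 ≤ sB23 b := sd23_nonneg _ _ _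

/-- a positive ratio: the three norms are positive -/
theorem sd_pos {K : ℕ} {q : Pt} {u : Tri} (h : 0 < rC K q u) :
    0 < sd12 K q u ∧ 0 < sd13 K q u ∧ 0 < sd23 K q u := by
  have h1 : sd12 K q u * sd13 K q u * sd23 K q u ≠ 0 := by
    intro h0
    have h2 : rC K q u = 0 := by
      show pwB _ _ _ u / s3 _ _ _ u = 0
      have h3 : s3 (PL.H315.iv K q.1) (PL.H315.iv K q.2.1) (PL.H315.iv K q.2.2) u =
        sd12 K q u * sd13 K q u * sd23 K q u := rfl
      rw [h3, h0, div_zero]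
    linarith
  have h12 := sd12_nonneg K q u
  have h13 := sd13_nonneg K q u
  have h23 := sd23_nonneg K q u
  refine ⟨lt_of_le_of_ne h12 ?_, lt_of_le_of_ne h13 ?_, lt_of_le_of_ne h23 ?_⟩ <;>
  · rintro h0
    apply h1
    rw [← h0]
    ring

theorem sB_pos {b : Bi} (h : 0 < rB b) : 0 < sB12 b ∧ 0 < sB13 b ∧ 0 < sB23 b := sd_pos h

/-- the weight of a birth -/
theorem rB_mul (b : Bi) : rB b * (sB12 b * sB13 b * sB23 b) ≤ pwC b.1.1 b.1.2 b.2 :=
  rC_mul _ _ _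

theorem bw_eq (b : Bi) : bw b = 8 ^ b.1.1 * pwC b.1.1 b.1.2 b.2 := by
  rw [pwC_eq]; rfl

theorem mB_eq (cf : Bi → ℝ) (b : Bi) : mB cf b = |cf b| * (4 ^ b.1.1 * pwC b.1.1 b.1.2 b.2) := by
  rw [pwC_eq]; rfl

/-! ### The data -/

/-- the balance of the two sides -/
def lamB (b : Bi) : ℝ := √(rB b * sB13 b * sB23 b / sB12 b)

/-- the level of the residual of a birth -/
def tauB (sg : ℝ) (b : Bi) : ℝ := sg * rB b * sB23 b

/-- the energy of the plane kernels on squares -/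
def LpB (κ μ Lg : ℝ) (b : Bi) : ℝ := μ * rB b ^ 2 * sB23 b ^ 2 / κ ^ 4 * Lg

/-- **The data of a birth.** -/
def bthO (κ μ sg Lg : ℝ) (cf : Bi → ℝ) (E : Bi → Finset ℤ × Finset ℤ × Finset ℤ) (v : Bi → Tri)
    (b : Bi) : Bth where
  K := b.1.1
  q := b.1.2
  v := v b
  th := thB μ b
  S1 := (E b).1
  S2 := (E b).2.1
  S3 := (E b).2.2
  a := (if 0 ≤ cf b then 1 else -1) * √|cf b| * lamB b
  b := √|cf b| / lamB b
  cp := LpB κ μ Lg b / tauB sg b ^ 4
  xi := tauB sg b ^ 2 / 4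
  et := tauB sg b ^ 2 / 4

variable {κ μ sg Lg : ℝ} {cf : Bi → ℝ} {E : Bi → Finset ℤ × Finset ℤ × Finset ℤ} {v : Bi → Tri}

theorem lamB_pos {b : Bi} (h : 0 < rB b) : 0 < lamB b := by
  obtain ⟨h1, h2, h3⟩ := sB_pos h
  unfold lamB
  exact Real.sqrt_pos.2 (by positivity)

theorem lamB_sq {b : Bi} : lamB b ^ 2 = rB b * sB13 b * sB23 b / sB12 b := by
  have h1 := sB12_nonneg b
  have h2 := sB13_nonneg b
  have h3 := sB23_nonneg b
  have h4 := rB_nonneg b
  unfold lamB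
  exact Real.sq_sqrt (by positivity)

theorem tauB_pos {b : Bi} (hs : 0 < sg) (h : 0 < rB b) : 0 < tauB sg b := by
  obtain ⟨_, _, h3⟩ := sB_pos h
  unfold tauB
  positivity

theorem LpB_pos {b : Bi} (hκ : 0 < κ) (hμ : 0 < μ) (hL : 0 < Lg) (h : 0 < rB b) :
    0 < LpB κ μ Lg b := by
  obtain ⟨_, _, h3⟩ := sB_pos h
  unfold LpB
  positivity

theorem cp_nonneg (hμ : 0 ≤ μ) (hL : 0 ≤ Lg) (b : Bi) :
    0 ≤ (bthO κ μ sg Lg cf E v b).cp := by
  show 0 ≤ LpB κ μ Lg b / tauB sg b ^ 4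
  have h4 := rB_nonneg b
  have : 0 ≤ LpB κ μ Lg b := by unfold LpB; positivity
  positivity

theorem cp_pos {b : Bi} (hκ : 0 < κ) (hμ : 0 < μ) (hL : 0 < Lg) (hs : 0 < sg) (h : 0 < rB b) :
    0 < (bthO κ μ sg Lg cf E v b).cp := by
  show 0 < LpB κ μ Lg b / tauB sg b ^ 4
  have h1 := LpB_pos hκ hμ hL h
  have h2 := tauB_pos hs h
  positivity

theorem xi_pos {b : Bi} (hs : 0 < sg) (h : 0 < rB b) : 0 < (bthO κ μ sg Lg cf E v b).xi := by
  show 0 < tauB sg b ^ 2 / 4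
  have h2 := tauB_pos hs h
  positivity

theorem a_sq (b : Bi) : (bthO κ μ sg Lg cf E v b).a ^ 2 =
    |cf b| * (rB b * sB13 b * sB23 b / sB12 b) := by
  show ((if 0 ≤ cf b then (1 : ℝ) else -1) * √|cf b| * lamB b) ^ 2 = _
  have h1 : (if 0 ≤ cf b then (1 : ℝ) else -1) ^ 2 = 1 := by split_ifs <;> norm_num
  rw [mul_pow, mul_pow, h1, Real.sq_sqrt (abs_nonneg _), lamB_sq, one_mul]

theorem b_sq (b : Bi) : (bthO κ μ sg Lg cf E v b).b ^ 2 =
    |cf b| * (sB12 b / (rB b * sB13 b * sB23 b)) := by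
  show (√|cf b| / lamB b) ^ 2 = _
  rw [div_pow, Real.sq_sqrt (abs_nonneg _), lamB_sq, div_div_eq_mul_div, mul_div_assoc]

/-- the coefficient of the birth -/
theorem ab_eq {b : Bi} (h : 0 < rB b) :
    (bthO κ μ sg Lg cf E v b).a * (bthO κ μ sg Lg cf E v b).b = cf b := by
  show (if 0 ≤ cf b then (1 : ℝ) else -1) * √|cf b| * lamB b * (√|cf b| / lamB b) = cf b
  have h1 := lamB_pos h
  have h2 : √|cf b| * √|cf b| = |cf b| := Real.mul_self_sqrt (abs_nonneg _)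
  have h3 : (if 0 ≤ cf b then (1 : ℝ) else -1) * √|cf b| * lamB b * (√|cf b| / lamB b) =
      (if 0 ≤ cf b then (1 : ℝ) else -1) * (√|cf b| * √|cf b|) := by
    field_simp
  rw [h3, h2]
  split_ifs with h4
  · rw [abs_of_nonneg h4, one_mul]
  · rw [abs_of_neg (not_le.1 h4)]; ring

/-! ### Births with a vanishing weight -/

/-- the atom of a birth with a vanishing ratio vanishes -/
theorem v_zero {K : ℕ} {q : Pt} {u v : Tri} {E1 E2 E3 : Finset ℤ} (hv : VC κ K q u v E1 E2 E3)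
    (h : rC K q u = 0) (r : ℤ × ℤ) : v.1 r = 0 := by
  have h1 := hv.hgt12 r
  have e : rW (PL.H315.iv K q.1) (PL.H315.iv K q.2.1) (PL.H315.iv K q.2.2) u = 0 := h
  rw [e] at h1
  simp only [ne_eq, OfNat.ofNat_ne_zero, not_false_eq_true, zero_pow, zero_mul, zero_div] at h1
  exact abs_nonpos_iff.mp h1

theorem a1_mn_zero {c : Pt} {K : ℕ} {q : Pt} {u v : Tri} {E1 E2 E3 : Finset ℤ}
    (hv : VC κ K q u v E1 E2 E3) (h : rC K q u = 0) (θ : ℝ) (q' : Pt) (k : ℕ) (z : ℤ) :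
    a1 c K (q', mnA θ E1 E2 E3 K k v) z = 0 := by
  unfold a1
  refine sum_eq_zero fun y _ => ?_
  have h1 : atm (mnA θ E1 E2 E3 K k v) y = 0 := by
    have h2 : (mnA θ E1 E2 E3 K k v).1 (y.1, y.2.1) = 0 := by
      unfold mnA H829.rs3 H829.rst
      simp only
      rw [v_zero hv h]; ring
    unfold atm e12
    rw [h2]; ring
  rw [h1, ite_self]

variable {s : ℤ} {c : Pt} {Λ : ℕ} {x : ℤ} {M : ℝ} {P : ℤ → ℝ} {B : Finset Bi} {F : ℕ → ℤ → ℝ}

/-- the births which count -/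
def posB (B : Finset Bi) : Finset Bi := B.filter fun b => 0 < rB b

theorem mem_posB {b : Bi} : b ∈ posB B ↔ b ∈ B ∧ 0 < rB b := by
  unfold posB; exact mem_filter

theorem posB_sub : posB B ⊆ B := filter_subset _ _

theorem mainF_pos (hv : ∀ b ∈ B, VC κ b.1.1 b.1.2 b.2 (v b) (E b).1 (E b).2.1 (E b).2.2) :
    mainF c μ B cf E v = mainF c μ (posB B) cf E v := by
  funext k z
  unfold mainF
  symm
  refine sum_subset (filter_subset_filter _ posB_sub) fun b hb hb' => ?_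
  obtain ⟨h1, h2⟩ := mem_filter.1 hb
  have h3 : rC b.1.1 b.1.2 b.2 = 0 := by
    by_contra h
    exact hb' (mem_filter.2 ⟨mem_posB.2 ⟨h1, lt_of_le_of_ne (rB_nonneg b) (Ne.symm h)⟩, h2⟩)
  unfold mnB
  rw [a1_mn_zero (hv b h1) h3, mul_zero]

theorem pdec_pos (h : PDec s c Λ x κ μ M P B cf E v F) :
    PDec s c Λ x κ μ M P (posB B) cf E v F where
  bok b hb := h.bok b (posB_sub hb)
  vc b hb := h.vc b (posB_sub hb)
  mass := (sum_le_sum_of_subset_of_nonneg posB_sub fun b _ _ =>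
    mul_nonneg (abs_nonneg _) (bw_nonneg b)).trans h.mass
  dec k hk y hy hb z hz := by rw [← mainF_pos h.vc]; exact h.dec k hk y hy hb z hz
  tot := h.tot

theorem lmM_pos (a : ℤ) (k : ℕ) (y : ℤ) :
    lmM s a c (posB B) cf k y ≤ lmM s a c B cf k y := by
  rw [lmM_eq, lmM_eq]
  refine sum_le_sum_of_subset_of_nonneg posB_sub fun b _ _ => ?_
  split_ifs
  exacts [mB_nonneg cf b, le_rfl]

/-- **The main family in the letters of `H865.Ker`.** -/
theorem mainF_eq (hB : ∀ b ∈ B, 0 < rB b) (k : ℕ) :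
    mainF c μ B cf E v k = mainO c (bthO κ μ sg Lg cf E v) B k := by
  funext z
  unfold mainF mainO
  refine sum_congr rfl fun b hb => ?_
  rw [ab_eq (hB b (mem_filter.1 hb).1)]
  rfl

end

end Vale.Agent.P141.H585
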