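import Vale.Agent.P141.H829.OpZ
import Vale.Agent.P141.PL.H855.EndSpine

/-!
# P141, line W, end lemma: the number of the operator bound

* `UTest U δ`: the systems `U i` contain all the product atoms with the pair weight `δ`;
* `un_wP`: uniformity for such systems; `uTest_ex`: the systems of `Ex` at the level `j`,
  `δ = 2 ^ (-j)`;
* `kS C t e0 lam`: the number of `H829.kOp`; if `2 C t > 1` everything is in `D`;
* `kS_le`: at most `Ct (t ^ (3/8) + √e0 + √lam)`.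
-/

namespace Vale.Agent.P141.H585

open Finset
open Vale.Agent.P141.H315
open Vale.Agent.P141.PL (Pt fc)
open Vale.Agent.P141.PL.H95 (gr shf)
open Vale.Agent.P141.PL.H315 (cube3 Tri)
open Vale.Agent.P141.PL.H318 (CSys a1)
open Vale.Agent.P141.H8 (Un)
open Vale.Agent.P141.H922 (wP)
open Vale.Agent.P141.H829 (kOp)
open Vale.Agent.P141.H347.Gs (Ex e2)
open Vale.Agent.P141.PL.H855 (tj tj_eq)

noncomputable section

/-- the systems contain all the product atoms, with the pair weight `δ` -/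
def UTest {s : ℤ} {κι : Type*} (U : Fin 4 → CSys (gr 7 s) κι) (δ : ℝ) : Prop :=
  ∀ (i : Fin 4) (k : ℕ) (Q : Finset ℤ) (u : Pt × Tri), ∃ m, (U i).a k m = a1 (fc i) k u ∧
    (U i).W k Q m ≤ wP δ (cube3 k u.1) u.2

theorem wP_mul (C δ : ℝ) (Q : Finset Pt) (u : Tri) : C * wP δ Q u = wP (C * δ) Q u := by
  unfold wP; ring

/-- **uniformity for the product atoms** -/
theorem un_wP {s : ℤ} {κι : Type*} {U : Fin 4 → CSys (gr 7 s) κι} {δ C : ℝ} (hU : UTest U δ)
    (hC : 0 ≤ C) {i : Fin 4} {ud : ℕ → ℤ → Prop} {F : ℤ → ℝ} (h : Un (U i) C ud F) :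
    ∀ k y, ud k y → ∀ u : Pt × Tri, |dot ((gr 7 s).cube k y) F (a1 (fc i) k u)| ≤
      wP (C * δ) (cube3 k u.1) u.2 := by
  intro k y hy u
  obtain ⟨m, h1, h2⟩ := hU i k ((gr 7 s).cube k y) u
  have h3 := h k y hy m
  rw [h1] at h3
  refine h3.trans ?_
  rw [← wP_mul]
  exact mul_le_mul_of_nonneg_left h2 hC

/-- **the systems of `Ex`** -/
theorem uTest_ex (e : Ex) (n j : ℕ) (b : Bool) :
    UTest (s := shf (n + 7) b) ((e.T n).sys.S j b) (tj j) := by
  intro i k Q u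
  refine ⟨Sum.inl u, rfl, le_of_eq ?_⟩
  have e1 : ((e.T n).sys.S j b i).W k Q (Sum.inl u) = wP ((e.T n).δ j) (cube3 k u.1) u.2 := rfl
  have e2 : (e.T n).δ j = e2 (-1) j := rfl
  rw [e1, e2, tj_eq]
  congr 1
  unfold Vale.Agent.P141.H347.Gs.e2
  congr 1
  ring

/-- **The number of the operator bound.** -/
def kS (C t e0 lam : ℝ) : ℝ :=
  if 2 * (C * t) ≤ 1 then kOp C C (C * t) (C * e0) lam
  else kOp 1 C (1 / 2) (2 * (C + C * e0)) lam

theorem kS_nonneg {C t e0 lam : ℝ} (hC : 0 ≤ C) (ht : 0 ≤ t) : 0 ≤ kS C t e0 lam := by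
  unfold kS
  split_ifs
  · exact Vale.Agent.P141.H829.kOp_nonneg hC (by positivity)
  · exact Vale.Agent.P141.H829.kOp_nonneg zero_le_one (by norm_num)

/-- the constant of the operator bound -/
def cKop (C : ℝ) : ℝ := 151200 * (128 * C) * √(128 * C) * (2 * C) ^ (3 / 8 : ℝ) +
  256 * C * (1 + (2 * C) ^ (3 / 8 : ℝ))

theorem cKop_nonneg {C : ℝ} (hC : 1 ≤ C) : 0 ≤ cKop C := by
  have : 0 < C := by linarith
  unfold cKop
  positivity

/-- **the size of the operator bound** -/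
theorem kS_le {C t e0 lam : ℝ} (hC : 1 ≤ C) (ht : 0 < t) (ht1 : t ≤ 1) (h0 : 0 ≤ e0)
    (h1 : e0 ≤ 1) (hl : 0 ≤ lam) :
    kS C t e0 lam ≤ cKop C * (t ^ (3 / 8 : ℝ) + √e0 + √lam) := by
  have hC0 : 0 < C := by linarith
  have hsC : √C ≤ C := by
    rw [Real.sqrt_le_left hC0.le]
    nlinarith
  have h38 : 0 < t ^ (3 / 8 : ℝ) := Real.rpow_pos_of_pos ht _
  have hse := Real.sqrt_nonneg e0
  have hsl := Real.sqrt_nonneg lam
  have hw : 0 ≤ 151200 * (128 * C) * √(128 * C) := by positivity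
  have h2C : 0 < (2 * C) ^ (3 / 8 : ℝ) := Real.rpow_pos_of_pos (by positivity) _
  have hb : 0 ≤ 151200 * (128 * C) * √(128 * C) * (2 * C) ^ (3 / 8 : ℝ) := by positivity
  have g2 : √(lam * C) ≤ C * √lam := by
    rw [Real.sqrt_mul hl, mul_comm]
    exact mul_le_mul_of_nonneg_right hsC hsl
  unfold kS
  split_ifs with h
  · unfold kOp cKop
    have e1 : (2 * (C * t)) ^ (3 / 8 : ℝ) = (2 * C) ^ (3 / 8 : ℝ) * t ^ (3 / 8 : ℝ) := by
      rw [← mul_assoc, Real.mul_rpow (by positivity) ht.le]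
    have g1 : √(C * e0 * C) ≤ C * √e0 := by
      have : C * e0 * C = C ^ 2 * e0 := by ring
      rw [this, Real.sqrt_mul (by positivity), Real.sqrt_sq hC0.le]
    rw [e1]
    have g3 : 0 ≤ C * (2 * C) ^ (3 / 8 : ℝ) := by positivity
    nlinarith [mul_nonneg hb hse, mul_nonneg hb hsl, mul_nonneg hC0.le h38.le,
      mul_nonneg hC0.le hse, mul_nonneg hC0.le hsl, mul_nonneg g3 h38.le, mul_nonneg g3 hse,
      mul_nonneg g3 hsl]
  · unfold kOp cKop
    rw [not_le] at h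
    have e2 : (2 * (1 / 2 : ℝ)) ^ (3 / 8 : ℝ) = 1 := by
      rw [mul_one_div, div_self (by norm_num), Real.one_rpow]
    have g3 : (1 : ℝ) ≤ (2 * C) ^ (3 / 8 : ℝ) * t ^ (3 / 8 : ℝ) := by
      rw [← Real.mul_rpow (by positivity) ht.le]
      refine Real.one_le_rpow ?_ (by norm_num)
      linarith
    have g4 : √(2 * (C + C * e0) * C) ≤ 2 * C := by
      rw [Real.sqrt_le_left (by positivity)]
      nlinarith [mul_nonneg hC0.le hC0.le, mul_le_mul_of_nonneg_left h1 (mul_nonneg hC0.le hC0.le)]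
    rw [e2]
    have g5 : 151200 * (128 * 1) * √(128 * C) * 1 ≤
        151200 * (128 * C) * √(128 * C) * ((2 * C) ^ (3 / 8 : ℝ) * t ^ (3 / 8 : ℝ)) := by
      gcongr
    have g6 : 0 ≤ C * (2 * C) ^ (3 / 8 : ℝ) := by positivity
    have g7 : 256 * C * 1 ≤ 256 * C * ((2 * C) ^ (3 / 8 : ℝ) * t ^ (3 / 8 : ℝ)) := by gcongr
    nlinarith [mul_nonneg hb hse, mul_nonneg hb hsl, mul_nonneg hC0.le h38.le,
      mul_nonneg hC0.le hse, mul_nonneg hC0.le hsl, mul_nonneg g6 hse, mul_nonneg g6 hsl]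

end

end Vale.Agent.P141.H585
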