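import Vale.Agent.P141.H829.Loc
import Vale.Agent.P141.H911.Coef

/-!
# P141, line W, end lemma: the order of the variables

The births and the uniformity live in the order of the face (`fc i`), the boxes in the order
`lc σ s`.  Transposing two variables of a product atom transposes its edges, the push-forward and
the weight are the same.

* `Swp f g`: `f` on the points, `g` on the edges is such a transposition; `swp12`, `swp23`;
* `Brs.swp`, `brs_lc`: births over a cell, `fc (σ s)` to `lc σ s`;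
* `all_lc`: a bound for all the atoms of one cube scale, `fc (σ s)` to `lc σ s`.
-/

namespace Vale.Agent.P141.H585

open Finset
open Vale.Agent.P141.PL (Pt el fc)
open Vale.Agent.P141.PL.H315 (avg cube3 mem_cube3 atm Tri e12 e13 e23)
open Vale.Agent.P141.PL.H318 (a1 csz ixs)
open Vale.Agent.P141.H922 (n2 n4 nN pw3)
open Vale.Agent.P141.H829 (Bok Brs bw)
open Vale.Agent.P141.H911 (lc)
open Vale.Agent.P141.PL.H95 (gr)

noncomputable section

open scoped Classical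

/-! ### Transpositions -/

/-- exchange of the first two coordinates -/
def s12 (p : Pt) : Pt := (p.2.1, p.1, p.2.2)

/-- exchange of the last two coordinates -/
def s23 (p : Pt) : Pt := (p.1, p.2.2, p.2.1)

/-- exchange of the first two variables of a product atom -/
def t12 (u : Tri) : Tri := (fun r => u.1 (r.2, r.1), u.2.2, u.2.1)

/-- exchange of the last two variables of a product atom -/
def t23 (u : Tri) : Tri := (u.2.1, u.1, fun r => u.2.2 (r.2, r.1))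

/-- `f` on the points and `g` on the edges: a symmetry of the product atoms -/
structure Swp (f : Pt → Pt) (g : Tri → Tri) : Prop where
  inv : ∀ p, f (f p) = p
  ginv : ∀ u, g (g u) = u
  atm : ∀ u p, atm (g u) (f p) = atm u p
  el : ∀ c p, el (f c) (f p) = el c p
  csz : ∀ c, csz (f c) = csz c
  cube : ∀ k p q, p ∈ cube3 k (f q) ↔ f p ∈ cube3 k q
  pw : ∀ k q u, pw3 (cube3 k (f q)) (g u) = pw3 (cube3 k q) u

theorem sum_swp {f : Pt → Pt} (hi : ∀ p, f (f p) = p)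
    (hc : ∀ k p q, p ∈ cube3 k (f q) ↔ f p ∈ cube3 k q) {M : Type*} [AddCommMonoid M] (k : ℕ)
    (q : Pt) (φ : Pt → M) : ∑ y ∈ cube3 k (f q), φ y = ∑ y ∈ cube3 k q, φ (f y) :=
  sum_bij' (fun y _ => f y) (fun y _ => f y) (fun y hy => (hc k y q).1 hy)
    (fun y hy => (hc k (f y) q).2 (by rwa [hi])) (fun y _ => hi y) (fun y _ => hi y)
    (fun y _ => by rw [hi])

theorem card_swp {f : Pt → Pt} (hi : ∀ p, f (f p) = p)
    (hc : ∀ k p q, p ∈ cube3 k (f q) ↔ f p ∈ cube3 k q) (k : ℕ) (q : Pt) :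
    (cube3 k (f q)).card = (cube3 k q).card := by
  rw [card_eq_sum_ones, card_eq_sum_ones]
  exact sum_swp hi hc k q (fun _ => 1)

theorem avg_swp {f : Pt → Pt} (hi : ∀ p, f (f p) = p)
    (hc : ∀ k p q, p ∈ cube3 k (f q) ↔ f p ∈ cube3 k q) (k : ℕ) (q : Pt) (φ : Pt → ℝ) :
    avg (cube3 k (f q)) φ = avg (cube3 k q) fun y => φ (f y) := by
  unfold avg
  rw [sum_swp hi hc, card_swp hi hc]

theorem n2_swp {f : Pt → Pt} (hi : ∀ p, f (f p) = p)
    (hc : ∀ k p q, p ∈ cube3 k (f q) ↔ f p ∈ cube3 k q) (k : ℕ) (q : Pt) {φ ψ : Pt → ℝ}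
    (h : ∀ p, φ (f p) = ψ p) : n2 (cube3 k (f q)) φ = n2 (cube3 k q) ψ := by
  unfold n2
  rw [avg_swp hi hc]
  simp_rw [h]

theorem n4_swp {f : Pt → Pt} (hi : ∀ p, f (f p) = p)
    (hc : ∀ k p q, p ∈ cube3 k (f q) ↔ f p ∈ cube3 k q) (k : ℕ) (q : Pt) {φ ψ : Pt → ℝ}
    (h : ∀ p, φ (f p) = ψ p) : n4 (cube3 k (f q)) φ = n4 (cube3 k q) ψ := by
  unfold n4
  rw [avg_swp hi hc]
  simp_rw [h]

theorem nN_swp {f : Pt → Pt} (hi : ∀ p, f (f p) = p)
    (hc : ∀ k p q, p ∈ cube3 k (f q) ↔ f p ∈ cube3 k q) (k : ℕ) (q : Pt) {φ ψ : Pt → ℝ}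
    (h : ∀ p, φ (f p) = ψ p) : nN (cube3 k (f q)) φ = nN (cube3 k q) ψ := by
  unfold nN
  rw [n2_swp hi hc k q h, n4_swp hi hc k q h]

theorem inv12 (p : Pt) : s12 (s12 p) = p := rfl
theorem inv23 (p : Pt) : s23 (s23 p) = p := rfl

theorem cube12 (k : ℕ) (p q : Pt) : p ∈ cube3 k (s12 q) ↔ s12 p ∈ cube3 k q := by
  rw [mem_cube3, mem_cube3]; unfold s12; tauto

theorem cube23 (k : ℕ) (p q : Pt) : p ∈ cube3 k (s23 q) ↔ s23 p ∈ cube3 k q := by
  rw [mem_cube3, mem_cube3]; unfold s23; tauto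

theorem swp12 : Swp s12 t12 where
  inv := inv12
  ginv _ := rfl
  atm u p := by
    show u.1 (p.1, p.2.1) * u.2.2 (p.2.1, p.2.2) * u.2.1 (p.1, p.2.2) =
      u.1 (p.1, p.2.1) * u.2.1 (p.1, p.2.2) * u.2.2 (p.2.1, p.2.2)
    ring
  el c p := by unfold Vale.Agent.P141.PL.el s12; ring
  csz c := by unfold Vale.Agent.P141.PL.H318.csz s12; ring
  cube := cube12
  pw k q u := by
    unfold pw3
    rw [nN_swp inv12 cube12 k q (φ := e12 (t12 u).1) (ψ := e12 u.1) fun p => rfl,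
      nN_swp inv12 cube12 k q (φ := e13 (t12 u).2.1) (ψ := e23 u.2.2) fun p => rfl,
      nN_swp inv12 cube12 k q (φ := e23 (t12 u).2.2) (ψ := e13 u.2.1) fun p => rfl,
      n2_swp inv12 cube12 k q (φ := e12 (t12 u).1) (ψ := e12 u.1) fun p => rfl,
      n2_swp inv12 cube12 k q (φ := e13 (t12 u).2.1) (ψ := e23 u.2.2) fun p => rfl,
      n2_swp inv12 cube12 k q (φ := e23 (t12 u).2.2) (ψ := e13 u.2.1) fun p => rfl]
    ring

theorem swp23 : Swp s23 t23 where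
  inv := inv23
  ginv _ := rfl
  atm u p := by
    show u.2.1 (p.1, p.2.2) * u.1 (p.1, p.2.1) * u.2.2 (p.2.1, p.2.2) =
      u.1 (p.1, p.2.1) * u.2.1 (p.1, p.2.2) * u.2.2 (p.2.1, p.2.2)
    ring
  el c p := by unfold Vale.Agent.P141.PL.el s23; ring
  csz c := by unfold Vale.Agent.P141.PL.H318.csz s23; ring
  cube := cube23
  pw k q u := by
    unfold pw3
    rw [nN_swp inv23 cube23 k q (φ := e12 (t23 u).1) (ψ := e13 u.2.1) fun p => rfl,
      nN_swp inv23 cube23 k q (φ := e13 (t23 u).2.1) (ψ := e12 u.1) fun p => rfl,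
      nN_swp inv23 cube23 k q (φ := e23 (t23 u).2.2) (ψ := e23 u.2.2) fun p => rfl,
      n2_swp inv23 cube23 k q (φ := e12 (t23 u).1) (ψ := e13 u.2.1) fun p => rfl,
      n2_swp inv23 cube23 k q (φ := e13 (t23 u).2.1) (ψ := e12 u.1) fun p => rfl,
      n2_swp inv23 cube23 k q (φ := e23 (t23 u).2.2) (ψ := e23 u.2.2) fun p => rfl]
    ring

variable {f : Pt → Pt} {g : Tri → Tri}

/-- **the push-forward is the same** -/
theorem Swp.a1 (h : Swp f g) (c : Pt) (k : ℕ) (q : Pt) (u : Tri) :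
    a1 (f c) k (f q, g u) = a1 c k (q, u) := by
  funext s
  show ∑ y ∈ cube3 k (f q), (if Vale.Agent.P141.PL.el (f c) y = s then
    Vale.Agent.P141.PL.H315.atm (g u) y else 0) = ∑ y ∈ cube3 k q, (if
    Vale.Agent.P141.PL.el c y = s then Vale.Agent.P141.PL.H315.atm u y else 0)
  rw [sum_swp h.inv h.cube]
  exact sum_congr rfl fun y _ => by rw [h.el, h.atm]

theorem Swp.a1' (h : Swp f g) (c : Pt) (k : ℕ) (q : Pt) (u : Tri) :
    Vale.Agent.P141.PL.H318.a1 (f c) k (q, u) = Vale.Agent.P141.PL.H318.a1 c k (f q, g u) := by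
  rw [← h.a1 c k (f q) (g u), h.inv, h.ginv]

/-- **a bound for all the atoms on the cubes of one scale** -/
theorem Swp.all (h : Swp f g) {c : Pt} {k : ℕ} {Φ : (ℤ → ℝ) → ℝ → Prop}
    (H : ∀ q u, Φ (Vale.Agent.P141.PL.H318.a1 c k (q, u)) (pw3 (cube3 k q) u)) (q : Pt)
    (u : Tri) : Φ (Vale.Agent.P141.PL.H318.a1 (f c) k (q, u)) (pw3 (cube3 k q) u) := by
  have h1 := H (f q) (g u)
  rwa [← h.a1', h.pw] at h1

theorem Swp.bok (h : Swp f g) {c0 : ℕ} {σ : ℤ} {c : Pt} {Λ : ℕ} {x : ℤ} {b : ℕ × Pt}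
    (hb : Bok c0 σ c Λ x b) : Bok c0 σ (f c) Λ x (b.1, f b.2) where
  le := hb.le
  ovr y hy := by
    have h1 := hb.ovr (f y) ((h.cube b.1 y b.2).1 hy)
    rwa [← h.el c (f y), h.inv] at h1
  bor k h1 h2 y hy := by
    obtain ⟨t, h3, h4⟩ := hb.bor k h1 h2 (f y) ((h.cube b.1 y b.2).1 hy)
    rw [← h.el c (f y), h.inv] at h3
    exact ⟨t, h3, h4⟩

/-- **births in the new order** -/
theorem Swp.brs (h : Swp f g) {c0 : ℕ} {σ : ℤ} {c : Pt} {Λ : ℕ} {x : ℤ} {M : ℝ} {P : ℤ → ℝ}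
    (hB : Brs c0 σ c Λ x M P) : Brs c0 σ (f c) Λ x M P := by
  obtain ⟨B, cf, h1, h2, h3⟩ := hB
  set φ : (ℕ × Pt) × Tri → (ℕ × Pt) × Tri := fun b => ((b.1.1, f b.1.2), g b.2) with hφ
  have hφφ : ∀ b, φ (φ b) = b := fun b => by
    rw [hφ]
    simp only [h.inv, h.ginv]
  have hinj : Function.Injective φ := fun a b hab => by
    have := congrArg φ hab
    rwa [hφφ, hφφ] at this
  refine ⟨B.image φ, fun b => cf (φ b), ?_, ?_, ?_⟩
  · intro b hb
    obtain ⟨b', hb', rfl⟩ := mem_image.1 hb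
    exact h.bok (h1 b' hb')
  · intro y hy
    rw [h2 y hy, sum_image fun a _ b _ hab => hinj hab]
    refine sum_congr rfl fun b _ => ?_
    beta_reduce
    rw [hφφ]
    show _ = cf b * Vale.Agent.P141.PL.H318.a1 (f c) b.1.1 (f b.1.2, g b.2) y
    rw [h.a1]
  · rw [sum_image fun a _ b _ hab => hinj hab]
    refine le_trans (le_of_eq (sum_congr rfl fun b _ => ?_)) h3
    beta_reduce
    rw [hφφ]
    congr 1
    show 8 ^ b.1.1 * pw3 (cube3 b.1.1 (f b.1.2)) (g b.2) = 8 ^ b.1.1 * pw3 (cube3 b.1.1 b.1.2) b.2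
    rw [h.pw]

/-! ### The order of a box -/

theorem lc_cases (σ : Equiv.Perm (Fin 4)) (s : Fin 4) :
    lc σ s = fc (σ s) ∨ lc σ s = s12 (fc (σ s)) ∨ lc σ s = s23 (fc (σ s)) ∨
      lc σ s = s12 (s23 (fc (σ s))) ∨ lc σ s = s23 (s12 (fc (σ s))) ∨
      lc σ s = s12 (s23 (s12 (fc (σ s)))) := by
  revert σ s
  decide

/-- a property of the coefficients which is stable under the transpositions -/
theorem lc_ind {Q : Pt → Prop} (h12 : ∀ c, Q c → Q (s12 c)) (h23 : ∀ c, Q c → Q (s23 c))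
    (σ : Equiv.Perm (Fin 4)) (s : Fin 4) (h : Q (fc (σ s))) : Q (lc σ s) := by
  rcases lc_cases σ s with h1 | h1 | h1 | h1 | h1 | h1 <;> rw [h1]
  exacts [h, h12 _ h, h23 _ h, h12 _ (h23 _ h), h23 _ (h12 _ h), h12 _ (h23 _ (h12 _ h))]

/-- **births: from the order of the face to the order of the box** -/
theorem brs_lc {c0 : ℕ} {s : ℤ} (σ : Equiv.Perm (Fin 4)) (j : Fin 4) {Λ : ℕ} {x : ℤ} {M : ℝ}
    {P : ℤ → ℝ} (h : Brs c0 s (fc (σ j)) Λ x M P) : Brs c0 s (lc σ j) Λ x M P :=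
  lc_ind (Q := fun c => Brs c0 s c Λ x M P) (fun _ => swp12.brs) (fun _ => swp23.brs) σ j h

/-- **all the atoms of one scale: from the order of the face to the order of the box** -/
theorem all_lc {Φ : (ℤ → ℝ) → ℝ → Prop} (σ : Equiv.Perm (Fin 4)) (j : Fin 4) {k : ℕ}
    (h : ∀ q u, Φ (a1 (fc (σ j)) k (q, u)) (pw3 (cube3 k q) u)) :
    ∀ q u, Φ (a1 (lc σ j) k (q, u)) (pw3 (cube3 k q) u) :=
  lc_ind (Q := fun c => ∀ q u, Φ (a1 c k (q, u)) (pw3 (cube3 k q) u))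
    (fun _ => swp12.all) (fun _ => swp23.all) σ j h

theorem csz_lc (σ : Equiv.Perm (Fin 4)) (j : Fin 4) : csz (lc σ j) ≤ 2 ^ 7 := by
  have h := Vale.Agent.P141.H911.lc_le σ j
  unfold csz
  linarith [h.1, h.2.1, h.2.2]

end

end Vale.Agent.P141.H585
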