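import Vale.Agent.P141.H606.FOK
import Vale.Agent.P141.H865.FibI
import Vale.Agent.P141.H297.HopB
import Vale.Agent.P141.H443.LsupW
import Vale.Agent.P141.H97b.WinR
import Vale.Agent.P141.H75.SpB
import Vale.Agent.P141.H585.KopN
import Vale.Agent.P141.H998.EndOf

/-!
# P141, line W, end lemma: the context of the main family, the fibres

* `Ctx`: what `H998.MainEst` gives for one region (births with positive ratio);
* `Gm`, `exm`: gauge and exits of the fibres; `Wn`: the used nodes;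
* `hopM`: the operator bound; `hL2M`, `hL3M`: the masses; `fibCM`: `H606.FibC`.
-/

namespace Vale.Agent.P141.H585M

open Finset
open Vale.Agent.P141.H315 (Grid dot)
open Vale.Agent.P141.PL (Pt fc iv mem_iv)
open Vale.Agent.P141.PL.H315 (avg cube3 Tri)
open Vale.Agent.P141.PL.H95 (gr)
open Vale.Agent.P141.PL.H318 (a1)
open Vale.Agent.P141.PL.H571 (W)
open Vale.Agent.P141.H347 (cd)
open Vale.Agent.P141.H8 (Rgn En Un)
open Vale.Agent.P141.H922 (wP wP_nonneg)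
open Vale.Agent.P141.H911
open Vale.Agent.P141.H337 (ivm mem_ivm av2 ms)
open Vale.Agent.P141.H585 (bthO rB kS mem_posB posB)
open Vale.Agent.P141.H379 (Dl)
open Vale.Agent.P141.H540 (ln)
open Vale.Agent.P141.H443 (cu xc Cells cu_evx gHyp_cu hL_A hL_B cA cB cA_nonneg cB_nonneg)
open Vale.Agent.P141.H606 (FibD FibC Nod Uf qf)
open Vale.Agent.P141.H865 (KrO RrO fibD aO bO actO WA WB QO kern_eq)
open Vale.Agent.P141.H97b (CO act_sub_A2 act_sub_A3)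
open Vale.Agent.P141.H75 (und mem_und)
open Vale.Agent.P141.H829 (kOp opz_gd)
open Vale.Agent.P141.H297 (hop_bS)
open Vale.Agent.P141.H998 (Bi PDec mainF lmM Bdc Gd An en)

noncomputable section

open scoped Classical

/-- the gauge on the fibres -/
abbrev Gm (τ : Equiv.Perm (Fin 4)) (ud : ℕ → ℤ → Prop) (G1 : ℤ → ℝ) : ℤ → ℕ → ℤ → ℤ → ℝ :=
  fun x0 k x y => cu ud G1 k (ln (dd τ 1 0 * x0) (dd τ 1 2) (dd τ 1 3) x y)

/-- the exits of the gauge -/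
abbrev exm (τ : Equiv.Perm (Fin 4)) (ud : ℕ → ℤ → Prop) (Λ : ℕ) : ℤ → ℕ → ℤ → ℤ → Prop :=
  fun x0 k n m => Λ ≤ k ∨ ∃ x ∈ iv k n, ∃ y ∈ iv k m,
    xc ud k (ln (dd τ 1 0 * x0) (dd τ 1 2) (dd τ 1 3) x y)

/-- **The hypotheses of `H998.MainEst` for one region**, births with positive ratio. -/
structure Ctx (s : ℤ) (τ : Equiv.Perm (Fin 4)) (gd ud : ℕ → ℤ → Prop) (Λ : ℕ) (x : ℤ)
    (C t e0 lam m1 κ μ Mm : ℝ) (a : ℤ) (P GP D G1 : ℤ → ℝ) (B : Finset Bi) (cf : Bi → ℝ)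
    (E : Bi → Finset ℤ × Finset ℤ × Finset ℤ) (v : Bi → Tri) (F : ℕ → ℤ → ℝ) : Prop where
  rgn : Rgn (gr 7 s) gd Λ x ud
  top : ud Λ x
  dec : PDec s (lc τ 0) Λ x κ μ (Mm * cd (gr 7 s) Λ x) P B cf E v F
  pos : ∀ b ∈ B, 0 < rB b
  sum : ∀ z ∈ (gr 7 s).cube Λ x, P z = GP z + D z
  un : ∀ k y, ud k y → ∀ u : Pt × Tri, |dot ((gr 7 s).cube k y) GP (a1 (fc (τ 0)) k u)| ≤
    wP (C * t) (cube3 k u.1) u.2
  enP : En (gr 7 s) ud GP C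
  enD : En (gr 7 s) ud D (C * e0)
  enG : En (gr 7 s) ud G1 C
  tiny : ∀ k y, ud k y → en (gr 7 s) (Dl F Λ k) k y ≤ lam
  loc : ∀ k y, ud k y → lmM s a (lc τ 0) B cf k y ≤ m1
  hC : 1 ≤ C
  ht : 0 < t
  he0 : 0 ≤ e0
  hlam : 0 ≤ lam
  hκ : 0 < κ
  hμ : 0 < μ
  ha : 128 ≤ a

/-- the used nodes off the border -/
abbrev Wn (s : ℤ) (nd : Finset (ℕ × ℤ)) (le : ℕ × ℤ → ℤ) (ud : ℕ → ℤ → Prop) (Λ : ℕ) (x : ℤ) :
    Finset (ℕ × ℤ) := und nd le (An ud fun k y => ¬ Bdc s Λ x k y)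

variable {s : ℤ} {τ : Equiv.Perm (Fin 4)} {gd ud : ℕ → ℤ → Prop} {Λ : ℕ} {x : ℤ}
  {C t e0 lam m1 κ μ Mm sg Lg : ℝ} {a : ℤ} {P GP D G1 : ℤ → ℝ} {B : Finset Bi} {cf : Bi → ℝ}
  {E : Bi → Finset ℤ × Finset ℤ × Finset ℤ} {v : Bi → Tri} {F : ℕ → ℤ → ℝ} {o : ℤ}
  {nd : Finset (ℕ × ℤ)} {le : ℕ × ℤ → ℤ}

theorem Ctx.cells (h : Ctx s τ gd ud Λ x C t e0 lam m1 κ μ Mm a P GP D G1 B cf E v F) :
    Cells 7 s ud Λ G1 C := Cells.of h.rgn h.enG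

/-- off the exits the gauge does not change -/
theorem Ctx.hex (h : Ctx s τ gd ud Λ x C t e0 lam m1 κ μ Mm a P GP D G1 B cf E v F) (x0 : ℤ)
    (k : ℕ) (n m : ℤ) (he : ¬ exm τ ud Λ x0 k n m) {y z : ℤ} (hy : y ∈ iv k n)
    (hz : z ∈ iv k m) : Gm τ ud G1 x0 k y z = Gm τ ud G1 x0 (k + 1) y z := by
  rw [not_or, not_le] at he
  exact cu_evx h.rgn.up he.1 he.2 hy hz

/-- the used nodes -/
theorem Ctx.nod (h : Ctx s τ gd ud Λ x C t e0 lam m1 κ μ Mm a P GP D G1 B cf E v F)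
    (hnd : ∀ N ∈ nd, 1 ≤ N.1) (hsub : ∀ N ∈ nd, W N.1 N.2 ⊆ (gr 7 s).cube N.1 (le N)) :
    Nod s ud Λ le (Wn s nd le ud Λ x) where
  one N hN := hnd N (mem_und.1 hN).1
  sub N hN := hsub N (mem_und.1 hN).1
  use N hN := (mem_und.1 hN).2.1

theorem Ctx.cu_eq (h : Ctx s τ gd ud Λ x C t e0 lam m1 κ μ Mm a P GP D G1 B cf E v F) {k : ℕ}
    {y z : ℤ} (hy : ud k y) (hz : z ∈ (gr 7 s).cube k y) : cu ud G1 k z = G1 z := by
  unfold cu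
  rw [if_pos ((h.rgn.const k y z hz).2 hy)]

/-- **The operator bound of the kernel part on a used box.** -/
theorem hopM (h : Ctx s τ gd ud Λ x C t e0 lam m1 κ μ Mm a P GP D G1 B cf E v F)
    (ho : o = 1 ∨ o = -1) (hs : 0 < sg) (hLg : 256 * C ≤ Lg)
    (hsub : ∀ N ∈ nd, W N.1 N.2 ⊆ (gr 7 s).cube N.1 (le N)) {k : ℕ} {n x0 x1 : ℤ}
    (hn : n ∈ Uf τ o (Wn s nd le ud Λ x) x0 x1 k) (p r : ℤ → ℝ) :
    |av2 (ivm k n) (ivm k (qf o x0 x1 k n)) (fun x2 x3 => p x2 *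
      H606.kS (actO (lc τ 0) (bthO κ μ sg Lg cf E v) (Gm τ ud G1 x0) (exm τ ud Λ x0) B x1 k n
          (qf o x0 x1 k n))
        (aO (bthO κ μ sg Lg cf E v) (Gm τ ud G1 x0) x1)
        (bO (bthO κ μ sg Lg cf E v) (Gm τ ud G1 x0) x1) x2 x3 * r x3)| ≤
      (kS C t e0 lam + 3 / 2 * sg * m1) * √(avg (ivm k n) fun x => p x ^ 2) *
        √(avg (ivm k (qf o x0 x1 k n)) fun x => r x ^ 2) := by
  have hC0 : 0 < C := by linarith [h.hC]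
  have hnd := mem_und.1 (mem_vk.1 (mem_Uz.1 hn))
  set N : ℕ × ℤ := (k, vz τ o (x0 / 2 ^ k) (x1 / 2 ^ k) n) with hN
  have hud : ud k (le N) := hnd.2.1
  have hsub' : W k (vz τ o (x0 / 2 ^ k) (x1 / 2 ^ k) n) ⊆ (gr 7 s).cube k (le N) :=
    hsub N hnd.1
  have h0 : x0 ∈ ivm k (x0 / 2 ^ k) := mem_ivm.2 rfl
  have h1 : x1 ∈ ivm k (x1 / 2 ^ k) := mem_ivm.2 rfl
  -- the slots
  set A : Fin 4 → ℕ → ℤ → ℝ := fun j =>
    if j = τ 0 then mainF (lc τ 0) μ B cf E v else cu ud G1 with hA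
  have hA0 : A (τ 0) = mainF (lc τ 0) μ B cf E v := by rw [hA]; simp
  have hA1 : A (τ 1) = cu ud G1 := by
    rw [hA]
    have : τ 1 ≠ τ 0 := fun h => absurd (τ.injective h) (by decide)
    simp [this]
  have hG : ∀ z ∈ (gr 7 s).cube k (le N), A (τ 1) k z = G1 z := fun z hz => by
    rw [hA1]; exact h.cu_eq hud hz
  have hfG : dot ((gr 7 s).cube k (le N)) (A (τ 1) k) (A (τ 1) k) ≤
      C * ((gr 7 s).cube k (le N)).card := by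
    refine le_trans (le_of_eq ?_) (h.enG k (le N) hud)
    unfold dot
    exact sum_congr rfl fun z hz => by rw [hG z hz]
  have hM1 : ∀ z ∈ (gr 7 s).cube k (le N), lmM s a (lc τ 0) B cf k z ≤ m1 := fun z hz =>
    h.loc k z ((h.rgn.const k _ z hz).2 hud)
  have hgd : Gd s Λ x ud (fun _ _ => False) k (le N) := ⟨hud, hnd.2.2, not_false⟩
  have hS : ∀ b d : ℤ → ℝ, |av2 (ivm k n) (ivm k (qz o (x0 / 2 ^ k) (x1 / 2 ^ k) n))
      (fun x2 x3 => b x2 * (Pz τ (fun s => A s k) x1 x2 x3 * Gz τ (fun s => A s k) x0 x2 x3) *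
        d x3)| ≤ kS C t e0 lam * √(avg (ivm k n) fun x => b x ^ 2) *
        √(avg (ivm k (qz o (x0 / 2 ^ k) (x1 / 2 ^ k) n)) fun x => d x ^ 2) := by
    intro b d
    unfold kS
    split_ifs with hc
    · exact opz_gd ho τ h.dec h.rgn hgd h.hlam (h.tiny k _ hud) (mul_pos hC0 h.ht) hc h.hC
        hC0.le (mul_nonneg hC0.le h.he0) h.sum h.un h.enP h.enD h.enG
        (f := fun s => A s k) (fun z _ => by rw [hA0]) (fun z hz => hG z hz) h0 h1 hsub' b d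
    · have hP : ∀ z ∈ (gr 7 s).cube Λ x, P z = (0 : ℤ → ℝ) z + P z := fun z _ => by simp
      have hd0 : ∀ Q (f : ℤ → ℝ), dot Q (0 : ℤ → ℝ) f = 0 := fun Q f => by
        unfold dot; simp
      refine opz_gd ho τ h.dec h.rgn hgd h.hlam (h.tiny k _ hud) (by norm_num) (by norm_num)
        le_rfl hC0.le (by have := h.he0; positivity) hP (fun k y _ u => ?_) (fun k y _ => ?_)
        (H998.en_sum h.rgn h.sum h.enP h.enD) h.enG
        (f := fun s => A s k) (fun z _ => by rw [hA0]) (fun z hz => hG z hz) h0 h1 hsub' b d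
      · rw [hd0, abs_zero]
        exact wP_nonneg (by norm_num) _ _
      · rw [hd0, one_mul]
        exact (Vale.Agent.P141.H347.cd_pos _ _ _).le
  have key := hop_bS ho τ h.dec h.pos hC0.le (A := A) (k := k) (y := le N) (by rw [hA0]) hfG
    h.hκ h.hμ hs hLg (by linarith) h.ha hM1 h0 h1 hsub' (ex := exm τ ud Λ x0)
    (fun k n m he y hy z hz => by
      rw [hA1]
      exact h.hex x0 k n m he hy hz) hS p r
  rw [hA1] at key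
  exact key

/-- the bound of the masses of the window sets -/
def LmN (κ μ sg Lg C m1 : ℝ) : ℝ :=
  17 * (cA κ μ sg Lg (256 * C) * m1) + 17 * (cB κ μ sg (256 * C) * m1)

/-- the cells of the births of the used boxes -/
abbrev Cl (s : ℤ) (τ : Equiv.Perm (Fin 4)) (o : ℤ) (nd : Finset (ℕ × ℤ)) (le : ℕ × ℤ → ℤ)
    (ud : ℕ → ℤ → Prop) (Λ : ℕ) (x : ℤ) (κ μ sg Lg : ℝ) (cf : Bi → ℝ)
    (E : Bi → Finset ℤ × Finset ℤ × Finset ℤ) (v : Bi → Tri) : Bi → Finset Pt :=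
  fun b => CO τ o (Wn s nd le ud Λ x) Λ (bthO κ μ sg Lg cf E v b).K

/-- **The data of one fibre.** -/
abbrev dM (s : ℤ) (τ : Equiv.Perm (Fin 4)) (o : ℤ) (nd : Finset (ℕ × ℤ)) (le : ℕ × ℤ → ℤ)
    (ud : ℕ → ℤ → Prop) (Λ : ℕ) (x : ℤ) (κ μ sg Lg : ℝ) (G1 : ℤ → ℝ) (B : Finset Bi)
    (cf : Bi → ℝ) (E : Bi → Finset ℤ × Finset ℤ × Finset ℤ) (v : Bi → Tri) (x0 x1 : ℤ) :
    FibD ((Bi × Pt × Pt) × (ℕ × ℤ × ℤ)) :=
  fibD τ o (bthO κ μ sg Lg cf E v) (Gm τ ud G1) (exm τ ud Λ) B x0 x1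
    (WA (bthO κ μ sg Lg cf E v) (Gm τ ud G1 x0) (exm τ ud Λ x0)
      (QO (lc τ 0) (bthO κ μ sg Lg cf E v) B (Cl s τ o nd le ud Λ x κ μ sg Lg cf E v)) o x0 x1)
    (WB (bthO κ μ sg Lg cf E v) (Gm τ ud G1 x0) (exm τ ud Λ x0)
      (QO (lc τ 0) (bthO κ μ sg Lg cf E v) B (Cl s τ o nd le ud Λ x κ μ sg Lg cf E v)) o x0 x1)

/-- **`H606.FibC` for the family of births.** -/
theorem fibCM (h : Ctx s τ gd ud Λ x C t e0 lam m1 κ μ Mm a P GP D G1 B cf E v F)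
    (ho : o = 1 ∨ o = -1) (hs : 0 < sg) (hLg : 256 * C ≤ Lg)
    (hsub : ∀ N ∈ nd, W N.1 N.2 ⊆ (gr 7 s).cube N.1 (le N)) (hm1 : 0 ≤ m1) {x0 x1 : ℤ}
    (hx0 : x0 ∈ Ico (0 : ℤ) (6 * 2 ^ Λ)) (hx1 : x1 ∈ Ico (0 : ℤ) (6 * 2 ^ Λ)) :
    FibC τ o Λ (Wn s nd le ud Λ x) ud
      (KrO (lc τ 0) (bthO κ μ sg Lg cf E v) (Gm τ ud G1) (exm τ ud Λ) B)
      (kS C t e0 lam + 3 / 2 * sg * m1) (LmN κ μ sg Lg C m1) x0 x1
      (dM s τ o nd le ud Λ x κ μ sg Lg G1 B cf E v x0 x1) := by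
  have hC0 : 0 < C := by linarith [h.hC]
  have hL0 : 0 ≤ Lg := by linarith
  have ho1 : |o| ≤ 1 := by rcases ho with rfl | rfl <;> norm_num
  have ha : 64 ≤ a := by linarith [h.ha]
  have hG := gHyp_cu (G := Gm τ ud G1 x0) h.cells hC0.le τ x0 fun _ _ _ => rfl
  have hcA : 0 ≤ 17 * (cA κ μ sg Lg (256 * C) * m1) :=
    mul_nonneg (by norm_num) (mul_nonneg (cA_nonneg h.hμ.le hL0) hm1)
  have hcB : 0 ≤ 17 * (cB κ μ sg (256 * C) * m1) :=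
    mul_nonneg (by norm_num) (mul_nonneg cB_nonneg hm1)
  constructor
  · exact fun k _ _ n _ x2 h2 x3 h3 => kern_eq _ _ _ _ _ h2 h3 x0 x1
  · exact fun k h1 hk n hn => act_sub_A2 hx0 hx1 h1 hk hn
  · exact fun k h1 hk n hn => act_sub_A3 hx0 hx1 h1 hk hn
  · exact fun k _ _ n hn p r => hopM h ho hs hLg hsub hn p r
  · rintro k _ b ⟨u, hu, hud⟩
    refine (hL_A ho1 ha h.hκ h.hμ.le hs hL0 h.pos h.dec.vc hG _
      ⟨u, mem_iv.2 (mem_ivm.1 hu), h.loc k _ hud⟩).trans ?_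
    unfold LmN
    linarith
  · rintro k _ b ⟨u, hu, hud⟩
    refine (hL_B ho1 ha h.hκ h.hμ.le hs hL0 h.pos h.dec.vc hG _
      ⟨u, mem_iv.2 (mem_ivm.1 hu), h.loc k _ hud⟩).trans ?_
    unfold LmN
    linarith

end

end Vale.Agent.P141.H585M
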