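import Vale.Agent.P141.H585.Stop2
import Vale.Agent.P141.H944.BoxP

/-!
# P141, line W, end lemma: pointwise bounds of the main atom on every interval and square

`mnA θ E1 E2 E3 K k v`, `θ = μ / rC²`: the restriction of a vertex-type atom to the points with no
dense interval above.  On EVERY dyadic interval of the scales `k, …, K`

* the density of the carriers is at most `θ` (any interval of the same length: `2 θ`);
* the line averages of the squares of the edges are at most `μ κ⁻⁴ rC² n2²`;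
* the energy of edge times a function with line averages at most `Λ` is at most `Λ` times that.
-/

namespace Vale.Agent.P141.H585

open Finset
open Vale.Agent.P141.PL (iv ix Pt cb cx mem_iv mem_cb card_iv card_cb ix_ix el)
open Vale.Agent.P141.PL.H315 (avg avg_nonneg cube3 card_cube3 atm Tri e12 e13 e23)
open Vale.Agent.P141.H829 (VTy rW rW_nonneg rW_mul pwB pwB_nonneg s3 rst abs_rst_le rst_ne rs3)
open Vale.Agent.P141.H922 (n2 n4 nN n2_nonneg pw3 wP)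

noncomputable section

/-! ### The weight -/

theorem pwC_eq (K : ℕ) (q : Pt) (u : Tri) : pwC K q u = pw3 (cube3 K q) u :=
  (H944.pw3_cube K q u).symm

theorem pwC_card (δ : ℝ) (K : ℕ) (q : Pt) (u : Tri) :
    δ * (pwC K q u * 8 ^ K) = wP δ (cube3 K q) u := by
  unfold wP
  rw [pwC_eq, card_cube3]; push_cast; ring

/-- the three `L²` norms of a cube -/
def sd12 (K : ℕ) (q : Pt) (u : Tri) : ℝ := n2 (PL.H315.iv K q.1 ×ˢ PL.H315.iv K q.2.1) u.1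
@[inherit_doc sd12] def sd13 (K : ℕ) (q : Pt) (u : Tri) : ℝ :=
  n2 (PL.H315.iv K q.1 ×ˢ PL.H315.iv K q.2.2) u.2.1
@[inherit_doc sd12] def sd23 (K : ℕ) (q : Pt) (u : Tri) : ℝ :=
  n2 (PL.H315.iv K q.2.1 ×ˢ PL.H315.iv K q.2.2) u.2.2

theorem sd12_nonneg (K : ℕ) (q : Pt) (u : Tri) : 0 ≤ sd12 K q u := n2_nonneg _ _
theorem sd13_nonneg (K : ℕ) (q : Pt) (u : Tri) : 0 ≤ sd13 K q u := n2_nonneg _ _
theorem sd23_nonneg (K : ℕ) (q : Pt) (u : Tri) : 0 ≤ sd23 K q u := n2_nonneg _ _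

/-- the ratio times the `L²` weight is the pair weight (or the ratio vanishes) -/
theorem rC_mul (K : ℕ) (q : Pt) (u : Tri) :
    rC K q u * (sd12 K q u * sd13 K q u * sd23 K q u) ≤ pwC K q u := by
  by_cases h : s3 (PL.H315.iv K q.1) (PL.H315.iv K q.2.1) (PL.H315.iv K q.2.2) u = 0
  · have : sd12 K q u * sd13 K q u * sd23 K q u = 0 := h
    rw [this, mul_zero]; exact pwC_nonneg K q u
  · exact (rW_mul h).le

/-! ### Any interval -/

/-- **the density of the alive set on ANY interval of length `2 ^ j`** -/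
theorem sum_lvS_le {θ : ℝ} (hθ : 0 ≤ θ) {E : Finset ℤ} {L k j : ℕ} (hk : k ≤ j) (hj : j ≤ L)
    (a : ℤ) : ∑ x ∈ Ico a (a + 2 ^ j), id1 (lvS θ E L k) x ≤ 2 * θ * 2 ^ j := by
  have h2 : (0 : ℤ) < 2 ^ j := by positivity
  set m := ix j a with hm
  have e1 : ∀ n : ℤ, ∑ x ∈ iv j n, id1 (lvS θ E L k) x ≤ θ * 2 ^ j := by
    intro n
    rw [sum_id1, mul_comm]
    exact mul_le_mul_of_nonneg_right (dn_lvS_le hθ hk hj n) (by positivity)
  have hsub : Ico a (a + 2 ^ j) ⊆ iv j m ∪ iv j (m + 1) := by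
    intro x hx
    rw [mem_Ico] at hx
    have h3 := Int.mul_ediv_add_emod a (2 ^ j)
    have h4 := Int.emod_nonneg a h2.ne'
    have h5 := Int.emod_lt_of_pos a h2
    have h6 : m = a / 2 ^ j := rfl
    rw [mem_union]
    unfold iv
    rw [mem_Ico, mem_Ico]
    by_cases hx2 : x < 2 ^ j * m + 2 ^ j
    · left; rw [h6] at hx2 ⊢; constructor <;> linarith
    · right; rw [h6] at hx2 ⊢; constructor <;> nlinarith
  calc ∑ x ∈ Ico a (a + 2 ^ j), id1 (lvS θ E L k) x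
      ≤ ∑ x ∈ iv j m ∪ iv j (m + 1), id1 (lvS θ E L k) x :=
        sum_le_sum_of_subset_of_nonneg hsub fun _ _ _ => id1_nonneg _ _
    _ ≤ ∑ x ∈ iv j m, id1 (lvS θ E L k) x + ∑ x ∈ iv j (m + 1), id1 (lvS θ E L k) x := by
        rw [← sum_union_inter]
        have : 0 ≤ ∑ x ∈ iv j m ∩ iv j (m + 1), id1 (lvS θ E L k) x :=
          sum_nonneg fun _ _ => id1_nonneg _ _
        linarith
    _ ≤ _ := by linarith [e1 m, e1 (m + 1)]

/-! ### The edges of the main atom -/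

variable {κ μ : ℝ} {K k j : ℕ} {q : Pt} {u v : Tri} {E1 E2 E3 : Finset ℤ}

/-- the threshold -/
def thC (μ : ℝ) (K : ℕ) (q : Pt) (u : Tri) : ℝ := μ / rC K q u ^ 2

theorem thC_nonneg (hμ : 0 ≤ μ) (K : ℕ) (q : Pt) (u : Tri) : 0 ≤ thC μ K q u := by
  unfold thC; positivity

theorem ed_rst {h : ℝ} {E F : Finset ℤ} {d : ℤ × ℤ → ℝ} (hd : ∀ r, |d r| ≤ h) :
    Ed h E F (fun x y => rst E F d (x, y)) := by
  intro x y
  show |rst E F d (x, y)| ≤ h * (id1 E x * id1 F y)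
  have h0 : 0 ≤ h := (abs_nonneg _).trans (hd (x, y))
  by_cases hx : rst E F d (x, y) = 0
  · rw [hx, abs_zero]
    exact mul_nonneg h0 (mul_nonneg (id1_nonneg _ _) (id1_nonneg _ _))
  · obtain ⟨h1, h2⟩ := rst_ne hx
    have : id1 E x * id1 F y = 1 := by
      unfold id1; rw [if_pos h1, if_pos h2, mul_one]
    rw [this, mul_one]
    exact (abs_rst_le E F d _).trans (hd _)

/-- edge `12` of the main atom -/
theorem mn_ed12 (hv : VC κ K q u v E1 E2 E3) (θ : ℝ) (k : ℕ) :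
    Ed (rC K q u ^ 2 * sd12 K q u / κ ^ 2) (lvS θ E1 K k) (lvS θ E2 K k)
      (fun x y => (mnA θ E1 E2 E3 K k v).1 (x, y)) :=
  ed_rst hv.hgt12

/-- edge `13` of the main atom -/
theorem mn_ed13 (hv : VC κ K q u v E1 E2 E3) (θ : ℝ) (k : ℕ) :
    Ed (rC K q u ^ 2 * sd13 K q u / κ ^ 2) (lvS θ E1 K k) (lvS θ E3 K k)
      (fun x y => (mnA θ E1 E2 E3 K k v).2.1 (x, y)) :=
  ed_rst hv.hgt13

/-- edge `23` of the main atom -/
theorem mn_ed23 (hv : VC κ K q u v E1 E2 E3) (θ : ℝ) (k : ℕ) :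
    Ed (rC K q u ^ 2 * sd23 K q u / κ ^ 2) (lvS θ E2 K k) (lvS θ E3 K k)
      (fun x y => (mnA θ E1 E2 E3 K k v).2.2 (x, y)) :=
  ed_rst hv.hgt23

/-- height squared times density -/
theorem hgt_th (μ κ : ℝ) (K : ℕ) (q : Pt) (u : Tri) (n : ℝ) :
    (rC K q u ^ 2 * n / κ ^ 2) ^ 2 * thC μ K q u = μ * rC K q u ^ 2 * n ^ 2 / κ ^ 4 := by
  unfold thC
  by_cases h : rC K q u = 0
  · rw [h]; simp
  · field_simp

theorem hgt_nonneg (κ : ℝ) (K : ℕ) (q : Pt) (u : Tri) {n : ℝ} (hn : 0 ≤ n) :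
    0 ≤ rC K q u ^ 2 * n / κ ^ 2 := by positivity

/-- **the six lines** -/
theorem mn_line12_1 (hμ : 0 ≤ μ) (hv : VC κ K q u v E1 E2 E3) (hk : k ≤ j) (hj : j ≤ K) (m y : ℤ) :
    avg (iv j m) (fun x => (mnA (thC μ K q u) E1 E2 E3 K k v).1 (x, y) ^ 2) ≤
      μ * rC K q u ^ 2 * sd12 K q u ^ 2 / κ ^ 4 := by
  rw [← hgt_th]
  exact (mn_ed12 hv _ k).line1 (hgt_nonneg κ K q u (sd12_nonneg K q u))
    (dn_lvS_le (thC_nonneg hμ K q u) hk hj m) y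

theorem mn_line12_2 (hμ : 0 ≤ μ) (hv : VC κ K q u v E1 E2 E3) (hk : k ≤ j) (hj : j ≤ K) (m x : ℤ) :
    avg (iv j m) (fun y => (mnA (thC μ K q u) E1 E2 E3 K k v).1 (x, y) ^ 2) ≤
      μ * rC K q u ^ 2 * sd12 K q u ^ 2 / κ ^ 4 := by
  rw [← hgt_th]
  exact (mn_ed12 hv _ k).line2 (hgt_nonneg κ K q u (sd12_nonneg K q u))
    (dn_lvS_le (thC_nonneg hμ K q u) hk hj m) x

theorem mn_line13_1 (hμ : 0 ≤ μ) (hv : VC κ K q u v E1 E2 E3) (hk : k ≤ j) (hj : j ≤ K) (m y : ℤ) :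
    avg (iv j m) (fun x => (mnA (thC μ K q u) E1 E2 E3 K k v).2.1 (x, y) ^ 2) ≤
      μ * rC K q u ^ 2 * sd13 K q u ^ 2 / κ ^ 4 := by
  rw [← hgt_th]
  exact (mn_ed13 hv _ k).line1 (hgt_nonneg κ K q u (sd13_nonneg K q u))
    (dn_lvS_le (thC_nonneg hμ K q u) hk hj m) y

theorem mn_line13_2 (hμ : 0 ≤ μ) (hv : VC κ K q u v E1 E2 E3) (hk : k ≤ j) (hj : j ≤ K) (m x : ℤ) :
    avg (iv j m) (fun y => (mnA (thC μ K q u) E1 E2 E3 K k v).2.1 (x, y) ^ 2) ≤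
      μ * rC K q u ^ 2 * sd13 K q u ^ 2 / κ ^ 4 := by
  rw [← hgt_th]
  exact (mn_ed13 hv _ k).line2 (hgt_nonneg κ K q u (sd13_nonneg K q u))
    (dn_lvS_le (thC_nonneg hμ K q u) hk hj m) x

theorem mn_line23_1 (hμ : 0 ≤ μ) (hv : VC κ K q u v E1 E2 E3) (hk : k ≤ j) (hj : j ≤ K) (m y : ℤ) :
    avg (iv j m) (fun x => (mnA (thC μ K q u) E1 E2 E3 K k v).2.2 (x, y) ^ 2) ≤
      μ * rC K q u ^ 2 * sd23 K q u ^ 2 / κ ^ 4 := by
  rw [← hgt_th]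
  exact (mn_ed23 hv _ k).line1 (hgt_nonneg κ K q u (sd23_nonneg K q u))
    (dn_lvS_le (thC_nonneg hμ K q u) hk hj m) y

theorem mn_line23_2 (hμ : 0 ≤ μ) (hv : VC κ K q u v E1 E2 E3) (hk : k ≤ j) (hj : j ≤ K) (m x : ℤ) :
    avg (iv j m) (fun y => (mnA (thC μ K q u) E1 E2 E3 K k v).2.2 (x, y) ^ 2) ≤
      μ * rC K q u ^ 2 * sd23 K q u ^ 2 / κ ^ 4 := by
  rw [← hgt_th]
  exact (mn_ed23 hv _ k).line2 (hgt_nonneg κ K q u (sd23_nonneg K q u))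
    (dn_lvS_le (thC_nonneg hμ K q u) hk hj m) x

/-- **the three squares**: the energy of edge times a function with line averages at most `Λ` in
the second variable -/
theorem mn_square12 (hμ : 0 ≤ μ) (hv : VC κ K q u v E1 E2 E3) (hk : k ≤ j) (hj : j ≤ K)
    {Λ : ℝ} (hΛ : 0 ≤ Λ) {G : ℤ → ℤ → ℝ} {m m' : ℤ}
    (hG : ∀ x ∈ iv j m, avg (iv j m') (fun y => G x y ^ 2) ≤ Λ) :
    avg (iv j m) (fun x => avg (iv j m') fun y =>
      ((mnA (thC μ K q u) E1 E2 E3 K k v).1 (x, y) * G x y) ^ 2) ≤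
      μ * rC K q u ^ 2 * sd12 K q u ^ 2 / κ ^ 4 * Λ := by
  rw [← hgt_th]
  exact (mn_ed12 hv _ k).square (hgt_nonneg κ K q u (sd12_nonneg K q u)) hΛ
    (dn_lvS_le (thC_nonneg hμ K q u) hk hj m) hG

theorem mn_square13 (hμ : 0 ≤ μ) (hv : VC κ K q u v E1 E2 E3) (hk : k ≤ j) (hj : j ≤ K)
    {Λ : ℝ} (hΛ : 0 ≤ Λ) {G : ℤ → ℤ → ℝ} {m m' : ℤ}
    (hG : ∀ x ∈ iv j m, avg (iv j m') (fun y => G x y ^ 2) ≤ Λ) :
    avg (iv j m) (fun x => avg (iv j m') fun y =>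
      ((mnA (thC μ K q u) E1 E2 E3 K k v).2.1 (x, y) * G x y) ^ 2) ≤
      μ * rC K q u ^ 2 * sd13 K q u ^ 2 / κ ^ 4 * Λ := by
  rw [← hgt_th]
  exact (mn_ed13 hv _ k).square (hgt_nonneg κ K q u (sd13_nonneg K q u)) hΛ
    (dn_lvS_le (thC_nonneg hμ K q u) hk hj m) hG

theorem mn_square23 (hμ : 0 ≤ μ) (hv : VC κ K q u v E1 E2 E3) (hk : k ≤ j) (hj : j ≤ K)
    {Λ : ℝ} (hΛ : 0 ≤ Λ) {G : ℤ → ℤ → ℝ} {m m' : ℤ}
    (hG : ∀ x ∈ iv j m, avg (iv j m') (fun y => G x y ^ 2) ≤ Λ) :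
    avg (iv j m) (fun x => avg (iv j m') fun y =>
      ((mnA (thC μ K q u) E1 E2 E3 K k v).2.2 (x, y) * G x y) ^ 2) ≤
      μ * rC K q u ^ 2 * sd23 K q u ^ 2 / κ ^ 4 * Λ := by
  rw [← hgt_th]
  exact (mn_ed23 hv _ k).square (hgt_nonneg κ K q u (sd23_nonneg K q u)) hΛ
    (dn_lvS_le (thC_nonneg hμ K q u) hk hj m) hG

/-- the main atom is bounded by the product of the heights on the product of the carriers -/
theorem mn_atm_le (hv : VC κ K q u v E1 E2 E3) (θ : ℝ) (k : ℕ) (y : Pt) :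
    |atm (mnA θ E1 E2 E3 K k v) y| ≤
      (rC K q u ^ 2 * sd12 K q u / κ ^ 2) * (rC K q u ^ 2 * sd13 K q u / κ ^ 2) *
        (rC K q u ^ 2 * sd23 K q u / κ ^ 2) *
        (id1 (lvS θ E1 K k) y.1 * id1 (lvS θ E2 K k) y.2.1 * id1 (lvS θ E3 K k) y.2.2) := by
  have a12 := mn_ed12 hv θ k y.1 y.2.1
  have a13 := mn_ed13 hv θ k y.1 y.2.2
  have a23 := mn_ed23 hv θ k y.2.1 y.2.2
  have h12 := hgt_nonneg κ K q u (sd12_nonneg K q u)
  have h13 := hgt_nonneg κ K q u (sd13_nonneg K q u)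
  have h23 := hgt_nonneg κ K q u (sd23_nonneg K q u)
  set i1 := id1 (lvS θ E1 K k) y.1
  set i2 := id1 (lvS θ E2 K k) y.2.1
  set i3 := id1 (lvS θ E3 K k) y.2.2
  have n1 : 0 ≤ i1 := id1_nonneg _ _
  have n2' : 0 ≤ i2 := id1_nonneg _ _
  have n3 : 0 ≤ i3 := id1_nonneg _ _
  have q1 : i1 ^ 2 = i1 := id1_sq _ _
  have q2 : i2 ^ 2 = i2 := id1_sq _ _
  have q3 : i3 ^ 2 = i3 := id1_sq _ _
  unfold atm e12 e13 e23
  rw [abs_mul, abs_mul]
  refine (mul_le_mul (mul_le_mul a12 a13 (abs_nonneg _) (by positivity)) a23 (abs_nonneg _)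
    (by positivity)).trans (le_of_eq ?_)
  calc _ = (rC K q u ^ 2 * sd12 K q u / κ ^ 2) * (rC K q u ^ 2 * sd13 K q u / κ ^ 2) *
        (rC K q u ^ 2 * sd23 K q u / κ ^ 2) * (i1 ^ 2 * i2 ^ 2 * i3 ^ 2) := by ring
    _ = _ := by rw [q1, q2, q3]

/-- the cardinalities of the carriers -/
theorem mn_card1 (hv : VC κ K q u v E1 E2 E3) :
    κ ^ 2 * rC K q u ^ 2 * (E1.card : ℝ) ≤ 2 * 2 ^ K := by
  have := hv.crd1
  rw [PL.H315.card_iv] at this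
  push_cast at this
  exact this

theorem mn_card2 (hv : VC κ K q u v E1 E2 E3) :
    κ ^ 2 * rC K q u ^ 2 * (E2.card : ℝ) ≤ 2 * 2 ^ K := by
  have := hv.crd2
  rw [PL.H315.card_iv] at this
  push_cast at this
  exact this

theorem mn_card3 (hv : VC κ K q u v E1 E2 E3) :
    κ ^ 2 * rC K q u ^ 2 * (E3.card : ℝ) ≤ 2 * 2 ^ K := by
  have := hv.crd3
  rw [PL.H315.card_iv] at this
  push_cast at this
  exact this

end

end Vale.Agent.P141.H585
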