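import Vale.Agent.P141.H585.PairS

/-!
# The pair (B, C~), final numbers

`fin_raw`: raw partner; `fin_sat`: saturated partner. The numbers of the stack come from
`H336.Stk` (own energy `O = (J + 1) H + Qo + Qm`), those of the saturated partner from a second
`H336.Stk`.
-/

set_option linter.unusedSectionVars false

namespace Vale.Agent.P141.H585.PairF

open Finset Matrix Vale.Agent.P075 Vale.Agent.P141.PL Vale.Agent.P141.PL.H103 Vale.Agent.P141.H103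
open Vale.Agent.P141.H389 Vale.Agent.P141.H585.PairCh Vale.Agent.P141.H585.PairO
open Vale.Agent.P141.H585.PhiSat Vale.Agent.P141.H585.PairS Vale.Agent.P141.H505
open Vale.Agent.P141.H336 (Stk bsum bsum_mid bsum_mono bsum_smul)

noncomputable section

/-- a term which sees the first outer cell only -/
theorem GW_le_fst (N : ℕ) (R S T : ℤ) (k : ℕ) (c : ℤ) {f : ℤ → ℤ → ℝ}
    (hf : ∀ n m, 0 ≤ f n m) :
    GW N R S T k c (fun n _ m => f n m)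
      ≤ (4 : ℝ) ^ k * ∑ m ∈ iv (N - k) S, ∑ n ∈ iv (N - k) R, f n m := by
  unfold GW
  refine mul_le_mul_of_nonneg_left ?_ (by positivity)
  refine Finset.sum_le_sum fun m _ => Finset.sum_le_sum fun n _ => ?_
  split_ifs
  · exact le_rfl
  · exact hf n m

/-- the mean over the two halves of the middle cell is a box sum one scale lower -/
theorem mh_sum {N k : ℕ} (hk : k < N) (T S : ℤ) (f : ℤ → ℤ → ℝ) :
    (4 : ℝ) ^ (k + 1) * ∑ m ∈ iv (N - (k + 1)) S, ∑ n ∈ iv (N - (k + 1)) T, mh (f n) m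
      = (2 : ℝ) ^ (k + 1) * 2 ^ k * ∑ m ∈ iv (N - k) S, ∑ n ∈ iv (N - (k + 1)) T, f n m := by
  have h := bsum_mid hk T S (a := k + 1) f
  unfold bsum at h
  have e : (4 : ℝ) ^ (k + 1) = 2 ^ (k + 1) * 2 ^ (k + 1) := by
    rw [← mul_pow]
    norm_num
  rw [e]
  exact h

section plane

variable {ι : ℕ → Type*} [∀ k, Fintype (ι k)] [∀ k, DecidableEq (ι k)]
variable {N k₀ : ℕ} {s t2 : ℝ} {P W : ∀ k, ℕ → ℤ → ℤ → Matrix (ι k) (ι k) ℝ}
  {r : ∀ k, Matrix (ι (k + 1)) (ι (k + 1)) ℝ} {P' X₀ X₁ M : ∀ k, ℤ → ℤ → Matrix (ι k) (ι k) ℝ}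
  {g y x : ℕ → ℤ → ℤ → ℤ → ℝ}
  {R S T : ℤ} {μ : ℝ} {J j : ℕ} {Y₀ Y₁ M₀ M₁ : ∀ k, ℕ → ℤ → ℤ → Matrix (ι k) (ι k) ℝ}
  {q p γ : ℕ → ℕ → ℤ → ℤ → ℝ} {H Qo Qm : ℝ}

/-- own defects of the outer steps on the main diagonal -/
theorem stk_dls (h : Stk k₀ N T S μ J W Y₀ Y₁ M₀ M₁ q p γ H Qo Qm) (hj : j ≤ J)
    (hs : s = (μ / 4 ^ j)⁻¹) :
    ∑ k ∈ Ico k₀ N, (4 : ℝ) ^ (k + 1) * ∑ m ∈ iv (N - (k + 1)) S,
      ∑ n ∈ iv (N - (k + 1)) T, mh (fun h => dls s (Y₀ k k n h) (Y₁ k k n h)) m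
      ≤ 4 * s * (((J : ℝ) + 1) * H + Qo + Qm) := by
  have hμ := h.hμ
  have s0 : 0 < s := by rw [hs]; positivity
  have h1 := h.outer_diag 0
  rw [Nat.sub_zero] at h1
  have h2 : ∑ k ∈ Ico k₀ N, (4 : ℝ) ^ (k + 1) * ∑ m ∈ iv (N - (k + 1)) S,
      ∑ n ∈ iv (N - (k + 1)) T, mh (fun h => dls s (Y₀ k k n h) (Y₁ k k n h)) m
      ≤ ∑ k ∈ Ico k₀ N, s * ((2 : ℝ) ^ (k + 0 + 1) * 2 ^ k * ∑ m ∈ iv (N - k) S,
        ∑ n ∈ iv (N - (k + 0 + 1)) T, SD μ J (Y₀ k (k + 0) n m) (Y₁ k (k + 0) n m)) := by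
    refine Finset.sum_le_sum fun k hk => ?_
    rw [mh_sum (mem_Ico.1 hk).2 T S (fun n h => dls s (Y₀ k k n h) (Y₁ k k n h))]
    simp only [add_zero]
    rw [mul_left_comm s]
    refine mul_le_mul_of_nonneg_left ?_ (by positivity)
    rw [Finset.mul_sum]
    refine Finset.sum_le_sum fun m _ => ?_
    rw [Finset.mul_sum]
    refine Finset.sum_le_sum fun n _ => ?_
    have k1 := H336.le_SD (h.psd0 k k n m) (h.psd1 k k n m) hμ hj
    have hsi : μ / 4 ^ j = s⁻¹ := by rw [hs, inv_inv]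
    rw [hsi, inv_inv] at k1
    have k2 := mul_le_mul_of_nonneg_left k1 s0.le
    unfold dls
    linarith
  rw [← Finset.mul_sum] at h2
  have h3 := mul_le_mul_of_nonneg_left h1 s0.le
  linarith

/-- own gaps of the middle steps on the main diagonal -/
theorem stk_gp (h : Stk k₀ N T S μ J W Y₀ Y₁ M₀ M₁ q p γ H Qo Qm)
    (s0 : 0 < s)
    (hγ : ∀ k, k₀ ≤ k → k < N → ∀ n m,
      gp s (r k) (W (k + 1) (k + 1) n m) ≤ 2 * s * γ k (k + 1) n m) :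
    ∑ k ∈ Ico k₀ N, (4 : ℝ) ^ (k + 1) * ∑ m ∈ iv (N - (k + 1)) S,
      ∑ n ∈ iv (N - (k + 1)) T, gp s (r k) (W (k + 1) (k + 1) n m)
      ≤ 2 * s * (((J : ℝ) + 1) * H + Qo + Qm) := by
  have h1 := h.mid_diag 0
  rw [Nat.sub_zero] at h1
  have h2 : ∑ k ∈ Ico k₀ N, (4 : ℝ) ^ (k + 1) * ∑ m ∈ iv (N - (k + 1)) S,
      ∑ n ∈ iv (N - (k + 1)) T, gp s (r k) (W (k + 1) (k + 1) n m)
      ≤ ∑ k ∈ Ico k₀ N, 2 * s * ((2 : ℝ) ^ (k + 1 + 0) * 2 ^ (k + 1)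
        * ∑ m ∈ iv (N - (k + 1)) S, ∑ n ∈ iv (N - (k + 1 + 0)) T, γ k (k + 1 + 0) n m) := by
    refine Finset.sum_le_sum fun k hk => ?_
    have hk := mem_Ico.1 hk
    simp only [add_zero]
    have e : (4 : ℝ) ^ (k + 1) = 2 ^ (k + 1) * 2 ^ (k + 1) := by
      rw [← mul_pow]
      norm_num
    rw [e, mul_left_comm (2 * s)]
    refine mul_le_mul_of_nonneg_left ?_ (by positivity)
    rw [Finset.mul_sum]
    refine Finset.sum_le_sum fun m _ => ?_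
    rw [Finset.mul_sum]
    exact Finset.sum_le_sum fun n _ => hγ k hk.1 hk.2 n m
  rw [← Finset.mul_sum] at h2
  have h3 := mul_le_mul_of_nonneg_left h1 (show 0 ≤ 2 * s by positivity)
  linarith

/-- energy of the moves on the main diagonal -/
theorem stk_mv (h : Stk k₀ N T S μ J W Y₀ Y₁ M₀ M₁ q p γ H Qo Qm)
    (hmv : ∀ k, k₀ ≤ k → k < N → ∀ n m, mvE (M k n m) (X₀ k n m) (X₁ k n m) ≤ q k k n m) :
    ∑ k ∈ Ico k₀ N, (4 : ℝ) ^ (k + 1) * ∑ m ∈ iv (N - (k + 1)) S,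
      ∑ n ∈ iv (N - (k + 1)) T, mh (fun h => mvE (M k n h) (X₀ k n h) (X₁ k n h)) m
      ≤ ((J : ℝ) + 1) * H + Qo + Qm := by
  have h1 := h.hQo 0
  rw [Nat.sub_zero] at h1
  have h2 : ∑ k ∈ Ico k₀ N, (4 : ℝ) ^ (k + 1) * ∑ m ∈ iv (N - (k + 1)) S,
      ∑ n ∈ iv (N - (k + 1)) T, mh (fun h => mvE (M k n h) (X₀ k n h) (X₁ k n h)) m
      ≤ ∑ k ∈ Ico k₀ N, (2 : ℝ) ^ (k + 0 + 1) * 2 ^ k * ∑ m ∈ iv (N - k) S,
        ∑ n ∈ iv (N - (k + 0 + 1)) T, q k (k + 0) n m := by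
    refine Finset.sum_le_sum fun k hk => ?_
    have hk := mem_Ico.1 hk
    rw [mh_sum hk.2 T S (fun n h => mvE (M k n h) (X₀ k n h) (X₁ k n h))]
    simp only [add_zero]
    refine mul_le_mul_of_nonneg_left ?_ (by positivity)
    exact Finset.sum_le_sum fun m _ => Finset.sum_le_sum fun n _ => hmv k hk.1 hk.2 n m
  have hH := h.H_nonneg
  have hQm := h.Qm_nonneg
  have : 0 ≤ ((J : ℝ) + 1) * H := by positivity
  linarith

/-- numbers -/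
theorem num_sqrt {a b c O Z : ℝ} (ha : 0 ≤ a) (hO : 0 ≤ O) (hb : 0 ≤ b) (hZ : 0 ≤ Z) (hc : 0 < c) :
    2 * √(3 * (4 * c * O) * (a * Z + 2 * a ^ 2 * c⁻¹ * O)) ≤ 7 * √(a * c * O * Z) + 10 * (a * O) := by
  have e : 3 * (4 * c * O) * (a * Z + 2 * a ^ 2 * c⁻¹ * O)
      = 12 * (a * c * O * Z) + 24 * (a * O) ^ 2 := by
    field_simp
    ring
  rw [e]
  have h1 : √(12 * (a * c * O * Z) + 24 * (a * O) ^ 2)
      ≤ √(12 * (a * c * O * Z)) + √(24 * (a * O) ^ 2) := by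
    have p1 : 0 ≤ 12 * (a * c * O * Z) := by positivity
    have p2 : 0 ≤ 24 * (a * O) ^ 2 := by positivity
    rw [Real.sqrt_le_left (by positivity)]
    have q1 := Real.sq_sqrt p1
    have q2 := Real.sq_sqrt p2
    have q3 := mul_nonneg (Real.sqrt_nonneg (12 * (a * c * O * Z)))
      (Real.sqrt_nonneg (24 * (a * O) ^ 2))
    nlinarith
  have h2 : √(12 * (a * c * O * Z)) ≤ 3.5 * √(a * c * O * Z) := by
    rw [Real.sqrt_mul (by norm_num)]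
    refine mul_le_mul_of_nonneg_right ?_ (Real.sqrt_nonneg _)
    rw [Real.sqrt_le_left (by norm_num)]
    norm_num
  have h3 : √(24 * (a * O) ^ 2) ≤ 5 * (a * O) := by
    rw [Real.sqrt_le_left (by positivity)]
    nlinarith [sq_nonneg (a * O)]
  linarith

/-- **Final form, middle losses `Y` given.** -/
theorem fin (Hp : SPair N k₀ s t2 P W P' X₀ X₁ M g y x)
    (h : Stk k₀ N T S μ J W Y₀ Y₁ M₀ M₁ q p γ H Qo Qm) (hj : j ≤ J) (hs : s = (μ / 4 ^ j)⁻¹)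
    (e0 : ∀ k n m, X₀ k n m = Y₀ k k n m) (e1 : ∀ k n m, X₁ k n m = Y₁ k k n m)
    (hmv : ∀ k, k₀ ≤ k → k < N → ∀ n m, mvE (M k n m) (X₀ k n m) (X₁ k n m) ≤ q k k n m)
    (ht : 0 ≤ t2) {cc : ℕ → ℤ} (hcc : H588.Pl cc) {VB Y ZB X : ℝ} (nZB : 0 ≤ ZB)
    (hVB : TV k₀ N R S P ≤ VB)
    (hY : ∑ k ∈ Ico k₀ N, GW N R S T (k + 1) (cc (k + 1)) (y k) ≤ Y)
    (hZB : ∑ k ∈ Ico k₀ N, GW N R S T (k + 1) (cc (k + 1)) (fun n n' m =>
      mh (fun h => ((M k n' h)ᵀ * P' k n h * M k n' h).trace) m) ≤ ZB)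
    (hX : ∑ k ∈ Ico k₀ N, GW N R S T (k + 1) (cc (k + 1)) (fun n n' m =>
      mh (fun h => x k n n' h) m) ≤ X) :
    ∑ k ∈ Ico k₀ N, GW N R S T (k + 1) (cc (k + 1)) (g k)
      ≤ √(VB * (1300 * s * (((J : ℝ) + 1) * H + Qo + Qm)))
        + (Y + 15 * (t2 * (((J : ℝ) + 1) * H + Qo + Qm)) + X)
        + 7 * √(t2 * s * (((J : ℝ) + 1) * H + Qo + Qm) * ZB) := by
  have hμ := h.hμ
  have s0 : 0 < s := by rw [hs]; positivity
  have hH := h.H_nonneg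
  have hQo := h.Qo_nonneg
  have hQm := h.Qm_nonneg
  set O : ℝ := ((J : ℝ) + 1) * H + Qo + Qm with hO
  have nO : 0 ≤ O := by positivity
  have k1 := stk_dls h hj hs
  simp only [← e0, ← e1] at k1
  have k2 := stk_mv h hmv
  have k3 := h.TV_stack hj
  rw [← hs] at k3
  rw [← hO] at k1 k2 k3
  have key := Hp.total_opt s0 ht h.hkN hcc (by positivity : 0 ≤ 4 * s * O) nZB nO hY k1 k2 hZB hX
  have nV : 0 ≤ TV k₀ N T S (fun k a n m => phs s (W k a n m)) :=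
    TV_nonneg (fun k a n m => phs_symm s0 (h.psd k a n m))
  have nVB : 0 ≤ TV k₀ N R S P := TV_nonneg (fun k a n m => psd_isSymm (Hp.sP k a n m))
  have k4 : √(TV k₀ N R S P * TV k₀ N T S (fun k a n m => phs s (W k a n m)))
      ≤ √(VB * (1300 * s * O)) :=
    Real.sqrt_le_sqrt (mul_le_mul hVB k3 nV (nVB.trans hVB))
  have k5 := num_sqrt (b := 0) ht nO le_rfl nZB s0
  have e3 : t2 * s⁻¹ * (4 * s * O) = 4 * (t2 * O) := by
    field_simp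
  rw [e3] at key
  have n1 : 0 ≤ t2 * O := by positivity
  linarith

end plane

end

end Vale.Agent.P141.H585.PairF
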