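import Vale.Agent.P141.H585.PairF
import Vale.Agent.P141.H585.StkG

/-!
# The pair (B, C~), hub x1, real letters

`b k x y` : partner with labels, time `k`; stack `st r a (R a) (c k)`. `node_raw`, `node_sat`: the
middle step with arbitrary changes (`Chg`). `pair_raw`, `pair_sat`: the plane sums.
-/

set_option linter.unusedSectionVars false

namespace Vale.Agent.P141.H585.PairR

open Finset Matrix Vale.Agent.P075 Vale.Agent.P141.PL Vale.Agent.P141.PL.H103 Vale.Agent.P141.H103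
open Vale.Agent.P141.H389 Vale.Agent.P141.H585.PairCh Vale.Agent.P141.H585.PairO
open Vale.Agent.P141.H585.PhiSat Vale.Agent.P141.H585.PairS Vale.Agent.P141.H585.PairF
open Vale.Agent.P141.H505 Vale.Agent.P141.H297.Ch Vale.Agent.P141.H585.StkG
open Vale.Agent.P141.H336 (Stk)
open Vale.Agent.P141.H43 (av av_half av_mono av_nonneg av_add av_sub av_mul)

noncomputable section

/-! ### Saturation and change of the index type -/

section mat

variable {α β : Type*} [Fintype α] [DecidableEq α] [Fintype β] [DecidableEq β]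

theorem rx_phs (e : α ≃ β) (s : ℝ) (X : Matrix α α ℝ) : phs s (rx e X) = rx e (phs s X) := by
  unfold phs
  rw [← rx_smul, rx_phi, rx_smul]

theorem phs_bd {s : ℝ} (hs : 0 < s) {A D : Matrix α α ℝ} (hA : A.PosSemidef)
    (hD : D.PosSemidef) : phs s (bd A D) = bd (phs s A) (phs s D) := by
  have hi := (inv_pos.2 hs).le
  have e1 : s⁻¹ • bd A D = bd (s⁻¹ • A) (s⁻¹ • D) := by
    simp only [bd, fromBlocks_smul, smul_zero]
  unfold phs
  rw [e1, phi_bd (hA.smul hi) (hD.smul hi)]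
  simp only [bd, fromBlocks_smul, smul_zero]

theorem trace_mul_bd (X : Matrix (α ⊕ α) (α ⊕ α) ℝ) (A D : Matrix α α ℝ) :
    (X * bd A D).trace = (X.toBlocks₁₁ * A).trace + (X.toBlocks₂₂ * D).trace := by
  conv_lhs => rw [← fromBlocks_toBlocks X]
  unfold bd
  rw [fromBlocks_multiply]
  unfold Matrix.trace
  rw [Fintype.sum_sum_type]
  simp only [diag_apply, fromBlocks_apply₁₁, fromBlocks_apply₂₂, Matrix.mul_zero, add_zero,
    zero_add]

/-- adding a matrix inside the saturation -/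
theorem phs_add {s : ℝ} (hs : 0 < s) {X Y : Matrix α α ℝ} (hX : X.PosSemidef)
    (hY : Y.PosSemidef) :
    (phs s (X + Y) - phs s X).PosSemidef ∧ (phs s (X + Y) - phs s X).trace ≤ Y.trace := by
  have hi := (inv_pos.2 hs).le
  have pX := hX.smul (α := ℝ) hi
  have pY := hY.smul (α := ℝ) hi
  constructor
  · unfold phs
    rw [← smul_sub, smul_add]
    refine PosSemidef.smul ?_ hs.le
    have h := res_anti pX pY
    have e : phi (s⁻¹ • X + s⁻¹ • Y) - phi (s⁻¹ • X) = res (s⁻¹ • X) - res (s⁻¹ • X + s⁻¹ • Y) := by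
      rw [phi, phi]
      abel
    rw [e]
    exact h
  · have h1 := trace_phi_add pX pY
    have h2 := (sub_phi_psd pY).trace_nonneg
    rw [trace_sub, trace_smul, smul_eq_mul] at h2
    unfold phs
    rw [trace_sub, trace_smul, trace_smul, smul_eq_mul, smul_eq_mul, smul_add]
    have h3 : s * (phi (s⁻¹ • X + s⁻¹ • Y)).trace
        ≤ s * ((phi (s⁻¹ • X)).trace + s⁻¹ * Y.trace) :=
      mul_le_mul_of_nonneg_left (by linarith) hs.le
    have e : s * ((phi (s⁻¹ • X)).trace + s⁻¹ * Y.trace)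
        = s * (phi (s⁻¹ • X)).trace + Y.trace := by
      field_simp
    linarith

/-- saturation is monotone, with the trace of what is added -/
theorem phs_mono_add {s : ℝ} (hs : 0 < s) {X' X Y : Matrix α α ℝ} (hX' : X'.PosSemidef)
    (hX : X.PosSemidef) (hY : Y.PosSemidef) (h : (X + Y - X').PosSemidef)
    {Z : Matrix α α ℝ} {q : ℝ} (hZ : Z.PosSemidef)
    (hq : (q • (1 : Matrix α α ℝ) - Z).PosSemidef) (hq0 : 0 ≤ q) :
    (Z * phs s X').trace ≤ (Z * phs s X).trace + q * Y.trace := by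
  have a1 := (phs_add hs hX' h).1
  rw [add_sub_cancel] at a1
  obtain ⟨b1, b2⟩ := phs_add hs hX hY
  have c1 := trace_mul_le_right hZ a1
  have c2 := trace_mul_le_left b1 hq
  rw [smul_mul_assoc, Matrix.one_mul, trace_smul, smul_eq_mul, Matrix.mul_sub, trace_sub] at c2
  have c3 := mul_le_mul_of_nonneg_left b2 hq0
  linarith

end mat

/-! ### The node -/

section node

variable {ι : Type*} [Fintype ι] [DecidableEq ι]
variable {r : ℝ} {R D : ℕ → ℤ → ℤ → Matrix ι ι ℝ} {c dc : ℕ → ℤ → ℤ → ι → ℝ}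
  {b db : ℕ → ℤ → ℤ → ι ⊕ ι → ℝ}

/-- the raw partner family -/
def PB (b : ℕ → ℤ → ℤ → ι ⊕ ι → ℝ) (k a : ℕ) (n m : ℤ) :
    Matrix (Ix k × (ι ⊕ ι)) (Ix k × (ι ⊕ ι)) ℝ := Py (sl k m (b k)) a n

/-- affected rows of the partner against the saturated stack -/
def bB (s r : ℝ) (R : ℕ → ℤ → ℤ → Matrix ι ι ℝ) (c : ℕ → ℤ → ℤ → ι → ℝ)
    (db : ℕ → ℤ → ℤ → ι ⊕ ι → ℝ) (k : ℕ) (n n' h : ℤ) : ℝ :=
  (Py (sl k h (db k)) (k + 1) n * phs s (WO r R (c k) k (k + 1) n' h)).trace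

/-- affected rows of the stack -/
def bC (r : ℝ) (R : ℕ → ℤ → ℤ → Matrix ι ι ℝ) (dc : ℕ → ℤ → ℤ → ι → ℝ) (k : ℕ) (n' h : ℤ) : ℝ :=
  (Py (sl k h (st r (k + 1) (R (k + 1)) (dc k))) (k + 1) n').trace

theorem bC_eq (k : ℕ) (n' h : ℤ) : bC r R dc k n' h = av (k + 1) n' fun y => av k h fun x =>
    es r (R (k + 1)) (k + 1) (dc k) x y := tr_es _ _ _ _ _ _ _

theorem bC_nonneg (k : ℕ) (n' h : ℤ) : 0 ≤ bC r R dc k n' h := (Py_PSD _ _ _).trace_nonneg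

/-- cap of a half of the middle cell -/
theorem cap_half_mid {k : ℕ} {w : ℤ → ℤ → ι ⊕ ι → ℝ} {a : ℕ} {n m : ℤ} {q : ℝ}
    (h : (q • (1 : Matrix (Ix (k + 1) × (ι ⊕ ι)) (Ix (k + 1) × (ι ⊕ ι)) ℝ)
      - Py (sl (k + 1) m w) a n).PosSemidef) :
    ((2 * q) • (1 : Matrix (Ix k × (ι ⊕ ι)) (Ix k × (ι ⊕ ι)) ℝ)
        - Py (sl k (2 * m) w) a n).PosSemidef
      ∧ ((2 * q) • (1 : Matrix (Ix k × (ι ⊕ ι)) (Ix k × (ι ⊕ ι)) ℝ)
        - Py (sl k (2 * m + 1) w) a n).PosSemidef := by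
  have h1 := rx_psd (eI k (ι ⊕ ι)) h
  rw [rx_sub, rx_smul, rx_one] at h1
  have h2 := h1.submatrix (Sum.inl : (Ix k × (ι ⊕ ι)) → (Ix k × (ι ⊕ ι)) ⊕ (Ix k × (ι ⊕ ι)))
  have h3 := h1.submatrix (Sum.inr : (Ix k × (ι ⊕ ι)) → (Ix k × (ι ⊕ ι)) ⊕ (Ix k × (ι ⊕ ι)))
  have e1 : (q • (1 : Matrix ((Ix k × (ι ⊕ ι)) ⊕ (Ix k × (ι ⊕ ι))) ((Ix k × (ι ⊕ ι)) ⊕ (Ix k × (ι ⊕ ι))) ℝ)
      - rx (eI k (ι ⊕ ι)) (Py (sl (k + 1) m w) a n)).submatrix Sum.inl Sum.inl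
      = q • 1 - (rx (eI k (ι ⊕ ι)) (Py (sl (k + 1) m w) a n)).toBlocks₁₁ := by
    rw [← fromBlocks_one]
    rfl
  have e2 : (q • (1 : Matrix ((Ix k × (ι ⊕ ι)) ⊕ (Ix k × (ι ⊕ ι))) ((Ix k × (ι ⊕ ι)) ⊕ (Ix k × (ι ⊕ ι))) ℝ)
      - rx (eI k (ι ⊕ ι)) (Py (sl (k + 1) m w) a n)).submatrix Sum.inr Sum.inr
      = q • 1 - (rx (eI k (ι ⊕ ι)) (Py (sl (k + 1) m w) a n)).toBlocks₂₂ := by
    rw [← fromBlocks_one]
    rfl
  rw [e1, Py_ll] at h2
  rw [e2, Py_rr] at h3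
  have f : ∀ X : Matrix (Ix k × (ι ⊕ ι)) (Ix k × (ι ⊕ ι)) ℝ,
      (2 * q) • (1 : Matrix (Ix k × (ι ⊕ ι)) (Ix k × (ι ⊕ ι)) ℝ) - X
        = (2 : ℝ) • (q • 1 - (1 / 2 : ℝ) • X) := by
    intro X
    module
  rw [f, f]
  exact ⟨h2.smul (by norm_num), h3.smul (by norm_num)⟩

/-- the block diagonal part of a middle cell, raw partner -/
theorem blk_raw {s : ℝ} (hs : 0 < s) (k : ℕ) (w : ℤ → ℤ → ι ⊕ ι → ℝ) (w' : ℤ → ℤ → ι ⊕ ι → ℝ)
    (a a' : ℕ) (n n' m : ℤ) :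
    (Py (sl (k + 1) m w) a n * phs s (Py (sl (k + 1) m w') a' n'
        + rr k (ι ⊕ ι) * Py (sl (k + 1) m w') a' n' * rr k (ι ⊕ ι))).trace
      = (1 / 2) * ((Py (sl k (2 * m) w) a n * phs s (Py (sl k (2 * m) w') a' n')).trace
        + (Py (sl k (2 * m + 1) w) a n * phs s (Py (sl k (2 * m + 1) w') a' n')).trace) := by
  rw [← rx_trace (eI k (ι ⊕ ι)), rx_mul, ← rx_phs, rx_add, rx_mul, rx_mul, rx_rr, mid_bd,
    phs_bd hs (Py_PSD _ _ _) (Py_PSD _ _ _), trace_mul_bd, Py_ll, Py_rr, Matrix.smul_mul,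
    Matrix.smul_mul, trace_smul, trace_smul, smul_eq_mul, smul_eq_mul]
  ring

/-- the block diagonal part of a middle cell, both saturated -/
theorem blk_sat {h s : ℝ} (hh : 0 < h) (hs : 0 < s) (k : ℕ) (w : ℤ → ℤ → ι ⊕ ι → ℝ)
    (w' : ℤ → ℤ → ι ⊕ ι → ℝ) (a a' : ℕ) (n n' m : ℤ) :
    (phs h (Py (sl (k + 1) m w) a n
        + rr k (ι ⊕ ι) * Py (sl (k + 1) m w) a n * rr k (ι ⊕ ι))
      * phs s (Py (sl (k + 1) m w') a' n'
        + rr k (ι ⊕ ι) * Py (sl (k + 1) m w') a' n' * rr k (ι ⊕ ι))).trace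
      = (phs h (Py (sl k (2 * m) w) a n) * phs s (Py (sl k (2 * m) w') a' n')).trace
        + (phs h (Py (sl k (2 * m + 1) w) a n) * phs s (Py (sl k (2 * m + 1) w') a' n')).trace := by
  rw [← rx_trace (eI k (ι ⊕ ι)), rx_mul, ← rx_phs, ← rx_phs, rx_add, rx_mul, rx_mul, rx_add,
    rx_mul, rx_mul, rx_rr, mid_bd, mid_bd,
    phs_bd hs (Py_PSD _ _ _) (Py_PSD _ _ _), phs_bd hh (Py_PSD _ _ _) (Py_PSD _ _ _),
    trace_mul_bd]
  rfl

/-- change of the stack and of the raw partner at a half of the middle cell -/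
theorem chg_raw {s q : ℝ} (hs : 0 < s) (hq : 0 ≤ q) {k : ℕ} (hTc : Chg k (c k) (c (k + 1)) (dc k))
    (hTb : Chg k (b k) (b (k + 1)) (db k)) (n n' h : ℤ)
    (cap : (q • (1 : Matrix (Ix k × (ι ⊕ ι)) (Ix k × (ι ⊕ ι)) ℝ)
      - Py (sl k h (b (k + 1))) (k + 1) n).PosSemidef) :
    (Py (sl k h (b (k + 1))) (k + 1) n * phs s (WO r R (c (k + 1)) k (k + 1) n' h)).trace
      ≤ (PB b k (k + 1) n h * phs s (WO r R (c k) k (k + 1) n' h)).trace
        + q * bC r R dc k n' h + bB s r R c db k n n' h := by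
  have g1 := gram_chg hTc r (k + 1) (R (k + 1)) (k + 1) n' h
  have a1 := phs_mono_add (X' := WO r R (c (k + 1)) k (k + 1) n' h) hs (WO_psd _ _ _ _ _ _ _)
    (WO_psd r R (c k) k (k + 1) n' h) (Py_PSD _ _ _) g1 (Py_PSD (sl k h (b (k + 1))) (k + 1) n)
    cap hq
  have g2 := gram_chg0 hTb (k + 1) n h
  have a2 := trace_mul_le_left (phs_psd hs (WO_psd r R (c k) k (k + 1) n' h)) g2
  rw [Matrix.add_mul, trace_add] at a2
  unfold bC bB PB
  linarith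

/-- **The node, raw partner.** -/
theorem node_raw {s t2 : ℝ} (hs : 0 < s) (ht : 0 ≤ t2) {k : ℕ}
    (hTc : Chg k (c k) (c (k + 1)) (dc k)) (hTb : Chg k (b k) (b (k + 1)) (db k)) (n n' m : ℤ)
    (cap : (t2 • (1 : Matrix (Ix (k + 1) × (ι ⊕ ι)) (Ix (k + 1) × (ι ⊕ ι)) ℝ)
      - PB b (k + 1) (k + 1) n m).PosSemidef) :
    (PB b (k + 1) (k + 1) n m * phs s (WO r R (c (k + 1)) (k + 1) (k + 1) n' m)).trace
      + (1 / 2) * (PB b (k + 1) (k + 1) n m * (rr k (ι ⊕ ι)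
        * phs s (WO r R (c (k + 1)) (k + 1) (k + 1) n' m) * rr k (ι ⊕ ι))).trace
      ≤ (1 / 2) * ((PB b k (k + 1) n (2 * m) * phs s (WO r R (c k) k (k + 1) n' (2 * m))).trace
        + (PB b k (k + 1) n (2 * m + 1)
          * phs s (WO r R (c k) k (k + 1) n' (2 * m + 1))).trace)
        + (t2 * s⁻¹ * gp s (rr k (ι ⊕ ι)) (WO r R (c (k + 1)) (k + 1) (k + 1) n' m)
          + 2 * t2 * mh (fun h => bC r R dc k n' h) m
          + mh (fun h => bB s r R c db k n n' h) m) := by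
  have a1 := mid_lev hs (Py_PSD (sl (k + 1) m (b (k + 1))) (k + 1) n) cap ht
    (WO_psd r R (c (k + 1)) (k + 1) (k + 1) n' m) (rr_symm k) (rr_sq k)
  have a2 := blk_raw hs k (b (k + 1)) (st r (k + 1) (R (k + 1)) (c (k + 1))) (k + 1) (k + 1) n n' m
  obtain ⟨c0, c1⟩ := cap_half_mid cap
  have b0 := chg_raw (r := r) (R := R) hs (by positivity : 0 ≤ 2 * t2) hTc hTb n n' (2 * m) c0
  have b1 := chg_raw (r := r) (R := R) hs (by positivity : 0 ≤ 2 * t2) hTc hTb n n' (2 * m + 1) c1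
  unfold WO at a1 b0 b1 ⊢
  rw [a2] at a1
  unfold mh PB at *
  linarith

/-- change of the stack and of the saturated partner at a half of the middle cell -/
theorem chg_sat {h₀ s : ℝ} (hh : 0 < h₀) (hs : 0 < s) {k : ℕ} (hTc : Chg k (c k) (c (k + 1)) (dc k))
    (hTb : Chg k (b k) (b (k + 1)) (db k)) (n n' h : ℤ) :
    (phs h₀ (Py (sl k h (b (k + 1))) (k + 1) n)
        * phs s (WO r R (c (k + 1)) k (k + 1) n' h)).trace
      ≤ (phs h₀ (PB b k (k + 1) n h) * phs s (WO r R (c k) k (k + 1) n' h)).trace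
        + h₀ * bC r R dc k n' h
        + s * (Py (sl k h (db k)) (k + 1) n).trace := by
  have g1 := gram_chg hTc r (k + 1) (R (k + 1)) (k + 1) n' h
  have a1 := phs_mono_add (X' := WO r R (c (k + 1)) k (k + 1) n' h) hs (WO_psd _ _ _ _ _ _ _)
    (WO_psd r R (c k) k (k + 1) n' h) (Py_PSD _ _ _) g1
    (phs_psd hh (Py_PSD (sl k h (b (k + 1))) (k + 1) n))
    (phs_cap hh (Py_PSD (sl k h (b (k + 1))) (k + 1) n)) hh.le
  have g2 := gram_chg0 hTb (k + 1) n h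
  have a2 := phs_mono_add hh (Py_PSD (sl k h (b (k + 1))) (k + 1) n)
    (Py_PSD (sl k h (b k)) (k + 1) n) (Py_PSD _ _ _) g2
    (phs_psd hs (WO_psd r R (c k) k (k + 1) n' h))
    (phs_cap hs (WO_psd r R (c k) k (k + 1) n' h)) hs.le
  rw [trace_mul_comm, trace_mul_comm _ (phs h₀ (Py (sl k h (b k)) (k + 1) n))] at a2
  unfold bC PB
  linarith

/-- **The node, saturated partner.** -/
theorem node_sat {h₀ s : ℝ} (hh : 0 < h₀) (hs : 0 < s) {k : ℕ}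
    (hTc : Chg k (c k) (c (k + 1)) (dc k)) (hTb : Chg k (b k) (b (k + 1)) (db k)) (n n' m : ℤ) :
    (phs h₀ (PB b (k + 1) (k + 1) n m)
        * phs s (WO r R (c (k + 1)) (k + 1) (k + 1) n' m)).trace
      + (1 / 2) * (phs h₀ (PB b (k + 1) (k + 1) n m) * (rr k (ι ⊕ ι)
        * phs s (WO r R (c (k + 1)) (k + 1) (k + 1) n' m) * rr k (ι ⊕ ι))).trace
      ≤ (1 / 2) * ((phs h₀ (PB b k (k + 1) n (2 * m))
          * phs s (WO r R (c k) k (k + 1) n' (2 * m))).trace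
        + (phs h₀ (PB b k (k + 1) n (2 * m + 1))
          * phs s (WO r R (c k) k (k + 1) n' (2 * m + 1))).trace)
        + (8 * (s * h₀⁻¹) * gp h₀ (rr k (ι ⊕ ι)) (PB b (k + 1) (k + 1) n m)
          + 8 * (h₀ * s⁻¹) * gp s (rr k (ι ⊕ ι)) (WO r R (c (k + 1)) (k + 1) (k + 1) n' m)
          + h₀ * mh (fun h => bC r R dc k n' h) m
          + s * mh (fun h => (Py (sl k h (db k)) (k + 1) n).trace) m) := by
  have a1 := sat_lev hh hs (Py_PSD (sl (k + 1) m (b (k + 1))) (k + 1) n)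
    (WO_psd r R (c (k + 1)) (k + 1) (k + 1) n' m) (rr_symm k) (rr_sq k)
  have a2 := blk_sat hh hs k (b (k + 1)) (st r (k + 1) (R (k + 1)) (c (k + 1))) (k + 1) (k + 1)
    n n' m
  have b0 := chg_sat (r := r) (R := R) hh hs hTc hTb n n' (2 * m)
  have b1 := chg_sat (r := r) (R := R) hh hs hTc hTb n n' (2 * m + 1)
  unfold WO at a1 b0 b1 ⊢
  rw [a2] at a1
  unfold mh PB at *
  linarith

/-- the outer step of the raw partner is exact -/
theorem PB_par (k a : ℕ) (n h : ℤ) : PB b k (a + 1) n h = mn (fun n => PB b k a n h) n := by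
  unfold PB mn
  exact Py_out _ _ _

/-- energy of `Dᵀ` on the partner -/
theorem Nm_br (hb : ∀ k x y, b k x y = Sum.elim (0 : ι → ℝ) (fun i => b k x y (Sum.inr i)))
    (k a : ℕ) (n n' h : ℤ) :
    ((Nm r D k a n' h)ᵀ * PB b k (a + 1) n h * Nm r D k a n' h).trace
      = (r ^ 2)⁻¹ * av (a + 1) n fun y => av k h fun x =>
        ∑ i, ((D (a + 1) x n')ᵀ *ᵥ fun i => b k x y (Sum.inr i)) i ^ 2 := by
  unfold PB Nm
  have h0 : ∀ (X M : Matrix (Ix k × (ι ⊕ ι)) (Ix k × (ι ⊕ ι)) ℝ), Mᵀ * X * M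
      = Mᵀ * X * Mᵀᵀ := fun X M => by rw [transpose_transpose]
  rw [h0, ← Py_mulL, tr_Py_eq, ← av_mul]
  refine congrArg _ (funext fun y => ?_)
  rw [Bm_transpose, Bm_mulVec, sl_sq, ← av_mul]
  refine congrArg _ (funext fun x => ?_)
  rw [hb k x y, DnT_mulVec, Fintype.sum_sum_type]
  simp only [Sum.elim_inl, Sum.elim_inr, Pi.zero_apply, Pi.smul_apply, smul_eq_mul, mul_pow,
    inv_pow, mul_sum]
  simp

/-- mean of the saturated stack on the two outer children -/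
theorem mnW {s : ℝ} (hr : r ≠ 0) {k : ℕ} (hM : Mvo (R k) (R (k + 1)) (D (k + 1)))
    (X : Matrix (Ix k × (ι ⊕ ι)) (Ix k × (ι ⊕ ι)) ℝ) (n' h : ℤ) :
    (1 / 2) * ((X * phs s (mv (Nm r D k k n' h) (XH r R (c k) k k (2 * n') h))).trace
        + (X * phs s (mv (-Nm r D k k n' h) (XH r R (c k) k k (2 * n' + 1) h))).trace)
      = (X * mn (fun n => phs s (WO r R (c k) k k n h)) n').trace := by
  unfold mn
  rw [← WO_left hr hM, ← WO_right hr hM, Matrix.mul_smul, trace_smul, Matrix.mul_add, trace_add,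
    smul_eq_mul]

theorem mn_phs_cap {s : ℝ} (hs : 0 < s) (k : ℕ) (n' h : ℤ) :
    (s • (1 : Matrix (Ix k × (ι ⊕ ι)) (Ix k × (ι ⊕ ι)) ℝ)
      - mn (fun n => phs s (WO r R (c k) k k n h)) n').PosSemidef := by
  have e : s • (1 : Matrix (Ix k × (ι ⊕ ι)) (Ix k × (ι ⊕ ι)) ℝ)
      - mn (fun n => phs s (WO r R (c k) k k n h)) n'
      = (1 / 2 : ℝ) • ((s • 1 - phs s (WO r R (c k) k k (2 * n') h))
        + (s • 1 - phs s (WO r R (c k) k k (2 * n' + 1) h))) := by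
    unfold mn
    module
  rw [e]
  exact ((phs_cap hs (WO_psd _ _ _ _ _ _ _)).add (phs_cap hs (WO_psd _ _ _ _ _ _ _))).smul
    (by norm_num)

/-- **Instance, raw partner.** -/
theorem spair_raw {N k₀ : ℕ} {s t2 : ℝ} (hs : 0 < s) (ht : 0 ≤ t2) (hr : r ≠ 0)
    (hM : ∀ a, k₀ ≤ a → a < N → Mvo (R a) (R (a + 1)) (D (a + 1)))
    (hTc : ∀ k, k₀ ≤ k → k < N → Chg k (c k) (c (k + 1)) (dc k))
    (hTb : ∀ k, k₀ ≤ k → k < N → Chg k (b k) (b (k + 1)) (db k))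
    (cap : ∀ k, k₀ ≤ k → k ≤ N → ∀ n m,
      (t2 • (1 : Matrix (Ix k × (ι ⊕ ι)) (Ix k × (ι ⊕ ι)) ℝ) - PB b k k n m).PosSemidef) :
    SPair (ι := fun k => Ix k × (ι ⊕ ι)) N k₀ s t2 (PB b) (fun k => WO r R (c k) k)
      (fun k n m => PB b k (k + 1) n m)
      (fun k n m => XH r R (c k) k k (2 * n) m) (fun k n m => XH r R (c k) k k (2 * n + 1) m)
      (fun k n m => Nm r D k k n m)
      (fun k n n' m => (1 / 2) * (PB b (k + 1) (k + 1) n m * (rr k (ι ⊕ ι)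
        * phs s (WO r R (c (k + 1)) (k + 1) (k + 1) n' m) * rr k (ι ⊕ ι))).trace)
      (fun k n n' m => t2 * s⁻¹ * gp s (rr k (ι ⊕ ι)) (WO r R (c (k + 1)) (k + 1) (k + 1) n' m)
          + 2 * t2 * mh (fun h => bC r R dc k n' h) m
          + mh (fun h => bB s r R c db k n n' h) m) (fun _ _ _ _ => 0) where
  sP k a n m := Py_PSD _ _ _
  sW k a n m := WO_psd _ _ _ _ _ _ _
  sP' k n m := Py_PSD _ _ _
  capP' k h1 h2 n m := by
    rw [PB_par]
    have e : t2 • (1 : Matrix (Ix k × (ι ⊕ ι)) (Ix k × (ι ⊕ ι)) ℝ)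
        - mn (fun n => PB b k k n m) n
        = (1 / 2 : ℝ) • ((t2 • 1 - PB b k k (2 * n) m) + (t2 • 1 - PB b k k (2 * n + 1) m)) := by
      unfold mn
      module
    rw [e]
    exact ((cap k h1 h2.le _ _).add (cap k h1 h2.le _ _)).smul (by norm_num)
  s0 k n m := XO_psd _ _ _ _ _ _ _
  s1 k n m := XO_psd _ _ _ _ _ _ _
  midl k h1 h2 n n' m := by
    have h := node_raw (r := r) (R := R) hs ht (hTc k h1 h2) (hTb k h1 h2) n n' m
      (cap (k + 1) (by omega) h2 n m)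
    simp only [← WO_par]
    exact h
  kill k h1 h2 n n' h := by
    rw [mnW hr (hM k h1 h2), PB_par, add_zero]

/-- **Instance, saturated partner.** -/
theorem spair_sat {N k₀ : ℕ} {s h₀ : ℝ} (hs : 0 < s) (hh : 0 < h₀) (hr : r ≠ 0)
    (hM : ∀ a, k₀ ≤ a → a < N → Mvo (R a) (R (a + 1)) (D (a + 1)))
    (hTc : ∀ k, k₀ ≤ k → k < N → Chg k (c k) (c (k + 1)) (dc k))
    (hTb : ∀ k, k₀ ≤ k → k < N → Chg k (b k) (b (k + 1)) (db k)) :
    SPair (ι := fun k => Ix k × (ι ⊕ ι)) N k₀ s h₀ (fun k a n m => phs h₀ (PB b k a n m))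
      (fun k => WO r R (c k) k) (fun k n m => phs h₀ (PB b k (k + 1) n m))
      (fun k n m => XH r R (c k) k k (2 * n) m) (fun k n m => XH r R (c k) k k (2 * n + 1) m)
      (fun k n m => Nm r D k k n m)
      (fun k n n' m => (1 / 2) * (phs h₀ (PB b (k + 1) (k + 1) n m) * (rr k (ι ⊕ ι)
        * phs s (WO r R (c (k + 1)) (k + 1) (k + 1) n' m) * rr k (ι ⊕ ι))).trace)
      (fun k n n' m => 8 * (s * h₀⁻¹) * gp h₀ (rr k (ι ⊕ ι)) (PB b (k + 1) (k + 1) n m)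
          + 8 * (h₀ * s⁻¹) * gp s (rr k (ι ⊕ ι)) (WO r R (c (k + 1)) (k + 1) (k + 1) n' m)
          + h₀ * mh (fun h => bC r R dc k n' h) m
          + s * mh (fun h => (Py (sl k h (db k)) (k + 1) n).trace) m)
      (fun k n _ h => s * h₀⁻¹ * dls h₀ (PB b k k (2 * n) h) (PB b k k (2 * n + 1) h)) where
  sP k a n m := phs_psd hh (Py_PSD _ _ _)
  sW k a n m := WO_psd _ _ _ _ _ _ _
  sP' k n m := phs_psd hh (Py_PSD _ _ _)
  capP' k h1 h2 n m := phs_cap hh (Py_PSD _ _ _)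
  s0 k n m := XO_psd _ _ _ _ _ _ _
  s1 k n m := XO_psd _ _ _ _ _ _ _
  midl k h1 h2 n n' m := by
    have h := node_sat (r := r) (R := R) hh hs (hTc k h1 h2) (hTb k h1 h2) n n' m
    simp only [← WO_par]
    exact h
  kill k h1 h2 n n' h := by
    rw [mnW hr (hM k h1 h2), PB_par]
    exact sat_kill hh (Py_PSD _ _ _) (Py_PSD _ _ _) (mn_phs_cap hs k n' h)

/-! ### Numbers -/

theorem gp_SCr {μ : ℝ} (hμ : 0 < μ) {J j : ℕ} (hj : j ≤ J) {s : ℝ} (hs : s = (μ / 4 ^ j)⁻¹)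
    (k : ℕ) {X : Matrix (Ix (k + 1) × (ι ⊕ ι)) (Ix (k + 1) × (ι ⊕ ι)) ℝ} (hX : X.PosSemidef) :
    gp s (rr k (ι ⊕ ι)) X ≤ 2 * s * ((1 / 2) * SCr k μ J X) := by
  have s0 : 0 < s := by rw [hs]; positivity
  have hsi : μ / 4 ^ j = s⁻¹ := by rw [hs, inv_inv]
  have h1 : (μ / 4 ^ j)⁻¹ * (phi ((μ / 4 ^ j) • X)
      * (rr k (ι ⊕ ι) * phi ((μ / 4 ^ j) • X) * rr k (ι ⊕ ι))).trace ≤ SCr k μ J X := by
    unfold SCr
    refine single_le_sum (f := fun j => (μ / 4 ^ j)⁻¹ * (phi ((μ / 4 ^ j) • X)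
      * (rr k (ι ⊕ ι) * phi ((μ / 4 ^ j) • X) * rr k (ι ⊕ ι))).trace) (s := range (J + 1))
      (a := j) (fun i _ => ?_) (Finset.mem_range.2 (Nat.lt_succ_of_le hj))
    have p := phi_psd (hX.smul (α := ℝ) (show (0 : ℝ) ≤ μ / 4 ^ i by positivity))
    exact mul_nonneg (by positivity) (trace_mul_nonneg p (psd_conj_symm p (rr_symm k)))
  rw [hsi, inv_inv] at h1
  have h2 := mul_le_mul_of_nonneg_left h1 s0.le
  unfold PairO.gp
  nlinarith

theorem mv_q {J : ℕ} (hr : r ≠ 0) (k : ℕ) (n m : ℤ) :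
    mvE (Nm r D k k n m) (XH r R (c k) k k (2 * n) m) (XH r R (c k) k k (2 * n + 1) m)
      ≤ qO J r R D c k k n m := by
  have h := Nm_pair hr R D (c k) k k n m
  have p5 : 0 ≤ av (k + 1) n fun y => av k m fun x =>
      em r (R (k + 1)) (D (k + 1)) (k + 1) (c k) x y :=
    av_nonneg fun y _ => av_nonneg fun x _ => em_nonneg _ _ _ _ _ _ _
  have hJ : (1 : ℝ) ≤ ((J : ℝ) + 1) ^ 3 := one_le_pow₀ (by linarith [Nat.cast_nonneg (α := ℝ) J])
  unfold mvE qO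
  simp only [Matrix.mul_smul, Matrix.smul_mul, Matrix.mul_add, Matrix.add_mul, trace_smul,
    trace_add, smul_eq_mul]
  nlinarith

theorem bC_sum {N k₀ : ℕ} {S T : ℤ} :
    ∑ k ∈ Ico k₀ N, (4 : ℝ) ^ (k + 1) * ∑ m ∈ iv (N - (k + 1)) S,
      ∑ n ∈ iv (N - (k + 1)) T, mh (fun h => bC r R dc k n h) m
      = ∑ k ∈ Ico k₀ N, ∑ x ∈ iv N S, ∑ y ∈ iv N T,
        es r (R (k + 1)) (k + 1) (dc k) x y := by
  refine Finset.sum_congr rfl fun k hk => ?_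
  have hk := mem_Ico.1 hk
  rw [mh_sum hk.2 T S (fun n h => bC r R dc k n h)]
  simp only [bC_eq]
  exact bs_av hk.2.le (show k + 1 ≤ N by omega) T S _

/-- **The pair (B, C~), hub x1, raw partner, final form.** -/
theorem pair_raw {k₀ N : ℕ} (hkN : k₀ ≤ N) {Y S T : ℤ} {cc : ℕ → ℤ} (hcc : H588.Pl cc)
    {μ : ℝ} (hμ : 0 < μ) {J j : ℕ} (hj : j ≤ J) {s : ℝ} (hs : s = (μ / 4 ^ j)⁻¹)
    {t2 : ℝ} (ht : 0 ≤ t2) (hr : r ≠ 0)
    (hM : ∀ a, k₀ ≤ a → a < N → Mvo (R a) (R (a + 1)) (D (a + 1)))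
    (hTc : ∀ k, k₀ ≤ k → k < N → Chg k (c k) (c (k + 1)) (dc k))
    (hTb : ∀ k, k₀ ≤ k → k < N → Chg k (b k) (b (k + 1)) (db k))
    (hb : ∀ k x y, b k x y = Sum.elim (0 : ι → ℝ) (fun i => b k x y (Sum.inr i)))
    (cap : ∀ k, k₀ ≤ k → k ≤ N → ∀ n m,
      (t2 • (1 : Matrix (Ix k × (ι ⊕ ι)) (Ix k × (ι ⊕ ι)) ℝ) - PB b k k n m).PosSemidef)
    {κ : ℝ} (hκ : ∀ k a x y, k₀ ≤ k → k ≤ a → a < N →
      es r (R (a + 1)) (a + 1) (c k) x y ≤ κ) (hκμ : μ / 4 ^ J * κ ≤ 1)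
    {H Qo Qm : ℝ}
    (hH : ∀ k a, k₀ ≤ k → k ≤ a → a ≤ N →
      ∑ x ∈ iv N S, ∑ y ∈ iv N T, es r (R a) a (c k) x y ≤ H)
    (hQo : ∀ l, ∑ k ∈ Ico k₀ (N - l), ∑ x ∈ iv N S, ∑ y ∈ iv N T,
      em r (R (k + l + 1)) (D (k + l + 1)) (k + l + 1) (c k) x y ≤ Qo)
    (hQm : ∀ l, ∑ k ∈ Ico k₀ (N - l), ∑ x ∈ iv N S, ∑ y ∈ iv N T,
      es r (R (k + 1 + l)) (k + 1 + l) (dc k) x y ≤ Qm)
    {VB ZB XB : ℝ} (hVB : TV k₀ N Y S (PB b) ≤ VB)
    (hZB : ∑ k ∈ Ico k₀ N, GW N Y S T (k + 1) (cc (k + 1)) (fun n n' m =>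
      av (k + 1) n fun y => av (k + 1) m fun x =>
        ∑ i, ((D (k + 1) x n')ᵀ *ᵥ fun i => b k x y (Sum.inr i)) i ^ 2) ≤ ZB) (nZB : 0 ≤ ZB)
    (hXB : ∑ k ∈ Ico k₀ N, GW N Y S T (k + 1) (cc (k + 1)) (fun n n' m =>
      mh (fun h => bB s r R c db k n n' h) m) ≤ XB) :
    ∑ k ∈ Ico k₀ N, GW N Y S T (k + 1) (cc (k + 1)) (fun n n' m =>
      (PB b (k + 1) (k + 1) n m * (rr k (ι ⊕ ι)
        * phs s (WO r R (c (k + 1)) (k + 1) (k + 1) n' m) * rr k (ι ⊕ ι))).trace)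
      ≤ 2 * (√(VB * (1300 * s * (((J : ℝ) + 1) * H + 258 * ((J : ℝ) + 1) ^ 3 * Qo
            + ((J : ℝ) + 1) * Qm)))
        + (19 * (t2 * (((J : ℝ) + 1) * H + 258 * ((J : ℝ) + 1) ^ 3 * Qo
            + ((J : ℝ) + 1) * Qm)) + XB)
        + 7 * √(t2 * s * (((J : ℝ) + 1) * H + 258 * ((J : ℝ) + 1) ^ 3 * Qo
            + ((J : ℝ) + 1) * Qm) * ((r ^ 2)⁻¹ * ZB))) := by
  have s0 : 0 < s := by rw [hs]; positivity
  have st := stk_G hkN hμ J hr hM hTc hκ hκμ hH hQo hQm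
  have sp := spair_raw (t2 := t2) s0 ht hr hM hTc hTb cap
  have hQo0 : 0 ≤ Qo := by
    have := hQo N
    rwa [Nat.sub_self, Ico_eq_empty (by omega), sum_empty] at this
  have hQm0 : 0 ≤ Qm := by
    have := hQm N
    rwa [Nat.sub_self, Ico_eq_empty (by omega), sum_empty] at this
  have hH0 := st.H_nonneg
  have hJ : (0 : ℝ) ≤ J := Nat.cast_nonneg J
  have gg := stk_gp (r := fun k => rr k (ι ⊕ ι)) st s0 (by
    intro k _ _ n m
    exact gp_SCr hμ hj hs k (WO_psd r R (c (k + 1)) (k + 1) (k + 1) n m))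
  set O : ℝ := ((J : ℝ) + 1) * H + 258 * ((J : ℝ) + 1) ^ 3 * Qo + ((J : ℝ) + 1) * Qm with hO
  have n1 : 0 ≤ ((J : ℝ) + 1) * H := by positivity
  have n2 : 0 ≤ 258 * ((J : ℝ) + 1) ^ 3 * Qo := by positivity
  have n3 : Qm ≤ ((J : ℝ) + 1) * Qm := by nlinarith
  have nO : 0 ≤ O := by linarith
  -- middle losses
  have hY : ∑ k ∈ Ico k₀ N, GW N Y S T (k + 1) (cc (k + 1)) (fun n n' m =>
      t2 * s⁻¹ * gp s (rr k (ι ⊕ ι)) (WO r R (c (k + 1)) (k + 1) (k + 1) n' m)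
          + 2 * t2 * mh (fun h => bC r R dc k n' h) m
          + mh (fun h => bB s r R c db k n n' h) m) ≤ 4 * (t2 * O) + XB := by
    have e : ∀ k, GW N Y S T (k + 1) (cc (k + 1)) (fun n n' m =>
        t2 * s⁻¹ * gp s (rr k (ι ⊕ ι)) (WO r R (c (k + 1)) (k + 1) (k + 1) n' m)
          + 2 * t2 * mh (fun h => bC r R dc k n' h) m
          + mh (fun h => bB s r R c db k n n' h) m)
        = t2 * s⁻¹ * GW N Y S T (k + 1) (cc (k + 1)) (fun _ n' m =>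
            gp s (rr k (ι ⊕ ι)) (WO r R (c (k + 1)) (k + 1) (k + 1) n' m))
          + 2 * t2 * GW N Y S T (k + 1) (cc (k + 1)) (fun _ n' m =>
            mh (fun h => bC r R dc k n' h) m)
          + GW N Y S T (k + 1) (cc (k + 1)) (fun n n' m =>
            mh (fun h => bB s r R c db k n n' h) m) := by
      intro k
      rw [← GW_mul, ← GW_mul, ← GW_add, ← GW_add]
    simp only [e, Finset.sum_add_distrib, ← Finset.mul_sum]
    have g1 : ∑ k ∈ Ico k₀ N, GW N Y S T (k + 1) (cc (k + 1)) (fun _ n' m =>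
        gp s (rr k (ι ⊕ ι)) (WO r R (c (k + 1)) (k + 1) (k + 1) n' m)) ≤ 2 * s * O :=
      (Finset.sum_le_sum fun k _ => GW_le_one N Y S T (k + 1) (cc (k + 1))
        (f := fun n' m => gp s (rr k (ι ⊕ ι)) (WO r R (c (k + 1)) (k + 1) (k + 1) n' m))
        (fun n m => gp_nonneg s0 (WO_psd _ _ _ _ _ _ _) (rr_symm k))).trans
        gg
    have g2 : ∑ k ∈ Ico k₀ N, GW N Y S T (k + 1) (cc (k + 1)) (fun _ n' m =>
        mh (fun h => bC r R dc k n' h) m) ≤ Qm := by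
      refine (Finset.sum_le_sum fun k _ => GW_le_one N Y S T (k + 1) (cc (k + 1))
        (f := fun n' m => mh (fun h => bC r R dc k n' h) m)
        (fun n m => mh_nonneg (fun h => bC_nonneg k n h) m)).trans ?_
      rw [bC_sum]
      have h0 := hQm 0
      simpa only [Nat.sub_zero, add_zero] using h0
    have hs' : 0 < s⁻¹ := inv_pos.2 s0
    have f1 := mul_le_mul_of_nonneg_left g1 (show 0 ≤ t2 * s⁻¹ by positivity)
    have f2 := mul_le_mul_of_nonneg_left g2 (show 0 ≤ 2 * t2 by positivity)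
    have e3 : t2 * s⁻¹ * (2 * s * O) = 2 * (t2 * O) := by field_simp
    have f4 : t2 * Qm ≤ t2 * O := mul_le_mul_of_nonneg_left (by linarith) ht
    linarith
  have hZ : ∑ k ∈ Ico k₀ N, GW N Y S T (k + 1) (cc (k + 1)) (fun n n' m =>
      mh (fun h => ((Nm r D k k n' h)ᵀ * PB b k (k + 1) n h * Nm r D k k n' h).trace) m)
      ≤ (r ^ 2)⁻¹ * ZB := by
    have e : ∀ k, GW N Y S T (k + 1) (cc (k + 1)) (fun n n' m =>
        mh (fun h => ((Nm r D k k n' h)ᵀ * PB b k (k + 1) n h * Nm r D k k n' h).trace) m)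
        = (r ^ 2)⁻¹ * GW N Y S T (k + 1) (cc (k + 1)) (fun n n' m =>
          av (k + 1) n fun y => av (k + 1) m fun x =>
            ∑ i, ((D (k + 1) x n')ᵀ *ᵥ fun i => b k x y (Sum.inr i)) i ^ 2) := by
      intro k
      rw [← GW_mul]
      refine congrArg _ (funext fun n => funext fun n' => funext fun m => ?_)
      unfold mh
      beta_reduce
      rw [Nm_br hb, Nm_br hb]
      have e4 : (av (k + 1) n fun y => av (k + 1) m fun x =>
          ∑ i, ((D (k + 1) x n')ᵀ *ᵥ fun i => b k x y (Sum.inr i)) i ^ 2)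
          = (1 / 2) * ((av (k + 1) n fun y => av k (2 * m) fun x =>
              ∑ i, ((D (k + 1) x n')ᵀ *ᵥ fun i => b k x y (Sum.inr i)) i ^ 2)
            + av (k + 1) n fun y => av k (2 * m + 1) fun x =>
              ∑ i, ((D (k + 1) x n')ᵀ *ᵥ fun i => b k x y (Sum.inr i)) i ^ 2) := by
        rw [← av_add, ← av_mul]
        exact congrArg _ (funext fun y => av_half _ _ _)
      rw [e4]
      ring
    simp only [e, ← Finset.mul_sum]
    exact mul_le_mul_of_nonneg_left hZB (by positivity)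
  have hX : ∑ k ∈ Ico k₀ N, GW N Y S T (k + 1) (cc (k + 1)) (fun n n' m =>
      mh (fun h => (fun _ _ _ _ => (0 : ℝ)) k n n' h) m) ≤ 0 := by
    refine Finset.sum_nonpos fun k _ => le_of_eq ?_
    unfold GW mh
    simp
  have key := fin sp st hj hs (fun _ _ _ => rfl) (fun _ _ _ => rfl)
    (fun k _ _ n m => mv_q hr k n m) ht hcc (by positivity : 0 ≤ (r ^ 2)⁻¹ * ZB) hVB hY hZ hX
  simp only [GW_mul, ← Finset.mul_sum] at key
  rw [← hO] at key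
  linarith

end node

end

end Vale.Agent.P141.H585.PairR
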