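import Vale.Agent.P141.H585.PairFR
import Vale.Agent.P141.H377.CapQ
import Vale.Agent.P141.H297.BirthC
import Vale.Agent.P141.H43.SeamPM

/-!
# The pair (B, C~), hub x1: the sum over `x0` in the letters of the stage

`pair_x0`: the raw pair at one `x0` in plain point sums, operator caps.
`RX_BC`: the pair sum `RX` of `MB` and `MC` of `H747.StageM`.
-/

set_option linter.unusedSectionVars false

namespace Vale.Agent.P141.H585.PairRX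

open Finset Matrix Vale.Agent.P075 Vale.Agent.P141.PL Vale.Agent.P141.PL.H103 Vale.Agent.P141.H103
open Vale.Agent.P141.H389 Vale.Agent.P141.H585.PairCh Vale.Agent.P141.H585.PairO
open Vale.Agent.P141.H585.PairS Vale.Agent.P141.H585.PairF
open Vale.Agent.P141.H505 Vale.Agent.P141.H297.Ch Vale.Agent.P141.H585.StkG
open Vale.Agent.P141.H585.PairR Vale.Agent.P141.H585.PairFR
open Vale.Agent.P141.H336 (StkR EstR)
open Vale.Agent.P141.H43 (av av_half av_mono av_nonneg av_add av_sub av_mul)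
open Vale.Agent.P141.H38.Q (bP AfC)
open Vale.Agent.P141.H377.Q (enO enO_nonneg)

noncomputable section

open scoped Classical

section node

variable {ι : Type*} [Fintype ι] [DecidableEq ι]
variable {r : ℝ} {R D : ℕ → ℤ → ℤ → Matrix ι ι ℝ} {c : ℕ → ℤ → ℤ → ι → ℝ}
  {b : ℕ → ℤ → ℤ → ι ⊕ ι → ℝ}

theorem chg_bP {κ : Type*} [Fintype κ] [DecidableEq κ] (k : ℕ) (c c' : ℤ → ℤ → κ → ℝ) :
    Chg k c c' (bP k c c') := by
  intro m y
  by_cases h : AfC k c c' m y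
  · right
    intro x hx
    unfold H38.Q.bP
    rw [mem_iv] at hx
    rw [hx, if_pos h]
  · left
    unfold H38.Q.AfC at h
    push Not at h
    exact h

/-- the plane sum of a function of the two free points is a point sum -/
theorem GW_pts {N k : ℕ} (hk : k ≤ N) (Y S T c : ℤ) {f : ℤ → ℤ → ℤ → ℝ}
    (hf : ∀ x y n, 0 ≤ f x y n) :
    GW N Y S T k c (fun n n' m => av k n fun y => av k m fun x => f x y n')
      ≤ ∑ x ∈ iv N S, ∑ y ∈ iv N Y, f x y (c - ix k x - ix k y) := by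
  rw [← bs_av hk hk Y S fun x y => f x y (c - ix k x - ix k y)]
  unfold GW
  have e : (4 : ℝ) ^ k = 2 ^ k * 2 ^ k := by
    rw [← mul_pow]
    norm_num
  rw [e]
  refine mul_le_mul_of_nonneg_left ?_ (by positivity)
  refine Finset.sum_le_sum fun m _ => Finset.sum_le_sum fun n _ => ?_
  have e1 : (av k n fun y => av k m fun x => f x y (c - ix k x - ix k y))
      = av k n fun y => av k m fun x => f x y (c - m - n) := by
    refine H297.Ch.av_congr fun y hy => H297.Ch.av_congr fun x hx => ?_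
    rw [mem_iv] at hx hy
    rw [hx, hy]
  rw [e1]
  split_ifs
  · exact le_rfl
  · exact av_nonneg fun y _ => av_nonneg fun x _ => hf _ _ _

/-- energy at the first scale, diagonal `l` -/
def H0 (k₀ N : ℕ) (S T : ℤ) (r : ℝ) (R : ℕ → ℤ → ℤ → Matrix ι ι ℝ)
    (c : ℕ → ℤ → ℤ → ι → ℝ) (l : ℕ) : ℝ := enO N S T r R (k₀ + l) (c k₀)

/-- energy of the moves, diagonal `l` -/
def Q0 (k₀ N : ℕ) (S T : ℤ) (r : ℝ) (R D : ℕ → ℤ → ℤ → Matrix ι ι ℝ)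
    (c : ℕ → ℤ → ℤ → ι → ℝ) (l : ℕ) : ℝ :=
  ∑ k ∈ Ico k₀ (N - l), ∑ x ∈ iv N S, ∑ z ∈ iv N T,
    em r (R (k + l + 1)) (D (k + l + 1)) (k + l + 1) (c k) x z

/-- energy on the changed rows, diagonal `l` -/
def M0 (k₀ N : ℕ) (S T : ℤ) (r : ℝ) (R : ℕ → ℤ → ℤ → Matrix ι ι ℝ)
    (c : ℕ → ℤ → ℤ → ι → ℝ) (l : ℕ) : ℝ :=
  ∑ k ∈ Ico k₀ (N - l), ∑ x ∈ iv N S, ∑ z ∈ iv N T,
    es r (R (k + 1 + l)) (k + 1 + l) (bP k (c k) (c (k + 1))) x z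

theorem H0_nonneg (k₀ N : ℕ) (S T : ℤ) (r : ℝ) (R : ℕ → ℤ → ℤ → Matrix ι ι ℝ)
    (c : ℕ → ℤ → ℤ → ι → ℝ) (l : ℕ) : 0 ≤ H0 k₀ N S T r R c l := enO_nonneg _ _ _ _ _ _ _

theorem Q0_nonneg (k₀ N : ℕ) (S T : ℤ) (r : ℝ) (R D : ℕ → ℤ → ℤ → Matrix ι ι ℝ)
    (c : ℕ → ℤ → ℤ → ι → ℝ) (l : ℕ) : 0 ≤ Q0 k₀ N S T r R D c l :=
  Finset.sum_nonneg fun _ _ => Finset.sum_nonneg fun _ _ =>
      Finset.sum_nonneg fun _ _ => em_nonneg _ _ _ _ _ _ _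

theorem M0_nonneg (k₀ N : ℕ) (S T : ℤ) (r : ℝ) (R : ℕ → ℤ → ℤ → Matrix ι ι ℝ)
    (c : ℕ → ℤ → ℤ → ι → ℝ) (l : ℕ) : 0 ≤ M0 k₀ N S T r R c l :=
  Finset.sum_nonneg fun _ _ => Finset.sum_nonneg fun _ _ =>
      Finset.sum_nonneg fun _ _ => es_nonneg _ _ _ _ _ _

/-- total energy of the stack at one `x0` with the factors of `H377.Q.stkR_QO` -/
def EQ (J k₀ N : ℕ) (S T : ℤ) (r : ℝ) (R D : ℕ → ℤ → ℤ → Matrix ι ι ℝ)
    (c : ℕ → ℤ → ℤ → ι → ℝ) : ℝ :=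
  EstR N J (H0 k₀ N S T r R c) (fun l => 258 * ((J : ℝ) + 1) ^ 3 * Q0 k₀ N S T r R D c l)
    (fun l => ((J : ℝ) + 1) * M0 k₀ N S T r R c l)

/-- energy of the stack on the points which see a change of the partner -/
def EX (k₀ N : ℕ) (S T : ℤ) (cc : ℕ → ℤ) (Bo : ℕ → ℤ → ℤ → Prop) (r : ℝ)
    (R : ℕ → ℤ → ℤ → Matrix ι ι ℝ) (c : ℕ → ℤ → ℤ → ι → ℝ) : ℝ :=
  ∑ k ∈ Ico k₀ N, ∑ x ∈ iv N S, ∑ z ∈ iv N T,
    if Bo k (cc (k + 1) - ix (k + 1) x - ix (k + 1) z) (ix k x)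
      then es r (R (k + 1)) (k + 1) (c k) x z else 0

/-- masses of the partner: first time and changes -/
def MV (k₀ N : ℕ) (Y S : ℤ) (b : ℕ → ℤ → ℤ → ι ⊕ ι → ℝ) : ℝ :=
  ∑ x ∈ iv N S, ∑ y ∈ iv N Y, ∑ i, b k₀ x y i ^ 2
    + 3 * ∑ k ∈ Ico k₀ N, ∑ x ∈ iv N S, ∑ y ∈ iv N Y, ∑ i, bP k (b k) (b (k + 1)) x y i ^ 2

/-- energy of the drifts on the partner, points -/
def ZV (k₀ N : ℕ) (Y S : ℤ) (cc : ℕ → ℤ) (D : ℕ → ℤ → ℤ → Matrix ι ι ℝ)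
    (b : ℕ → ℤ → ℤ → ι ⊕ ι → ℝ) : ℝ :=
  ∑ k ∈ Ico k₀ N, ∑ x ∈ iv N S, ∑ y ∈ iv N Y,
    ∑ i, ((D (k + 1) x (cc (k + 1) - ix (k + 1) x - ix (k + 1) y))ᵀ *ᵥ
      fun i => b k x y (Sum.inr i)) i ^ 2

theorem EX_nonneg (k₀ N : ℕ) (S T : ℤ) (cc : ℕ → ℤ) (Bo : ℕ → ℤ → ℤ → Prop) (r : ℝ)
    (R : ℕ → ℤ → ℤ → Matrix ι ι ℝ) (c : ℕ → ℤ → ℤ → ι → ℝ) :
    0 ≤ EX k₀ N S T cc Bo r R c := by
  unfold EX
  refine Finset.sum_nonneg fun k _ => Finset.sum_nonneg fun x _ => Finset.sum_nonneg fun z _ => ?_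
  split_ifs
  · exact es_nonneg _ _ _ _ _ _
  · exact le_rfl

theorem MV_nonneg (k₀ N : ℕ) (Y S : ℤ) (b : ℕ → ℤ → ℤ → ι ⊕ ι → ℝ) : 0 ≤ MV k₀ N Y S b := by
  unfold MV
  exact add_nonneg (Finset.sum_nonneg fun x _ => Finset.sum_nonneg fun y _ =>
      Finset.sum_nonneg fun i _ => sq_nonneg _) (mul_nonneg (by norm_num)
      (Finset.sum_nonneg fun k _ => Finset.sum_nonneg fun x _ => Finset.sum_nonneg fun y _ =>
      Finset.sum_nonneg fun i _ => sq_nonneg _))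

theorem ZV_nonneg (k₀ N : ℕ) (Y S : ℤ) (cc : ℕ → ℤ) (D : ℕ → ℤ → ℤ → Matrix ι ι ℝ)
    (b : ℕ → ℤ → ℤ → ι ⊕ ι → ℝ) : 0 ≤ ZV k₀ N Y S cc D b := by
  unfold ZV
  exact Finset.sum_nonneg fun k _ => Finset.sum_nonneg fun x _ => Finset.sum_nonneg fun y _ =>
      Finset.sum_nonneg fun i _ => sq_nonneg _

/-- final arithmetic at one `x0` -/
theorem num_x0 {t2 s O CR Db m0 Z : ℝ} (ht : 0 ≤ t2) (hs : 0 ≤ s) (hO : 0 ≤ O) (hCR : 0 ≤ CR)
    (hDb : 0 ≤ Db) (hm : 0 ≤ m0) (hZ : 0 ≤ Z) :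
    2 * (√(77 * (t2 * m0 + 3 * t2 * Db) * (400 * s * O))
        + (17 * (t2 * O) + 2 * (t2 * O) + √(2 * t2 * Db * (s * CR)))
        + 7 * √(t2 * s * O * Z))
      ≤ 400 * (√(s * (O + CR) * (t2 * (m0 + 3 * Db + Z))) + t2 * (O + CR)) := by
  set V := m0 + 3 * Db + Z with hV
  set E := O + CR with hE
  have e0 : √(s * E * (t2 * V)) * √(s * E * (t2 * V)) = s * E * (t2 * V) :=
    Real.mul_self_sqrt (by positivity)
  have p0 := Real.sqrt_nonneg (s * E * (t2 * V))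
  set Q := √(s * E * (t2 * V)) with hQ
  have k1 : √(77 * (t2 * m0 + 3 * t2 * Db) * (400 * s * O)) ≤ 176 * Q := by
    refine Real.sqrt_le_iff.2 ⟨by positivity, ?_⟩
    have h1 : (t2 * m0 + 3 * t2 * Db) * (s * O) ≤ s * E * (t2 * V) := by
      have h2 : t2 * m0 + 3 * t2 * Db ≤ t2 * V := by
        have := mul_nonneg ht hZ
        rw [hV]
        linarith
      have h3 : s * O ≤ s * E := by
        have := mul_nonneg hs hCR
        rw [hE]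
        linarith
      have := mul_le_mul h2 h3 (by positivity) (by positivity)
      linarith
    nlinarith
  have k2 : √(2 * t2 * Db * (s * CR)) ≤ Q := by
    refine Real.sqrt_le_sqrt ?_
    have h2 : 2 * t2 * Db ≤ t2 * V := by
      have h3 := mul_nonneg ht hZ
      have h4 := mul_nonneg ht hm
      have h5 := mul_nonneg ht hDb
      rw [hV]
      linarith
    have h3 : s * CR ≤ s * E := by
      have := mul_nonneg hs hO
      rw [hE]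
      linarith
    have := mul_le_mul h2 h3 (by positivity) (by positivity)
    linarith
  have k3 : √(t2 * s * O * Z) ≤ Q := by
    refine Real.sqrt_le_sqrt ?_
    have h2 : t2 * Z ≤ t2 * V := by
      refine mul_le_mul_of_nonneg_left ?_ ht
      rw [hV]
      linarith
    have h3 : s * O ≤ s * E := by
      have := mul_nonneg hs hCR
      rw [hE]
      linarith
    have := mul_le_mul h2 h3 (by positivity) (by positivity)
    linarith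
  have k4 : t2 * O ≤ t2 * E := by
    refine mul_le_mul_of_nonneg_left ?_ ht
    rw [hE]
    linarith
  have k5 : 0 ≤ t2 * E := by positivity
  linarith

/-- cap number to cap -/
theorem cap_of {n : Type*} [Fintype n] [DecidableEq n] {X : Matrix n n ℝ} {cC s : ℝ} {J : ℕ}
    (hs : 0 < s) (h : (cC • (1 : Matrix n n ℝ) - X).PosSemidef) (hJ : cC ≤ 4 ^ J * s) :
    (1 - (s⁻¹ / 4 ^ J) • X).PosSemidef := by
  have h4 := h.smul (α := ℝ) (show (0 : ℝ) ≤ s⁻¹ / 4 ^ J by positivity)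
  have h5 : (((1 : ℝ) - s⁻¹ / 4 ^ J * cC) • (1 : Matrix n n ℝ)).PosSemidef := by
    refine PosSemidef.one.smul ?_
    have h6 : s⁻¹ / 4 ^ J * cC ≤ s⁻¹ / 4 ^ J * (4 ^ J * s) :=
      mul_le_mul_of_nonneg_left hJ (by positivity)
    have h7 : s⁻¹ / 4 ^ J * (4 ^ J * s) = 1 := by
      field_simp
    linarith
  have h6 := h4.add h5
  have e : (s⁻¹ / 4 ^ J) • (cC • (1 : Matrix n n ℝ) - X) + ((1 : ℝ) - s⁻¹ / 4 ^ J * cC) • 1
      = 1 - (s⁻¹ / 4 ^ J) • X := by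
    rw [smul_sub, smul_smul]
    module
  rwa [e] at h6

/-- the stack as `StkR` -/
theorem stk_x0 {k₀ N : ℕ} (hkN : k₀ ≤ N) {S T : ℤ} {J : ℕ} {s : ℝ} (hs : 0 < s) (hr : r ≠ 0)
    (hM : ∀ a, k₀ ≤ a → a < N → Mvo (R a) (R (a + 1)) (D (a + 1)))
    {cC : ℝ} (capC : ∀ k a n m, k₀ ≤ k → k ≤ a → a < N →
      (cC • (1 : Matrix (Ix k × (ι ⊕ ι)) (Ix k × (ι ⊕ ι)) ℝ) - XH r R (c k) k a n m).PosSemidef)
    (hJ : cC ≤ 4 ^ J * s) :
    StkR k₀ N T S s⁻¹ J (fun k => WO r R (c k) k)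
      (fun k a n m => XH r R (c k) k a (2 * n) m)
      (fun k a n m => XH r R (c k) k a (2 * n + 1) m)
      (fun k a n m => Nm r D k a n m) (fun k a n m => -Nm r D k a n m)
      (qO J r R D c) (H38.Q.pQ J r R c)
      (fun k a n m => (1 / 2) * SCr k s⁻¹ J (WO r R (c (k + 1)) (k + 1) a n m))
      (H0 k₀ N S T r R c) (fun l => 258 * ((J : ℝ) + 1) ^ 3 * Q0 k₀ N S T r R D c l)
      (fun l => ((J : ℝ) + 1) * M0 k₀ N S T r R c l) :=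
  H377.Q.stkR_QO hkN (Rt := T) (S := S) (inv_pos.2 hs) J hr hM
    (fun k a n m h1 h2 h3 => cap_of hs (capC k a n m h1 h2 h3) hJ)
    (H := H0 k₀ N S T r R c) (Qo := Q0 k₀ N S T r R D c) (Qm := M0 k₀ N S T r R c)
    (H0_nonneg k₀ N S T r R c) (Q0_nonneg k₀ N S T r R D c) (M0_nonneg k₀ N S T r R c)
    (fun l _ => le_rfl) (fun l => le_rfl) (fun l => le_rfl)

theorem M0_le {k₀ N : ℕ} {S T : ℤ} {J : ℕ} :
    ∑ k ∈ Ico k₀ N, ∑ x ∈ iv N S, ∑ y ∈ iv N T,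
      es r (R (k + 1)) (k + 1) (bP k (c k) (c (k + 1))) x y ≤ EQ J k₀ N S T r R D c := by
  have h1 : ∑ k ∈ Ico k₀ N, ∑ x ∈ iv N S, ∑ y ∈ iv N T,
      es r (R (k + 1)) (k + 1) (bP k (c k) (c (k + 1))) x y = M0 k₀ N S T r R c 0 := by
    unfold M0
    simp only [Nat.sub_zero, add_zero]
  rw [h1]
  have hJ0 : (0 : ℝ) ≤ J := Nat.cast_nonneg J
  have nH := H0_nonneg k₀ N S T r R c
  have nQ := Q0_nonneg k₀ N S T r R D c
  have nM := M0_nonneg k₀ N S T r R c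
  unfold EQ EstR
  have h2 := single_le_sum (f := fun l => (3 / 4 : ℝ) ^ l * (((J : ℝ) + 1) * H0 k₀ N S T r R c l
      + 258 * ((J : ℝ) + 1) ^ 3 * Q0 k₀ N S T r R D c l
      + ((J : ℝ) + 1) * M0 k₀ N S T r R c l)) (s := range (N + 1)) (a := 0)
    (fun l _ => by
      have a1 := nH l
      have a2 := nQ l
      have a3 := nM l
      positivity) (Finset.mem_range.2 (by omega))
  refine le_trans ?_ h2
  beta_reduce
  rw [pow_zero, one_mul]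
  have a1 := nH 0
  have a2 := nQ 0
  have a3 := nM 0
  have a4 : 0 ≤ ((J : ℝ) + 1) * H0 k₀ N S T r R c 0 := by positivity
  have a5 : 0 ≤ 258 * ((J : ℝ) + 1) ^ 3 * Q0 k₀ N S T r R D c 0 := by positivity
  nlinarith

theorem EQ_nonneg (J k₀ N : ℕ) (S T : ℤ) (r : ℝ) (R D : ℕ → ℤ → ℤ → Matrix ι ι ℝ)
    (c : ℕ → ℤ → ℤ → ι → ℝ) : 0 ≤ EQ J k₀ N S T r R D c := by
  unfold EQ EstR
  refine Finset.sum_nonneg fun l _ => ?_
  have a1 := H0_nonneg k₀ N S T r R c l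
  have a2 := Q0_nonneg k₀ N S T r R D c l
  have a3 := M0_nonneg k₀ N S T r R c l
  positivity

/-- the births of the partner -/
theorem births_x0 {k₀ N : ℕ} {Y S T : ℤ} {cc : ℕ → ℤ} {s : ℝ} (hs : 0 < s) {t2 : ℝ}
    (ht : 0 ≤ t2)
    (cap : ∀ k, k₀ ≤ k → k ≤ N → ∀ n m,
      (t2 • (1 : Matrix (Ix k × (ι ⊕ ι)) (Ix k × (ι ⊕ ι)) ℝ) - PB b k k n m).PosSemidef)
    {Bo : ℕ → ℤ → ℤ → Prop}
    (hBo : ∀ k, k₀ ≤ k → k < N → ∀ x y, AfC k (b k) (b (k + 1)) (ix k x) y →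
      Bo k (ix (k + 1) y) (ix k x)) :
    ∑ k ∈ Ico k₀ N, GW N Y S T (k + 1) (cc (k + 1)) (fun n n' m =>
      mh (fun h => bB s r R c (fun k => bP k (b k) (b (k + 1))) k n n' h) m)
      ≤ √(2 * t2 * (∑ k ∈ Ico k₀ N, ∑ x ∈ iv N S, ∑ y ∈ iv N Y,
        ∑ i, bP k (b k) (b (k + 1)) x y i ^ 2) * (s * EX k₀ N S T cc Bo r R c)) :=
  H297.Bir.xb_num (k₀ := k₀) (N := N) (Y := Y) (S := S) (T := T) (cc := cc) (r := r)
    (R := R) (c := c) (db := fun k => bP k (b k) (b (k + 1))) hs (show 0 ≤ 2 * t2 by positivity)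
    (fun k h1 h2 n _ h _ => H297.Bir.bP_cap (PB_new (cap (k + 1) (by omega) h2) le_rfl n h))
    (Bo := Bo) (fun k h1 h2 x y hne => hBo k h1 h2 x y (by
      by_contra h3
      refine hne ?_
      beta_reduce
      unfold H38.Q.bP
      rw [if_neg h3])) le_rfl le_rfl

/-- **The raw pair (B, C~) at one `x0`, hub x1, operator caps, plain point sums.** -/
theorem pair_x0 {k₀ N : ℕ} (hkN : k₀ ≤ N) {Y S T : ℤ} {cc : ℕ → ℤ} (hcc : H588.Pl cc)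
    {J : ℕ} {s : ℝ} (hs : 0 < s) {t2 : ℝ} (ht : 0 ≤ t2) (hr : r ≠ 0)
    (hM : ∀ a, k₀ ≤ a → a < N → Mvo (R a) (R (a + 1)) (D (a + 1)))
    (hb : ∀ k x y, b k x y = Sum.elim (0 : ι → ℝ) (fun i => b k x y (Sum.inr i)))
    (cap : ∀ k, k₀ ≤ k → k ≤ N → ∀ n m,
      (t2 • (1 : Matrix (Ix k × (ι ⊕ ι)) (Ix k × (ι ⊕ ι)) ℝ) - PB b k k n m).PosSemidef)
    {cC : ℝ} (capC : ∀ k a n m, k₀ ≤ k → k ≤ a → a < N →
      (cC • (1 : Matrix (Ix k × (ι ⊕ ι)) (Ix k × (ι ⊕ ι)) ℝ) - XH r R (c k) k a n m).PosSemidef)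
    (hJ : cC ≤ 4 ^ J * s)
    {Bo : ℕ → ℤ → ℤ → Prop}
    (hBo : ∀ k, k₀ ≤ k → k < N → ∀ x y, AfC k (b k) (b (k + 1)) (ix k x) y →
      Bo k (ix (k + 1) y) (ix k x)) :
    ∑ k ∈ Ico k₀ N, GW N Y S T (k + 1) (cc (k + 1)) (fun n n' m =>
      (PB b (k + 1) (k + 1) n m * (rr k (ι ⊕ ι)
        * phs s (WO r R (c (k + 1)) (k + 1) (k + 1) n' m) * rr k (ι ⊕ ι))).trace)
      ≤ 400 * (√(s * (EQ J k₀ N S T r R D c + EX k₀ N S T cc Bo r R c)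
          * (t2 * (MV k₀ N Y S b + (r ^ 2)⁻¹ * ZV k₀ N Y S cc D b)))
        + t2 * (EQ J k₀ N S T r R D c + EX k₀ N S T cc Bo r R c)) := by
  have hs' : s = (s⁻¹ / 4 ^ 0)⁻¹ := by rw [pow_zero, div_one, inv_inv]
  have st := stk_x0 hkN (S := S) (T := T) hs hr hM capC hJ
  have hTb : ∀ k, k₀ ≤ k → k < N → Chg k (b k) (b (k + 1)) (bP k (b k) (b (k + 1))) :=
    fun k _ _ => chg_bP k _ _
  have hTc : ∀ k, k₀ ≤ k → k < N → Chg k (c k) (c (k + 1)) (bP k (c k) (c (k + 1))) :=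
    fun k _ _ => chg_bP k _ _
  have nZ := ZV_nonneg k₀ N Y S cc D b
  have hVB := TV_PB (db := fun k => bP k (b k) (b (k + 1))) hkN (Y := Y) (S := S) ht hTb cap
  rw [← Finset.mul_sum] at hVB
  have hXB := births_x0 (r := r) (R := R) (c := c) (Y := Y) (S := S) (T := T) (cc := cc) hs ht cap
    hBo
  have hZB : ∑ k ∈ Ico k₀ N, GW N Y S T (k + 1) (cc (k + 1)) (fun n n' m =>
      av (k + 1) n fun y => av (k + 1) m fun x =>
        ∑ i, ((D (k + 1) x n')ᵀ *ᵥ fun i => b k x y (Sum.inr i)) i ^ 2)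
      ≤ ZV k₀ N Y S cc D b := by
    unfold ZV
    refine Finset.sum_le_sum fun k hk => ?_
    exact GW_pts (show k + 1 ≤ N by have := mem_Ico.1 hk; omega) Y S T (cc (k + 1))
      (f := fun x y n' => ∑ i, ((D (k + 1) x n')ᵀ *ᵥ fun i => b k x y (Sum.inr i)) i ^ 2)
      fun x y n => Finset.sum_nonneg fun i _ => sq_nonneg _
  have key := pair_rawR (Y := Y) (S := S) (T := T) hcc (Nat.zero_le J) hs' ht hr hM hTc hTb hb cap
    st (M0_le (D := D) (J := J)) hVB hZB nZ hXB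
  refine key.trans ?_
  have h7 := num_x0 ht hs.le (EQ_nonneg J k₀ N S T r R D c) (EX_nonneg k₀ N S T cc Bo r R c)
    (Db := ∑ k ∈ Ico k₀ N, ∑ x ∈ iv N S, ∑ y ∈ iv N Y, ∑ i, bP k (b k) (b (k + 1)) x y i ^ 2)
    (m0 := ∑ x ∈ iv N S, ∑ y ∈ iv N Y, ∑ i, b k₀ x y i ^ 2)
    (Finset.sum_nonneg fun k _ => Finset.sum_nonneg fun x _ => Finset.sum_nonneg fun y _ =>
      Finset.sum_nonneg fun i _ => sq_nonneg _)
    (Finset.sum_nonneg fun x _ => Finset.sum_nonneg fun y _ =>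
      Finset.sum_nonneg fun i _ => sq_nonneg _) (mul_nonneg (inv_nonneg.2 (sq_nonneg r)) nZ)
  exact h7

end node

end

end Vale.Agent.P141.H585.PairRX
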