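import Vale.Agent.P141.H45.PhiMid
import Vale.Agent.P141.H585.PairCh

/-!
# The middle step with both factors saturated

`d = phi a + phi b - phi (a + b)` has Hilbert-Schmidt square at most `20 tr (phi a phi b)`;
`sat_mid`: the middle step for two saturated Gram matrices, losses are the two own gaps.
-/

set_option linter.unusedSectionVars false

namespace Vale.Agent.P141.H585.PhiSat

open Matrix Vale.Agent.P075 Vale.Agent.P141.H45

noncomputable section

variable {n : Type*} [Fintype n] [DecidableEq n]

theorem res_symm {a : Matrix n n ℝ} (ha : a.PosSemidef) : (res a)ᵀ = res a := by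
  have := psd_isSymm (phi_psd ha)
  rw [phi, transpose_sub, transpose_one] at this
  exact sub_right_injective this

/-- **Operator inequality with 3/4.** -/
theorem phi_mid4 {a b : Matrix n n ℝ} (ha : a.PosSemidef) (hb : b.PosSemidef) :
    (phi (a + b) - phi a - (3 / 4 : ℝ) • phi b + (3 : ℝ) • (phi a * phi b * phi a)).PosSemidef := by
  have h1 := phi_add_eq ha hb
  have hs : (1 - (4 : ℝ) • phi a)ᵀ = 1 - (4 : ℝ) • phi a := by
    rw [transpose_sub, transpose_one, transpose_smul, psd_isSymm (phi_psd ha)]
  have hra := res_symm ha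
  have e : phi (a + b) - phi a - (3 / 4 : ℝ) • phi b + (3 : ℝ) • (phi a * phi b * phi a)
      = (1 / 4 : ℝ) • ((1 - (4 : ℝ) • phi a) * phi b * (1 - (4 : ℝ) • phi a))
        + res a * (b * (res b - res (a + b)) * b) * res a := by
    have e0 : res a = 1 - phi a := by rw [phi]; abel
    rw [h1]
    have : res a * phi b * res a - (3 / 4 : ℝ) • phi b + (3 : ℝ) • (phi a * phi b * phi a)
        = (1 / 4 : ℝ) • ((1 - (4 : ℝ) • phi a) * phi b * (1 - (4 : ℝ) • phi a)) := by
      rw [e0]
      simp only [Matrix.sub_mul, Matrix.mul_sub, Matrix.one_mul, Matrix.mul_one, smul_mul_assoc,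
        mul_smul_comm, smul_sub, smul_smul]
      norm_num
      module
    rw [← this]
    abel
  rw [e]
  refine ((psd_conj_symm (phi_psd hb) hs).smul (by norm_num)).add ?_
  refine psd_conj_symm (psd_conj_symm ?_ (psd_isSymm hb)) hra
  have := res_anti hb ha
  rwa [add_comm b a] at this

/-- trace is subadditive -/
theorem trace_phi_add {a b : Matrix n n ℝ} (ha : a.PosSemidef) (hb : b.PosSemidef) :
    (phi (a + b)).trace ≤ (phi a).trace + (phi b).trace := by
  have h1 : (a * res (a + b)).trace ≤ (a * res a).trace :=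
    trace_mul_le_right ha (res_anti ha hb)
  have h2 : (b * res (a + b)).trace ≤ (b * res b).trace := by
    refine trace_mul_le_right hb ?_
    have := res_anti hb ha
    rwa [add_comm b a] at this
  have e : ∀ {c : Matrix n n ℝ}, c.PosSemidef → phi c = c * res c := by
    intro c hc
    have := one_add_mul_res hc
    rw [Matrix.add_mul, Matrix.one_mul] at this
    rw [phi, ← this]
    abel
  rw [e (ha.add hb), e ha, e hb, Matrix.add_mul, trace_add]
  linarith

/-- square of a matrix -/
def sqt (A : Matrix n n ℝ) : ℝ := (A * Aᵀ).trace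

theorem sqt_nonneg (A : Matrix n n ℝ) : 0 ≤ sqt A := by
  unfold sqt
  have := (posSemidef_self_mul_conjTranspose A).trace_nonneg
  rwa [conjTranspose_eq_transpose_of_trivial] at this

theorem sqt_add_le (A B : Matrix n n ℝ) : sqt (A + B) ≤ 2 * sqt A + 2 * sqt B := by
  have h := sqt_nonneg (A - B)
  have e : sqt (A - B) + sqt (A + B) = 2 * sqt A + 2 * sqt B := by
    unfold sqt
    simp only [transpose_add, transpose_sub, Matrix.add_mul, Matrix.mul_add, Matrix.sub_mul,
      Matrix.mul_sub, trace_add, trace_sub]
    ring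
  linarith

theorem sqt_neg (A : Matrix n n ℝ) : sqt (-A) = sqt A := by
  unfold sqt
  rw [transpose_neg, Matrix.neg_mul, Matrix.mul_neg, neg_neg]

theorem sqt_tr (A : Matrix n n ℝ) : sqt Aᵀ = sqt A := by
  unfold sqt
  rw [transpose_transpose, trace_mul_comm]

theorem sq_le_self {P : Matrix n n ℝ} (hP : P.PosSemidef) (hP1 : (1 - P).PosSemidef) :
    (P - P * P).PosSemidef := by
  have hPs := psd_isSymm hP
  have h1 := psd_conj_symm hP1 hPs
  have h2 : P - P * P = P * (1 - P) * P + (1 - P) * P * (1 - P) := by noncomm_ring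
  rw [h2]
  refine h1.add ?_
  exact psd_conj_symm hP (by rw [transpose_sub, transpose_one, hPs])

/-- the defect of additivity -/
def dfc (a b : Matrix n n ℝ) : Matrix n n ℝ := phi a + phi b - phi (a + b)

theorem dfc_symm {a b : Matrix n n ℝ} (ha : a.PosSemidef) (hb : b.PosSemidef) :
    (dfc a b)ᵀ = dfc a b := by
  unfold dfc
  rw [transpose_sub, transpose_add, psd_isSymm (phi_psd ha), psd_isSymm (phi_psd hb),
    psd_isSymm (phi_psd (ha.add hb))]

/-- **Hilbert-Schmidt bound of the defect.** -/
theorem dfc_sq {a b : Matrix n n ℝ} (ha : a.PosSemidef) (hb : b.PosSemidef) :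
    sqt (dfc a b) ≤ 20 * (phi a * phi b).trace := by
  set P := phi a with hP
  set B := phi b with hB
  have pP : P.PosSemidef := phi_psd ha
  have pB : B.PosSemidef := phi_psd hb
  have sP := psd_isSymm pP
  have sB := psd_isSymm pB
  have P1 : (1 - P).PosSemidef := one_sub_phi_psd ha
  have B1 : (1 - B).PosSemidef := one_sub_phi_psd hb
  have hra := res_symm ha
  set E := res a * (b * (res b - res (a + b)) * b) * res a with hE
  have pE : E.PosSemidef := by
    refine psd_conj_symm (psd_conj_symm ?_ (psd_isSymm hb)) hra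
    have := res_anti hb ha
    rwa [add_comm b a] at this
  have e0 : res a = 1 - P := by rw [hP, phi]; abel
  have e1 : phi (a + b) = P + (1 - P) * B * (1 - P) + E := by
    have h1 := phi_add_eq ha hb
    rw [← hE, e0, ← hB, ← hP] at h1
    rw [sub_eq_iff_eq_add] at h1
    rw [h1]
    abel
  -- trace of the remainder
  have tE : E.trace ≤ 2 * (P * B).trace := by
    have h := trace_phi_add ha hb
    rw [e1, trace_add, trace_add] at h
    have e2 : (1 - P) * B * (1 - P) = B - P * B - B * P + P * B * P := by noncomm_ring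
    rw [e2, trace_add, trace_sub, trace_sub, trace_mul_comm B P] at h
    have h3 : 0 ≤ (P * B * P).trace := by
      exact (psd_conj_symm pB sP).trace_nonneg
    linarith
  -- the remainder is at most one
  have E1 : (1 - E).PosSemidef := by
    have h := one_sub_phi_psd (ha.add hb)
    rw [e1] at h
    have h2 : 1 - E = (1 - (P + (1 - P) * B * (1 - P) + E)) + P + (1 - P) * B * (1 - P) := by
      abel
    rw [h2]
    refine (h.add pP).add (psd_conj_symm pB ?_)
    rw [transpose_sub, transpose_one, sP]
  have sE : sqt E ≤ 2 * (P * B).trace := by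
    have h := (sq_le_self pE E1).trace_nonneg
    rw [trace_sub] at h
    unfold sqt
    rw [psd_isSymm pE]
    linarith
  have sPB : sqt (P * B) ≤ (P * B).trace := by
    unfold sqt
    rw [transpose_mul, sP, sB]
    have e3 : (P * B * (B * P)).trace = (P * P * (B * B)).trace := by
      rw [← Matrix.mul_assoc, trace_mul_comm]
      simp only [Matrix.mul_assoc]
    rw [e3]
    have hBB : (B * B).PosSemidef := by
      have := psd_conj_symm (PosSemidef.one (n := n) (R := ℝ)) sB
      rwa [Matrix.mul_one] at this
    exact (trace_mul_le_left hBB (sq_le_self pP P1)).trans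
      (trace_mul_le_right pP (sq_le_self pB B1))
  have sBP : sqt (B * P) ≤ (P * B).trace := by
    have h := sqt_tr (P * B)
    rw [transpose_mul, sP, sB] at h
    rw [h]
    exact sPB
  have sPBP : sqt (P * B * P) ≤ (P * B).trace := by
    unfold sqt
    have e3 : (P * B * P)ᵀ = P * B * P := psd_isSymm (psd_conj_symm pB sP)
    rw [e3]
    have q : (P * B * P).PosSemidef := psd_conj_symm pB sP
    have q1 : (1 - P * B * P).PosSemidef := by
      have h2 : 1 - P * B * P = P * (1 - B) * P + (P - P * P) + (1 - P) := by noncomm_ring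
      rw [h2]
      exact ((psd_conj_symm B1 sP).add (sq_le_self pP P1)).add P1
    have h := (sq_le_self q q1).trace_nonneg
    rw [trace_sub] at h
    have h4 : (P * B * P).trace ≤ (P * B).trace := by
      rw [trace_mul_comm, ← Matrix.mul_assoc]
      exact trace_mul_le_left pB (sq_le_self pP P1)
    linarith
  have ed : dfc a b = (P * B - P * B * P) + (B * P - E) := by
    unfold dfc
    rw [e1, ← hP, ← hB]
    noncomm_ring
  rw [ed]
  have k1 := sqt_add_le (P * B - P * B * P) (B * P - E)
  have k2 := sqt_add_le (P * B) (-(P * B * P))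
  have k3 := sqt_add_le (B * P) (-E)
  rw [← sub_eq_add_neg, sqt_neg] at k2 k3
  linarith

/-- Cauchy-Schwarz for the trace of two symmetric matrices -/
theorem tr_cs {A B : Matrix n n ℝ} {l : ℝ} (hl : 0 < l) (hA : Aᵀ = A) (hB : Bᵀ = B) :
    -(A * B).trace ≤ (l / 2) * sqt A + (1 / (2 * l)) * sqt B := by
  have h := sqt_nonneg (l • A + B)
  have e : sqt (l • A + B) = l ^ 2 * sqt A + 2 * l * (A * B).trace + sqt B := by
    unfold sqt
    rw [transpose_add, transpose_smul, hA, hB]
    simp only [Matrix.add_mul, Matrix.mul_add, trace_add, Matrix.smul_mul, Matrix.mul_smul,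
      trace_smul, smul_eq_mul]
    rw [trace_mul_comm B A]
    ring
  rw [e] at h
  have h2 : 0 ≤ (1 / (2 * l)) * (l ^ 2 * sqt A + 2 * l * (A * B).trace + sqt B) :=
    mul_nonneg (by positivity) h
  have e2 : (1 / (2 * l)) * (l ^ 2 * sqt A + 2 * l * (A * B).trace + sqt B)
      = (l / 2) * sqt A + (A * B).trace + (1 / (2 * l)) * sqt B := by
    field_simp
  rw [e2] at h2
  linarith

/-- one of the two factors: test matrix at most one -/
theorem mid_test {T a r : Matrix n n ℝ} (hT : T.PosSemidef) (hT1 : (1 - T).PosSemidef)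
    (ha : a.PosSemidef) (hr : rᵀ = r) (hr2 : r * r = 1) :
    (T * dfc a (r * a * r)).trace
      ≤ (1 / 4) * (T * (r * phi a * r)).trace + 3 * (phi a * (r * phi a * r)).trace := by
  have hb : (r * a * r).PosSemidef := psd_conj_symm ha hr
  have h1 := phi_mid4 ha hb
  have h2 := trace_mul_nonneg hT h1
  rw [phi_refl ha hr hr2] at h2
  have hA := phi_psd ha
  have hB : (r * phi a * r).PosSemidef := psd_conj_symm hA hr
  have hABA : (phi a * (r * phi a * r) * phi a).PosSemidef := psd_conj_symm hB (psd_isSymm hA)
  have h3 : (T * (phi a * (r * phi a * r) * phi a)).trace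
      ≤ (phi a * (r * phi a * r) * phi a).trace := by
    have := trace_mul_le_left (V := T) (W := 1) hABA hT1
    rwa [Matrix.one_mul] at this
  have h4 : (phi a * (r * phi a * r) * phi a).trace ≤ (phi a * (r * phi a * r)).trace := by
    rw [trace_mul_comm, ← Matrix.mul_assoc]
    exact trace_mul_le_left hB (phi_sub_sq_psd ha)
  unfold dfc
  rw [phi_refl ha hr hr2]
  simp only [Matrix.mul_add, Matrix.mul_sub, trace_add, trace_sub, Matrix.mul_smul, trace_smul,
    smul_eq_mul] at h2 ⊢
  linarith

theorem trace_conj_swap {A B r : Matrix n n ℝ} : (A * (r * B * r)).trace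
    = (r * A * r * B).trace := by
  have e : A * (r * B * r) = (A * r * B) * r := by simp only [Matrix.mul_assoc]
  rw [e, trace_mul_comm]
  simp only [Matrix.mul_assoc]

/-- **The middle step with both factors saturated.** -/
theorem sat_mid {X Y r : Matrix n n ℝ} (hX : X.PosSemidef) (hY : Y.PosSemidef)
    (hr : rᵀ = r) (hr2 : r * r = 1) :
    (phi X * phi Y).trace + (1 / 2) * (phi X * (r * phi Y * r)).trace
      ≤ (1 / 2) * (phi (X + r * X * r) * phi (Y + r * Y * r)).trace
        + 8 * (phi X * (r * phi X * r)).trace + 8 * (phi Y * (r * phi Y * r)).trace := by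
  have hX' : (r * X * r).PosSemidef := psd_conj_symm hX hr
  have hY' : (r * Y * r).PosSemidef := psd_conj_symm hY hr
  set a := phi X with ha
  set b := phi Y with hb
  have pa : a.PosSemidef := phi_psd hX
  have pb : b.PosSemidef := phi_psd hY
  have eX : phi (X + r * X * r) = a + r * a * r - dfc X (r * X * r) := by
    unfold dfc
    rw [phi_refl hX hr hr2, ← ha]
    abel
  have eY : phi (Y + r * Y * r) = b + r * b * r - dfc Y (r * Y * r) := by
    unfold dfc
    rw [phi_refl hY hr hr2, ← hb]
    abel
  set dX := dfc X (r * X * r) with hdX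
  set dY := dfc Y (r * Y * r) with hdY
  -- the defects commute with the sign
  have cX : r * dX * r = dX := by
    have e1 : r * (X + r * X * r) * r = X + r * X * r := by
      have : r * (X + r * X * r) * r = r * X * r + (r * r) * X * (r * r) := by noncomm_ring
      rw [this, hr2, Matrix.one_mul, Matrix.mul_one, add_comm]
    have e2 := phi_refl (hX.add hX') hr hr2
    rw [e1] at e2
    have e3 : dX = a + r * a * r - phi (X + r * X * r) := by rw [eX]; abel
    rw [e3]
    have e4 : r * (a + r * a * r - phi (X + r * X * r)) * r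
        = r * a * r + (r * r) * a * (r * r) - r * phi (X + r * X * r) * r := by noncomm_ring
    rw [e4, hr2, Matrix.one_mul, Matrix.mul_one, ← e2, add_comm a]
  have cY : r * dY * r = dY := by
    have e1 : r * (Y + r * Y * r) * r = Y + r * Y * r := by
      have : r * (Y + r * Y * r) * r = r * Y * r + (r * r) * Y * (r * r) := by noncomm_ring
      rw [this, hr2, Matrix.one_mul, Matrix.mul_one, add_comm]
    have e2 := phi_refl (hY.add hY') hr hr2
    rw [e1] at e2
    have e3 : dY = b + r * b * r - phi (Y + r * Y * r) := by rw [eY]; abel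
    rw [e3]
    have e4 : r * (b + r * b * r - phi (Y + r * Y * r)) * r
        = r * b * r + (r * r) * b * (r * r) - r * phi (Y + r * Y * r) * r := by noncomm_ring
    rw [e4, hr2, Matrix.one_mul, Matrix.mul_one, ← e2, add_comm b]
  have tX := mid_test pb (one_sub_phi_psd hY) hX hr hr2
  have tY := mid_test pa (one_sub_phi_psd hX) hY hr hr2
  rw [← hdX, ← ha] at tX
  rw [← hdY, ← hb] at tY
  have q1 := dfc_sq hX hX'
  have q2 := dfc_sq hY hY'
  rw [phi_refl hX hr hr2, ← hdX, ← ha] at q1
  rw [phi_refl hY hr hr2, ← hdY, ← hb] at q2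
  have sX : dXᵀ = dX := dfc_symm hX hX'
  have sY : dYᵀ = dY := dfc_symm hY hY'
  have cs := tr_cs (l := 1) one_pos sX sY
  -- expand
  have x1 : (phi (X + r * X * r) * phi (Y + r * Y * r)).trace
      = 2 * (a * b).trace + 2 * (a * (r * b * r)).trace - 2 * (b * dX).trace
        - 2 * (a * dY).trace + (dX * dY).trace := by
    rw [eX, eY]
    have s1 : ((r * a * r) * (r * b * r)).trace = (a * b).trace := by
      have : (r * a * r) * (r * b * r) = r * (a * (r * r) * b) * r := by noncomm_ring
      rw [this, hr2, Matrix.mul_one, trace_mul_comm, ← Matrix.mul_assoc, hr2, Matrix.one_mul]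
    have s2 : (r * a * r * b).trace = (a * (r * b * r)).trace := trace_conj_swap.symm
    have s3 : (r * a * r * dY).trace = (a * dY).trace := by
      rw [← trace_conj_swap, cY]
    have s4 : (dX * (r * b * r)).trace = (dX * b).trace := by
      rw [trace_conj_swap, cX]
    have s5 : (dX * b).trace = (b * dX).trace := trace_mul_comm _ _
    simp only [Matrix.add_mul, Matrix.mul_add, Matrix.sub_mul, Matrix.mul_sub, trace_add,
      trace_sub]
    rw [s1, s2, s3, s4, s5]
    ring
  have s6 : (b * (r * a * r)).trace = (a * (r * b * r)).trace := by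
    rw [trace_mul_comm, trace_conj_swap]
  rw [s6] at tX
  rw [x1]
  linarith

end

end Vale.Agent.P141.H585.PhiSat
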