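import Vale.Agent.P141.H585.PairO
import Vale.Agent.P141.H585.PhiSat
import Vale.Agent.P141.H336.TVst

/-!
# The pair (B, C~), raw and saturated partner, in final form

`SPair`: the middle step is a field. `SPair.total`: the plane theorem. `SPair.fin`: all numbers of
the stack by `H336.Stk`, the parameter chosen. `raw_mid`, `sat_lev`, `sat_kill`: the two
instances of the node.
-/

set_option linter.unusedSectionVars false

namespace Vale.Agent.P141.H585.PairS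

open Finset Matrix Vale.Agent.P075 Vale.Agent.P141.PL Vale.Agent.P141.PL.H103 Vale.Agent.P141.H103
open Vale.Agent.P141.H389 Vale.Agent.P141.H585.PairCh Vale.Agent.P141.H585.PairO
open Vale.Agent.P141.H585.PhiSat Vale.Agent.P141.H505

noncomputable section

/-! ### The node with a saturated partner -/

section node

variable {κ : Type*} [Fintype κ] [DecidableEq κ]

theorem phs_psd {s : ℝ} (hs : 0 < s) {X : Matrix κ κ ℝ} (hX : X.PosSemidef) :
    (phs s X).PosSemidef := (phi_psd (hX.smul (inv_pos.2 hs).le)).smul hs.le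

theorem phs_cap {s : ℝ} (hs : 0 < s) {X : Matrix κ κ ℝ} (hX : X.PosSemidef) :
    (s • (1 : Matrix κ κ ℝ) - phs s X).PosSemidef := by
  unfold phs
  rw [← smul_sub]
  exact (one_sub_phi_psd (hX.smul (inv_pos.2 hs).le)).smul hs.le

theorem phs_le {s : ℝ} (hs : 0 < s) {X : Matrix κ κ ℝ} (hX : X.PosSemidef) :
    (X - phs s X).PosSemidef := by
  have h := (sub_phi_psd (hX.smul (α := ℝ) (inv_pos.2 hs).le)).smul hs.le
  rw [smul_sub, smul_smul, mul_inv_cancel₀ hs.ne', one_smul] at h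
  exact h

/-- **the middle step at the levels `h` (partner) and `s` (stack)** -/
theorem sat_lev {h s : ℝ} (hh : 0 < h) (hs : 0 < s) {X Y r : Matrix κ κ ℝ} (hX : X.PosSemidef)
    (hY : Y.PosSemidef) (hr : rᵀ = r) (hr2 : r * r = 1) :
    (phs h X * phs s Y).trace + (1 / 2) * (phs h X * (r * phs s Y * r)).trace
      ≤ (1 / 2) * (phs h (X + r * X * r) * phs s (Y + r * Y * r)).trace
        + (8 * (s * h⁻¹) * gp h r X + 8 * (h * s⁻¹) * gp s r Y) := by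
  have k := sat_mid (hX.smul (α := ℝ) (inv_pos.2 hh).le) (hY.smul (α := ℝ) (inv_pos.2 hs).le) hr hr2
  have k2 := mul_le_mul_of_nonneg_left k (mul_pos hh hs).le
  have e1 : h⁻¹ • X + r * (h⁻¹ • X) * r = h⁻¹ • (X + r * X * r) := by
    rw [Matrix.mul_smul, Matrix.smul_mul, ← smul_add]
  have e2 : s⁻¹ • Y + r * (s⁻¹ • Y) * r = s⁻¹ • (Y + r * Y * r) := by
    rw [Matrix.mul_smul, Matrix.smul_mul, ← smul_add]
  rw [e1, e2] at k2
  have g1 : s * h⁻¹ * gp h r X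
      = h * s * (phi (h⁻¹ • X) * (r * phi (h⁻¹ • X) * r)).trace := by
    unfold gp
    field_simp
  have g2 : h * s⁻¹ * gp s r Y
      = h * s * (phi (s⁻¹ • Y) * (r * phi (s⁻¹ • Y) * r)).trace := by
    unfold gp
    field_simp
  rw [mul_assoc 8, g1, mul_assoc 8, g2]
  unfold phs
  simp only [Matrix.mul_smul, Matrix.smul_mul, trace_smul, smul_eq_mul]
  linarith

/-- **the outer step of the saturated partner** against a matrix `Z` at most `s` -/
theorem sat_kill {h s : ℝ} (hh : 0 < h) {B₀ B₁ Z : Matrix κ κ ℝ}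
    (h0 : B₀.PosSemidef) (h1 : B₁.PosSemidef)
    (hZs : (s • (1 : Matrix κ κ ℝ) - Z).PosSemidef) :
    (phs h ((1 / 2 : ℝ) • (B₀ + B₁)) * Z).trace
      ≤ (((1 / 2 : ℝ) • (phs h B₀ + phs h B₁)) * Z).trace + s * h⁻¹ * dls h B₀ B₁ := by
  have hi := (inv_pos.2 hh).le
  have p0 := h0.smul (α := ℝ) hi
  have p1 := h1.smul (α := ℝ) hi
  have e : phs h ((1 / 2 : ℝ) • (B₀ + B₁)) - (1 / 2 : ℝ) • (phs h B₀ + phs h B₁)
      = h • delt (h⁻¹ • B₀) (h⁻¹ • B₁) := by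
    unfold phs delt
    rw [show h⁻¹ • ((1 / 2 : ℝ) • (B₀ + B₁)) = (1 / 2 : ℝ) • (h⁻¹ • B₀ + h⁻¹ • B₁) by
      rw [← smul_add, smul_comm]]
    module
  have hD : (h • delt (h⁻¹ • B₀) (h⁻¹ • B₁)).PosSemidef := (delt_psd p0 p1).smul hh.le
  have k := trace_mul_le_right hD hZs
  rw [Matrix.mul_smul, Matrix.mul_one, trace_smul, trace_smul, smul_eq_mul, smul_eq_mul] at k
  have e2 : s * h⁻¹ * dls h B₀ B₁ = s * (h * (delt (h⁻¹ • B₀) (h⁻¹ • B₁)).trace) := by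
    unfold dls
    field_simp
  rw [← e, Matrix.sub_mul, trace_sub] at k
  rw [e2]
  linarith

theorem opt_c {A B U V : ℝ} (hU : 0 ≤ U) (hV : 0 ≤ V) (h : ∀ c : ℝ, 0 < c → A ≤ B + c * U + c⁻¹ * V) :
    A ≤ B + 2 * √(U * V) := by
  refine le_of_forall_pos_le_add fun ε hε => ?_
  by_cases hU0 : U = 0
  · have hc : 0 < (V + 1) / ε := by positivity
    have k := h _ hc
    rw [hU0, mul_zero] at k
    rw [hU0, zero_mul, Real.sqrt_zero]
    have e : ((V + 1) / ε)⁻¹ * V ≤ ε := by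
      rw [inv_div, div_mul_eq_mul_div, div_le_iff₀ (by positivity)]
      nlinarith
    linarith
  · have hU1 : 0 < U := lt_of_le_of_ne hU (Ne.symm hU0)
    by_cases hV0 : V = 0
    · have hc : 0 < ε / U := by positivity
      have k := h _ hc
      rw [hV0, mul_zero, div_mul_cancel₀ _ hU0] at k
      rw [hV0, mul_zero, Real.sqrt_zero]
      linarith
    · have hV1 : 0 < V := lt_of_le_of_ne hV (Ne.symm hV0)
      have su : 0 < √U := Real.sqrt_pos.2 hU1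
      have sv : 0 < √V := Real.sqrt_pos.2 hV1
      have k := h (√V / √U) (div_pos sv su)
      have e1 : √V / √U * U = √U * √V := by
        have : U = √U * √U := (Real.mul_self_sqrt hU).symm
        rw [div_mul_eq_mul_div, div_eq_iff su.ne']
        nth_rewrite 1 [this]
        ring
      have e2 : (√V / √U)⁻¹ * V = √U * √V := by
        have : V = √V * √V := (Real.mul_self_sqrt hV).symm
        rw [inv_div, div_mul_eq_mul_div, div_eq_iff sv.ne']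
        nth_rewrite 1 [this]
        ring
      rw [e1, e2] at k
      rw [Real.sqrt_mul hU]
      linarith

end node

/-! ### The plane theorem -/

section plane

variable {ι : ℕ → Type*} [∀ k, Fintype (ι k)] [∀ k, DecidableEq (ι k)]

/-- Data of the moving pair, the middle step as a field: `g` gain, `y` middle losses, `x` kills. -/
structure SPair (N k₀ : ℕ) (s t2 : ℝ) (P W : ∀ k, ℕ → ℤ → ℤ → Matrix (ι k) (ι k) ℝ)
    (P' X₀ X₁ M : ∀ k, ℤ → ℤ → Matrix (ι k) (ι k) ℝ)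
    (g y x : ℕ → ℤ → ℤ → ℤ → ℝ) : Prop where
  sP : ∀ k a n m, (P k a n m).PosSemidef
  sW : ∀ k a n m, (W k a n m).PosSemidef
  sP' : ∀ k n m, (P' k n m).PosSemidef
  capP' : ∀ k, k₀ ≤ k → k < N → ∀ n m,
    (t2 • (1 : Matrix (ι k) (ι k) ℝ) - P' k n m).PosSemidef
  s0 : ∀ k n m, (X₀ k n m).PosSemidef
  s1 : ∀ k n m, (X₁ k n m).PosSemidef
  midl : ∀ k, k₀ ≤ k → k < N → ∀ n n' m,
    (P (k + 1) (k + 1) n m * phs s (W (k + 1) (k + 1) n' m)).trace + g k n n' m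
    ≤ (1 / 2) * ((P' k n (2 * m)
        * phs s ((1 / 2 : ℝ) • (X₀ k n' (2 * m) + X₁ k n' (2 * m)))).trace
      + (P' k n (2 * m + 1)
        * phs s ((1 / 2 : ℝ) • (X₀ k n' (2 * m + 1) + X₁ k n' (2 * m + 1)))).trace)
      + y k n n' m
  kill : ∀ k, k₀ ≤ k → k < N → ∀ n n' h,
    (1 / 2) * ((P' k n h * phs s (mv (M k n' h) (X₀ k n' h))).trace
        + (P' k n h * phs s (mv (-M k n' h) (X₁ k n' h))).trace)
      ≤ (mn (fun n => P k k n h) n * mn (fun n => phs s (W k k n h)) n').trace + x k n n' h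

variable {N k₀ : ℕ} {s t2 : ℝ} {P W : ∀ k, ℕ → ℤ → ℤ → Matrix (ι k) (ι k) ℝ}
  {r : ∀ k, Matrix (ι (k + 1)) (ι (k + 1)) ℝ} {P' X₀ X₁ M : ∀ k, ℤ → ℤ → Matrix (ι k) (ι k) ℝ}
  {g y x : ℕ → ℤ → ℤ → ℤ → ℝ}

/-- the raw partner -/
theorem raw_spair (H : MPair N k₀ s t2 P W r P' X₀ X₁ M x) (hs : 0 < s) (ht : 0 ≤ t2) :
    SPair N k₀ s t2 P W P' X₀ X₁ M (fun k n n' m => (1 / 2) * gain s P W r k n n' m)
      (fun k _ n' m => t2 * s⁻¹ * gp s (r k) (W (k + 1) (k + 1) n' m)) x where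
  sP := H.sP
  sW := H.sW
  sP' := H.sP'
  capP' := H.capP'
  s0 := H.s0
  s1 := H.s1
  midl k h1 h2 n n' m := by
    have a1 := mid_lev hs (H.sP (k + 1) (k + 1) n m) (H.capP k h1 h2 n m) ht
      (H.sW (k + 1) (k + 1) n' m) (H.hr k) (H.hr2 k)
    rw [H.blk k h1 h2 n n' m] at a1
    exact a1
  kill := H.kill

/-- all losses of the node -/
def lossS (s t2 c : ℝ) (P' X₀ X₁ M : ∀ k, ℤ → ℤ → Matrix (ι k) (ι k) ℝ)
    (y x : ℕ → ℤ → ℤ → ℤ → ℝ) (k : ℕ) (n n' m : ℤ) : ℝ :=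
  y k n n' m
    + (t2 * s⁻¹ + 3 * c) * mh (fun h => dls s (X₀ k n' h) (X₁ k n' h)) m
    + c⁻¹ * t2 * mh (fun h => ((M k n' h)ᵀ * P' k n h * M k n' h).trace) m
    + (t2 + c⁻¹ * (2 * t2 ^ 2 * s⁻¹)) * mh (fun h => mvE (M k n' h) (X₀ k n' h) (X₁ k n' h)) m
    + mh (fun h => x k n n' h) m

/-- **The node inequality.** -/
theorem SPair.mid (H : SPair N k₀ s t2 P W P' X₀ X₁ M g y x) (hs : 0 < s) (ht : 0 ≤ t2) {c : ℝ}
    (hc : 0 < c) {k : ℕ} (h1 : k₀ ≤ k) (h2 : k < N) (n n' m : ℤ) :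
    (P (k + 1) (k + 1) n m * phs s (W (k + 1) (k + 1) n' m)).trace
      + (g k n n' m - lossS s t2 c P' X₀ X₁ M y x k n n' m)
      ≤ (1 / 2) * ((mn (fun n => P k k n (2 * m)) n
          * mn (fun n => phs s (W k k n (2 * m))) n').trace
        + (mn (fun n => P k k n (2 * m + 1)) n
          * mn (fun n => phs s (W k k n (2 * m + 1))) n').trace) := by
  have a1 := H.midl k h1 h2 n n' m
  have b0 := half_step (M := M k n' (2 * m)) hs ht hc (H.s0 k n' (2 * m)) (H.s1 k n' (2 * m))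
    (H.sP' k n (2 * m)) (H.capP' k h1 h2 n (2 * m))
  have b1 := half_step (M := M k n' (2 * m + 1)) hs ht hc (H.s0 k n' (2 * m + 1))
    (H.s1 k n' (2 * m + 1)) (H.sP' k n (2 * m + 1)) (H.capP' k h1 h2 n (2 * m + 1))
  have k0 := H.kill k h1 h2 n n' (2 * m)
  have k1 := H.kill k h1 h2 n n' (2 * m + 1)
  unfold lossS mh
  nlinarith

/-- **The plane theorem, with a parameter.** -/
theorem SPair.total (H : SPair N k₀ s t2 P W P' X₀ X₁ M g y x) (hs : 0 < s) (ht : 0 ≤ t2) {c : ℝ}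
    (hc : 0 < c) (hkN : k₀ ≤ N) {R S T : ℤ} {cc : ℕ → ℤ} (hcc : H588.Pl cc)
    {Y OO ZB ZM X : ℝ}
    (hY : ∑ k ∈ Ico k₀ N, GW N R S T (k + 1) (cc (k + 1)) (y k) ≤ Y)
    (hOO : ∑ k ∈ Ico k₀ N, (4 : ℝ) ^ (k + 1) * ∑ m ∈ iv (N - (k + 1)) S,
      ∑ n ∈ iv (N - (k + 1)) T, mh (fun h => dls s (X₀ k n h) (X₁ k n h)) m ≤ OO)
    (hZM : ∑ k ∈ Ico k₀ N, (4 : ℝ) ^ (k + 1) * ∑ m ∈ iv (N - (k + 1)) S,
      ∑ n ∈ iv (N - (k + 1)) T, mh (fun h => mvE (M k n h) (X₀ k n h) (X₁ k n h)) m ≤ ZM)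
    (hZB : ∑ k ∈ Ico k₀ N, GW N R S T (k + 1) (cc (k + 1)) (fun n n' m =>
      mh (fun h => ((M k n' h)ᵀ * P' k n h * M k n' h).trace) m) ≤ ZB)
    (hX : ∑ k ∈ Ico k₀ N, GW N R S T (k + 1) (cc (k + 1)) (fun n n' m =>
      mh (fun h => x k n n' h) m) ≤ X) :
    ∑ k ∈ Ico k₀ N, GW N R S T (k + 1) (cc (k + 1)) (g k)
      ≤ √(TV k₀ N R S P * TV k₀ N T S (fun k a n m => phs s (W k a n m)))
        + (Y + (t2 * s⁻¹ + 3 * c) * OO + c⁻¹ * t2 * ZB
          + (t2 + c⁻¹ * (2 * t2 ^ 2 * s⁻¹)) * ZM + X) := by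
  have h := totalV_sqrt hkN hcc (P := P) (Q := fun k a n m => phs s (W k a n m))
    (g := fun k n n' m => g k n n' m - lossS s t2 c P' X₀ X₁ M y x k n n' m) (R := R) (S := S)
    (T := T)
    (fun k a n m => psd_isSymm (H.sP k a n m)) (fun k a n m => phs_symm hs (H.sW k a n m))
    (fun k h1 h2 n n' m => H.mid hs ht hc h1 h2 n n' m)
  have eg : ∀ k, GW N R S T (k + 1) (cc (k + 1)) (fun n n' m => g k n n' m
      - lossS s t2 c P' X₀ X₁ M y x k n n' m)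
      = GW N R S T (k + 1) (cc (k + 1)) (g k)
        - GW N R S T (k + 1) (cc (k + 1)) (lossS s t2 c P' X₀ X₁ M y x k) := by
    intro k
    have e1 := GW_add N R S T (k + 1) (cc (k + 1))
      (fun n n' m => g k n n' m)
      (fun n n' m => (-1) * lossS s t2 c P' X₀ X₁ M y x k n n' m)
    rw [GW_mul] at e1
    have e2 : (fun n n' m => g k n n' m - lossS s t2 c P' X₀ X₁ M y x k n n' m)
        = fun n n' m => g k n n' m + (-1) * lossS s t2 c P' X₀ X₁ M y x k n n' m := by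
      funext n n' m
      ring
    rw [e2, e1]
    ring
  simp only [eg, Finset.sum_sub_distrib] at h
  -- the losses
  have hs' : 0 < s⁻¹ := inv_pos.2 hs
  have hc' : 0 < c⁻¹ := inv_pos.2 hc
  have el : ∀ k, GW N R S T (k + 1) (cc (k + 1)) (lossS s t2 c P' X₀ X₁ M y x k)
      = GW N R S T (k + 1) (cc (k + 1)) (y k)
        + (t2 * s⁻¹ + 3 * c) * GW N R S T (k + 1) (cc (k + 1))
          (fun _ n' m => mh (fun h => dls s (X₀ k n' h) (X₁ k n' h)) m)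
        + c⁻¹ * t2 * GW N R S T (k + 1) (cc (k + 1))
          (fun n n' m => mh (fun h => ((M k n' h)ᵀ * P' k n h * M k n' h).trace) m)
        + (t2 + c⁻¹ * (2 * t2 ^ 2 * s⁻¹)) * GW N R S T (k + 1) (cc (k + 1))
          (fun _ n' m => mh (fun h => mvE (M k n' h) (X₀ k n' h) (X₁ k n' h)) m)
        + GW N R S T (k + 1) (cc (k + 1)) (fun n n' m => mh (fun h => x k n n' h) m) := by
    intro k
    rw [← GW_mul, ← GW_mul, ← GW_mul, ← GW_add, ← GW_add, ← GW_add, ← GW_add]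
    rfl
  have g2 : ∑ k ∈ Ico k₀ N, GW N R S T (k + 1) (cc (k + 1))
      (fun _ n' m => mh (fun h => dls s (X₀ k n' h) (X₁ k n' h)) m) ≤ OO :=
    (Finset.sum_le_sum fun k _ => GW_le_one N R S T (k + 1) (cc (k + 1))
      (f := fun n' m => mh (fun h => dls s (X₀ k n' h) (X₁ k n' h)) m)
      (fun n m => mh_nonneg (fun h => dls_nonneg hs (H.s0 k n h) (H.s1 k n h)) m)).trans hOO
  have g4 : ∑ k ∈ Ico k₀ N, GW N R S T (k + 1) (cc (k + 1))
      (fun _ n' m => mh (fun h => mvE (M k n' h) (X₀ k n' h) (X₁ k n' h)) m) ≤ ZM :=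
    (Finset.sum_le_sum fun k _ => GW_le_one N R S T (k + 1) (cc (k + 1))
      (f := fun n' m => mh (fun h => mvE (M k n' h) (X₀ k n' h) (X₁ k n' h)) m)
      (fun n m => mh_nonneg (fun h => mvE_nonneg (H.s0 k n h) (H.s1 k n h)) m)).trans hZM
  simp only [el, Finset.sum_add_distrib, ← Finset.mul_sum] at h
  have f2 := mul_le_mul_of_nonneg_left g2 (show 0 ≤ t2 * s⁻¹ + 3 * c by positivity)
  have f3 := mul_le_mul_of_nonneg_left hZB (show 0 ≤ c⁻¹ * t2 by positivity)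
  have f4 := mul_le_mul_of_nonneg_left g4 (show 0 ≤ t2 + c⁻¹ * (2 * t2 ^ 2 * s⁻¹) by positivity)
  linarith

/-- **The plane theorem, parameter chosen.** -/
theorem SPair.total_opt (H : SPair N k₀ s t2 P W P' X₀ X₁ M g y x) (hs : 0 < s) (ht : 0 ≤ t2)
    (hkN : k₀ ≤ N) {R S T : ℤ} {cc : ℕ → ℤ} (hcc : H588.Pl cc)
    {Y OO ZB ZM X : ℝ} (nOO : 0 ≤ OO) (nZB : 0 ≤ ZB) (nZM : 0 ≤ ZM)
    (hY : ∑ k ∈ Ico k₀ N, GW N R S T (k + 1) (cc (k + 1)) (y k) ≤ Y)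
    (hOO : ∑ k ∈ Ico k₀ N, (4 : ℝ) ^ (k + 1) * ∑ m ∈ iv (N - (k + 1)) S,
      ∑ n ∈ iv (N - (k + 1)) T, mh (fun h => dls s (X₀ k n h) (X₁ k n h)) m ≤ OO)
    (hZM : ∑ k ∈ Ico k₀ N, (4 : ℝ) ^ (k + 1) * ∑ m ∈ iv (N - (k + 1)) S,
      ∑ n ∈ iv (N - (k + 1)) T, mh (fun h => mvE (M k n h) (X₀ k n h) (X₁ k n h)) m ≤ ZM)
    (hZB : ∑ k ∈ Ico k₀ N, GW N R S T (k + 1) (cc (k + 1)) (fun n n' m =>
      mh (fun h => ((M k n' h)ᵀ * P' k n h * M k n' h).trace) m) ≤ ZB)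
    (hX : ∑ k ∈ Ico k₀ N, GW N R S T (k + 1) (cc (k + 1)) (fun n n' m =>
      mh (fun h => x k n n' h) m) ≤ X) :
    ∑ k ∈ Ico k₀ N, GW N R S T (k + 1) (cc (k + 1)) (g k)
      ≤ √(TV k₀ N R S P * TV k₀ N T S (fun k a n m => phs s (W k a n m)))
        + (Y + t2 * s⁻¹ * OO + t2 * ZM + X)
        + 2 * √(3 * OO * (t2 * ZB + 2 * t2 ^ 2 * s⁻¹ * ZM)) := by
  have hs' : 0 < s⁻¹ := inv_pos.2 hs
  refine opt_c (by positivity) (by positivity) fun c hc => ?_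
  have h := H.total hs ht hc hkN hcc hY hOO hZM hZB hX
  refine h.trans (le_of_eq ?_)
  ring

end plane

end

end Vale.Agent.P141.H585.PairS
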