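import Vale.Agent.P141.PL.Defs
import Vale.Agent.P141.PL.H315.ConcreteProc

/-!
# P141, line W, end lemma: stopping once

`dn E k m` is the density of the finite set `E` on the interval of scale `k` and index `m`.  A cube
is bad when one of the three densities exceeds `θ`.  The maximal bad cubes below a root are
pairwise disjoint; the sum over disjoint cubes of the products of the three densities is at most the
product at the root.  On the cubes with no bad cube above all line averages of functions carried by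
`E` are small.
-/

namespace Vale.Agent.P141.H585

open Finset
open Vale.Agent.P141.PL (iv ix Pt cb cx mem_iv mem_cb card_iv card_cb ix_ix)
open Vale.Agent.P141.PL.H315 (avg avg_nonneg)

noncomputable section

/-- the indicator of a finite set -/
def id1 (E : Finset ℤ) (x : ℤ) : ℝ := if x ∈ E then 1 else 0

theorem id1_nonneg (E : Finset ℤ) (x : ℤ) : 0 ≤ id1 E x := by
  unfold id1; split_ifs <;> norm_num

theorem id1_le (E : Finset ℤ) (x : ℤ) : id1 E x ≤ 1 := by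
  unfold id1; split_ifs <;> norm_num

theorem id1_sq (E : Finset ℤ) (x : ℤ) : id1 E x ^ 2 = id1 E x := by
  unfold id1; split_ifs <;> norm_num

/-- the density of `E` on the interval of scale `k` and index `m` -/
def dn (E : Finset ℤ) (k : ℕ) (m : ℤ) : ℝ := avg (iv k m) (id1 E)

theorem dn_nonneg (E : Finset ℤ) (k : ℕ) (m : ℤ) : 0 ≤ dn E k m :=
  avg_nonneg fun x _ => id1_nonneg E x

theorem sum_id1 (E : Finset ℤ) (k : ℕ) (m : ℤ) : ∑ x ∈ iv k m, id1 E x = 2 ^ k * dn E k m := by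
  unfold dn avg
  rw [card_iv]; push_cast
  rw [← mul_assoc, mul_inv_cancel₀ (by positivity), one_mul]

theorem dn_eq (E : Finset ℤ) (k : ℕ) (m : ℤ) :
    dn E k m = (2 ^ k : ℝ)⁻¹ * ((iv k m).filter (· ∈ E)).card := by
  unfold dn avg id1
  rw [card_iv, sum_boole]; push_cast; rfl

theorem dn_le_one (E : Finset ℤ) (k : ℕ) (m : ℤ) : dn E k m ≤ 1 := by
  have h := sum_id1 E k m
  have h1 : ∑ x ∈ iv k m, id1 E x ≤ ∑ _x ∈ iv k m, (1 : ℝ) := sum_le_sum fun x _ => id1_le E x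
  rw [h, sum_const, card_iv, nsmul_eq_mul, mul_one] at h1
  push_cast at h1
  have h2 : (0 : ℝ) < 2 ^ k := by positivity
  nlinarith

/-! ### Disjoint cubes -/

/-- the sum over disjoint cubes -/
theorem sum_disj {𝒮 : Finset (ℕ × Pt)} {Q : Finset Pt}
    (hd : (𝒮 : Set (ℕ × Pt)).PairwiseDisjoint fun s => cb s.1 s.2)
    (hs : ∀ s ∈ 𝒮, cb s.1 s.2 ⊆ Q) {F : Pt → ℝ} (hF : ∀ p ∈ Q, 0 ≤ F p) :
    ∑ s ∈ 𝒮, ∑ p ∈ cb s.1 s.2, F p ≤ ∑ p ∈ Q, F p := by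
  rw [← sum_biUnion hd]
  exact sum_le_sum_of_subset_of_nonneg (biUnion_subset.mpr hs) fun p hp _ => hF p hp

theorem sum_cb_prod (f g h : ℤ → ℝ) (k : ℕ) (m : Pt) :
    ∑ p ∈ cb k m, f p.1 * g p.2.1 * h p.2.2 =
      (∑ x ∈ iv k m.1, f x) * (∑ x ∈ iv k m.2.1, g x) * ∑ x ∈ iv k m.2.2, h x := by
  unfold cb
  rw [sum_product, sum_mul_sum, sum_mul]
  refine sum_congr rfl fun x _ => ?_
  rw [sum_product, sum_mul_sum]

theorem sum_cb_id1 (E1 E2 E3 : Finset ℤ) (k : ℕ) (m : Pt) :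
    ∑ p ∈ cb k m, id1 E1 p.1 * id1 E2 p.2.1 * id1 E3 p.2.2 =
      8 ^ k * (dn E1 k m.1 * dn E2 k m.2.1 * dn E3 k m.2.2) := by
  rw [sum_cb_prod, sum_id1, sum_id1, sum_id1]
  have : (8 : ℝ) ^ k = 2 ^ k * 2 ^ k * 2 ^ k := by rw [← mul_pow, ← mul_pow]; norm_num
  rw [this]; ring

/-- **Counting.** For disjoint cubes inside a root the products of the densities add up to at most
the product at the root. -/
theorem count {𝒮 : Finset (ℕ × Pt)} {L : ℕ} {M : Pt}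
    (hd : (𝒮 : Set (ℕ × Pt)).PairwiseDisjoint fun s => cb s.1 s.2)
    (hs : ∀ s ∈ 𝒮, cb s.1 s.2 ⊆ cb L M) (E1 E2 E3 : Finset ℤ) :
    ∑ s ∈ 𝒮, 8 ^ s.1 * (dn E1 s.1 s.2.1 * dn E2 s.1 s.2.2.1 * dn E3 s.1 s.2.2.2) ≤
      8 ^ L * (dn E1 L M.1 * dn E2 L M.2.1 * dn E3 L M.2.2) := by
  rw [← sum_cb_id1]
  refine le_trans (le_of_eq ?_) (sum_disj hd hs (F := fun p =>
    id1 E1 p.1 * id1 E2 p.2.1 * id1 E3 p.2.2) fun p _ => mul_nonneg (mul_nonneg (id1_nonneg _ _)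
      (id1_nonneg _ _)) (id1_nonneg _ _))
  exact sum_congr rfl fun s _ => (sum_cb_id1 _ _ _ _ _).symm

/-- a cube is bad when one of the three densities exceeds `θ` -/
def Bd (θ : ℝ) (E1 E2 E3 : Finset ℤ) (k : ℕ) (m : Pt) : Prop :=
  θ < dn E1 k m.1 ∨ θ < dn E2 k m.2.1 ∨ θ < dn E3 k m.2.2

/-- the largest of the three densities -/
def dmx (E1 E2 E3 : Finset ℤ) (k : ℕ) (m : Pt) : ℝ :=
  max (dn E1 k m.1) (max (dn E2 k m.2.1) (dn E3 k m.2.2))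

theorem bd_iff {θ : ℝ} {E1 E2 E3 : Finset ℤ} {k : ℕ} {m : Pt} :
    Bd θ E1 E2 E3 k m ↔ θ < dmx E1 E2 E3 k m := by
  unfold Bd dmx; rw [lt_max_iff, lt_max_iff]

/-- **The sum over disjoint bad cubes** of a quantity at most
`c · d₁ d₂ d₃ / √(max dᵢ)`. -/
theorem stop_sum {𝒮 : Finset (ℕ × Pt)} {L : ℕ} {M : Pt}
    (hd : (𝒮 : Set (ℕ × Pt)).PairwiseDisjoint fun s => cb s.1 s.2)
    (hs : ∀ s ∈ 𝒮, cb s.1 s.2 ⊆ cb L M) {E1 E2 E3 : Finset ℤ} {θ c D1 D2 D3 : ℝ} (hθ : 0 < θ)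
    (hc : 0 ≤ c) (hb : ∀ s ∈ 𝒮, Bd θ E1 E2 E3 s.1 s.2) {N : ℕ × Pt → ℝ}
    (hN : ∀ s ∈ 𝒮, N s ≤ c * (dn E1 s.1 s.2.1 * dn E2 s.1 s.2.2.1 * dn E3 s.1 s.2.2.2) /
      √(dmx E1 E2 E3 s.1 s.2))
    (h1 : dn E1 L M.1 ≤ D1) (h2 : dn E2 L M.2.1 ≤ D2) (h3 : dn E3 L M.2.2 ≤ D3) :
    ∑ s ∈ 𝒮, 8 ^ s.1 * N s ≤ c * (D1 * D2 * D3) / √θ * 8 ^ L := by
  have hsθ : 0 < √θ := Real.sqrt_pos.mpr hθ
  have k1 : ∀ s ∈ 𝒮, 8 ^ s.1 * N s ≤ c / √θ *
      (8 ^ s.1 * (dn E1 s.1 s.2.1 * dn E2 s.1 s.2.2.1 * dn E3 s.1 s.2.2.2)) := by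
    intro s hs'
    have hp : 0 ≤ dn E1 s.1 s.2.1 * dn E2 s.1 s.2.2.1 * dn E3 s.1 s.2.2.2 :=
      mul_nonneg (mul_nonneg (dn_nonneg _ _ _) (dn_nonneg _ _ _)) (dn_nonneg _ _ _)
    have hm := (bd_iff.mp (hb s hs')).le
    have : c * (dn E1 s.1 s.2.1 * dn E2 s.1 s.2.2.1 * dn E3 s.1 s.2.2.2) /
        √(dmx E1 E2 E3 s.1 s.2) ≤ c * (dn E1 s.1 s.2.1 * dn E2 s.1 s.2.2.1 *
          dn E3 s.1 s.2.2.2) / √θ :=
      div_le_div_of_nonneg_left (mul_nonneg hc hp) hsθ (Real.sqrt_le_sqrt hm)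
    calc 8 ^ s.1 * N s ≤ 8 ^ s.1 * (c * (dn E1 s.1 s.2.1 * dn E2 s.1 s.2.2.1 *
          dn E3 s.1 s.2.2.2) / √θ) := by
          refine mul_le_mul_of_nonneg_left ((hN s hs').trans this) (by positivity)
      _ = _ := by ring
  refine (sum_le_sum k1).trans ?_
  rw [← mul_sum]
  have hcθ : 0 ≤ c / √θ := by positivity
  refine (mul_le_mul_of_nonneg_left (count hd hs E1 E2 E3) hcθ).trans ?_
  have n1 := dn_nonneg E1 L M.1
  have n2 := dn_nonneg E2 L M.2.1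
  have n3 := dn_nonneg E3 L M.2.2
  have d1 := n1.trans h1
  have d2 := n2.trans h2
  have : dn E1 L M.1 * dn E2 L M.2.1 * dn E3 L M.2.2 ≤ D1 * D2 * D3 :=
    mul_le_mul (mul_le_mul h1 h2 n2 d1) h3 n3 (mul_nonneg d1 d2)
  calc c / √θ * (8 ^ L * (dn E1 L M.1 * dn E2 L M.2.1 * dn E3 L M.2.2)) ≤
        c / √θ * (8 ^ L * (D1 * D2 * D3)) := by gcongr
    _ = _ := by ring

/-! ### The maximal bad cubes -/

/-- no bad cube between the scales `k` and `L` above the point `x` -/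
def Alv (θ : ℝ) (E1 E2 E3 : Finset ℤ) (L k : ℕ) (x : Pt) : Prop :=
  ∀ j, k ≤ j → j ≤ L → ¬ Bd θ E1 E2 E3 j (cx j x)

theorem cx_up {k j : ℕ} (h : k ≤ j) {x y : Pt} (he : cx k x = cx k y) : cx j x = cx j y := by
  obtain ⟨l, rfl⟩ := Nat.exists_eq_add_of_le h
  have e : ∀ p : Pt, cx (k + l) p = cx l (cx k p) := by
    intro p; unfold cx; simp only [ix_ix]
  rw [e, e, he]

theorem Alv.congr {θ : ℝ} {E1 E2 E3 : Finset ℤ} {L k : ℕ} {x y : Pt} (he : cx k x = cx k y)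
    (h : Alv θ E1 E2 E3 L k x) : Alv θ E1 E2 E3 L k y := by
  intro j hk hj
  rw [← cx_up hk he]
  exact h j hk hj

theorem alv_congr {θ : ℝ} {E1 E2 E3 : Finset ℤ} {L k : ℕ} {x y : Pt} (he : cx k x = cx k y) :
    Alv θ E1 E2 E3 L k x ↔ Alv θ E1 E2 E3 L k y :=
  ⟨fun h => h.congr he, fun h => h.congr he.symm⟩

theorem Alv.up {θ : ℝ} {E1 E2 E3 : Finset ℤ} {L k k' : ℕ} {x : Pt} (hk : k ≤ k')
    (h : Alv θ E1 E2 E3 L k x) : Alv θ E1 E2 E3 L k' x := fun j h1 h2 => h j (hk.trans h1) h2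

theorem alv_step {θ : ℝ} {E1 E2 E3 : Finset ℤ} {L k : ℕ} {x : Pt} (hk : k ≤ L) :
    Alv θ E1 E2 E3 L k x ↔ Alv θ E1 E2 E3 L (k + 1) x ∧ ¬ Bd θ E1 E2 E3 k (cx k x) := by
  constructor
  · intro h
    exact ⟨h.up (Nat.le_succ k), h k le_rfl hk⟩
  · rintro ⟨h, h'⟩ j h1 h2
    rcases Nat.eq_or_lt_of_le h1 with rfl | h3
    · exact h'
    · exact h j h3 h2

/-- the maximal bad cubes of the root `(L, M)` -/
def stp (θ : ℝ) (E1 E2 E3 : Finset ℤ) (L : ℕ) (M : Pt) : Finset (ℕ × Pt) := by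
  classical
  exact ((range (L + 1) ×ˢ cb L M).filter fun a => Bd θ E1 E2 E3 a.1 (cx a.1 a.2) ∧
    Alv θ E1 E2 E3 L (a.1 + 1) a.2).image fun a => (a.1, cx a.1 a.2)

theorem mem_stp {θ : ℝ} {E1 E2 E3 : Finset ℤ} {L : ℕ} {M : Pt} {s : ℕ × Pt} :
    s ∈ stp θ E1 E2 E3 L M ↔ ∃ p ∈ cb L M, s.1 ≤ L ∧ s.2 = cx s.1 p ∧
      Bd θ E1 E2 E3 s.1 (cx s.1 p) ∧ Alv θ E1 E2 E3 L (s.1 + 1) p := by
  classical
  unfold stp
  rw [mem_image]
  constructor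
  · rintro ⟨a, ha, rfl⟩
    rw [mem_filter, mem_product, mem_range] at ha
    exact ⟨a.2, ha.1.2, Nat.lt_succ_iff.mp ha.1.1, rfl, ha.2.1, ha.2.2⟩
  · rintro ⟨p, hp, hL, he, hb, ha⟩
    refine ⟨(s.1, p), ?_, ?_⟩
    · rw [mem_filter, mem_product, mem_range]
      exact ⟨⟨Nat.lt_succ_iff.mpr hL, hp⟩, hb, ha⟩
    · rw [← he]

/-- every point of a maximal bad cube lies in the root, its cube is bad, nothing bad above -/
theorem stp_pt {θ : ℝ} {E1 E2 E3 : Finset ℤ} {L : ℕ} {M : Pt} {s : ℕ × Pt}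
    (h : s ∈ stp θ E1 E2 E3 L M) {q : Pt} (hq : q ∈ cb s.1 s.2) :
    q ∈ cb L M ∧ s.1 ≤ L ∧ s.2 = cx s.1 q ∧ Bd θ E1 E2 E3 s.1 s.2 ∧
      Alv θ E1 E2 E3 L (s.1 + 1) q := by
  obtain ⟨p, hp, hL, he, hb, ha⟩ := mem_stp.mp h
  have hq' : cx s.1 q = s.2 := mem_cb.mp hq
  have e : cx s.1 p = cx s.1 q := by rw [hq', he]
  refine ⟨?_, hL, hq'.symm, ?_, ?_⟩
  · rw [mem_cb] at hp ⊢
    rw [← cx_up hL e]; exact hp
  · rw [he]; exact hb
  · exact ha.congr (cx_up (Nat.le_succ _) e)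

theorem stp_sub {θ : ℝ} {E1 E2 E3 : Finset ℤ} {L : ℕ} {M : Pt} {s : ℕ × Pt}
    (h : s ∈ stp θ E1 E2 E3 L M) : cb s.1 s.2 ⊆ cb L M := fun _ hq => (stp_pt h hq).1

theorem stp_bd {θ : ℝ} {E1 E2 E3 : Finset ℤ} {L : ℕ} {M : Pt} {s : ℕ × Pt}
    (h : s ∈ stp θ E1 E2 E3 L M) : Bd θ E1 E2 E3 s.1 s.2 := by
  obtain ⟨p, _, _, he, hb, _⟩ := mem_stp.mp h
  rw [he]; exact hb

theorem stp_le {θ : ℝ} {E1 E2 E3 : Finset ℤ} {L : ℕ} {M : Pt} {s : ℕ × Pt}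
    (h : s ∈ stp θ E1 E2 E3 L M) : s.1 ≤ L := by
  obtain ⟨p, _, hL, _⟩ := mem_stp.mp h
  exact hL

/-- the maximal bad cubes are pairwise disjoint -/
theorem stp_eq {θ : ℝ} {E1 E2 E3 : Finset ℤ} {L : ℕ} {M : Pt} {s s' : ℕ × Pt}
    (h : s ∈ stp θ E1 E2 E3 L M) (h' : s' ∈ stp θ E1 E2 E3 L M) {q : Pt}
    (hq : q ∈ cb s.1 s.2) (hq' : q ∈ cb s'.1 s'.2) : s = s' := by
  obtain ⟨_, hL, he, hb, ha⟩ := stp_pt h hq
  obtain ⟨_, hL', he', hb', ha'⟩ := stp_pt h' hq'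
  rcases lt_trichotomy s.1 s'.1 with hlt | heq | hgt
  · exact absurd (he' ▸ hb') (ha s'.1 hlt hL')
  · refine Prod.ext heq ?_
    rw [he, he', heq]
  · exact absurd (he ▸ hb) (ha' s.1 hgt hL)

theorem stp_disj (θ : ℝ) (E1 E2 E3 : Finset ℤ) (L : ℕ) (M : Pt) :
    (stp θ E1 E2 E3 L M : Set (ℕ × Pt)).PairwiseDisjoint fun s => cb s.1 s.2 := by
  intro s hs s' hs' hne
  rw [Function.onFun, disjoint_left]
  intro q hq hq'
  exact hne (stp_eq hs hs' hq hq')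

/-- **The sum over the stops.** -/
theorem sum_stp {θ c D1 D2 D3 : ℝ} {E1 E2 E3 : Finset ℤ} {L : ℕ} {M : Pt} (hθ : 0 < θ)
    (hc : 0 ≤ c) {N : ℕ × Pt → ℝ}
    (hN : ∀ s ∈ stp θ E1 E2 E3 L M, N s ≤ c * (dn E1 s.1 s.2.1 * dn E2 s.1 s.2.2.1 *
      dn E3 s.1 s.2.2.2) / √(dmx E1 E2 E3 s.1 s.2))
    (h1 : dn E1 L M.1 ≤ D1) (h2 : dn E2 L M.2.1 ≤ D2) (h3 : dn E3 L M.2.2 ≤ D3) :
    ∑ s ∈ stp θ E1 E2 E3 L M, 8 ^ s.1 * N s ≤ c * (D1 * D2 * D3) / √θ * 8 ^ L :=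
  stop_sum (stp_disj θ E1 E2 E3 L M) (fun _ h => stp_sub h) hθ hc (fun _ h => stp_bd h) hN h1 h2 h3

/-- **Splitting off the stops**: on the root a function is its alive part at scale `k` plus its
restrictions to the stops of scale at least `k`. -/
theorem eq_alive_add_stops (θ : ℝ) (E1 E2 E3 : Finset ℤ) {L k : ℕ} {M : Pt} (u : Pt → ℝ) {p : Pt}
    (hp : p ∈ cb L M) [Decidable (Alv θ E1 E2 E3 L k p)] :
    u p = (if Alv θ E1 E2 E3 L k p then u p else 0) +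
      ∑ s ∈ (stp θ E1 E2 E3 L M).filter (fun s => k ≤ s.1), if p ∈ cb s.1 s.2 then u p else 0 := by
  classical
  by_cases h : Alv θ E1 E2 E3 L k p
  · rw [if_pos h, sum_eq_zero, add_zero]
    intro s hs
    rw [mem_filter] at hs
    refine if_neg fun hps => ?_
    obtain ⟨_, hL, he, hb, _⟩ := stp_pt hs.1 hps
    exact h s.1 hs.2 hL (he ▸ hb)
  · rw [if_neg h, zero_add]
    -- the largest bad scale
    have hex : ∃ j, k ≤ j ∧ j ≤ L ∧ Bd θ E1 E2 E3 j (cx j p) := by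
      unfold Alv at h; push Not at h; exact h
    set S : Finset ℕ := (Icc k L).filter fun j => Bd θ E1 E2 E3 j (cx j p) with hS
    have hSne : S.Nonempty := by
      obtain ⟨j, h1, h2, h3⟩ := hex
      exact ⟨j, by rw [hS, mem_filter, mem_Icc]; exact ⟨⟨h1, h2⟩, h3⟩⟩
    set j := S.max' hSne with hj
    have hjS : j ∈ S := S.max'_mem hSne
    rw [hS, mem_filter, mem_Icc] at hjS
    have halv : Alv θ E1 E2 E3 L (j + 1) p := by
      intro i h1 h2 h3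
      have hi : i ∈ S := by
        rw [hS, mem_filter, mem_Icc]; exact ⟨⟨by omega, h2⟩, h3⟩
      have := S.le_max' i hi
      rw [← hj] at this
      omega
    have hmem : (j, cx j p) ∈ (stp θ E1 E2 E3 L M).filter (fun s => k ≤ s.1) := by
      rw [mem_filter]
      exact ⟨mem_stp.mpr ⟨p, hp, hjS.1.2, rfl, hjS.2, halv⟩, hjS.1.1⟩
    rw [sum_eq_single_of_mem _ hmem]
    · rw [if_pos (mem_cb.mpr rfl)]
    · intro s hs hne
      rw [mem_filter] at hs hmem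
      exact if_neg fun hps => hne (stp_eq hs.1 hmem.1 hps (mem_cb.mpr rfl))

/-- no stop contains an alive cube or lies above it -/
theorem not_mem_of_alv {θ : ℝ} {E1 E2 E3 : Finset ℤ} {L k : ℕ} {M : Pt} {p : Pt}
    (h : Alv θ E1 E2 E3 L k p) {s : ℕ × Pt} (hs : s ∈ stp θ E1 E2 E3 L M) (hk : k ≤ s.1) :
    p ∉ cb s.1 s.2 := by
  intro hps
  obtain ⟨_, hL, he, hb, _⟩ := stp_pt hs hps
  exact h s.1 hk hL (he ▸ hb)

/-- below a stop nothing is alive -/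
theorem not_alv {θ : ℝ} {E1 E2 E3 : Finset ℤ} {L k : ℕ} {M : Pt} {p : Pt} {s : ℕ × Pt}
    (hs : s ∈ stp θ E1 E2 E3 L M) (hk : k ≤ s.1) (hp : p ∈ cb s.1 s.2) :
    ¬ Alv θ E1 E2 E3 L k p := fun h => not_mem_of_alv h hs hk hp

/-! ### Alive cubes: pointwise bounds -/

theorem Alv.dn1 {θ : ℝ} {E1 E2 E3 : Finset ℤ} {L k : ℕ} {x : Pt} (h : Alv θ E1 E2 E3 L k x)
    {j : ℕ} (hk : k ≤ j) (hj : j ≤ L) : dn E1 j (ix j x.1) ≤ θ :=
  not_lt.mp fun h' => h j hk hj (Or.inl h')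

theorem Alv.dn2 {θ : ℝ} {E1 E2 E3 : Finset ℤ} {L k : ℕ} {x : Pt} (h : Alv θ E1 E2 E3 L k x)
    {j : ℕ} (hk : k ≤ j) (hj : j ≤ L) : dn E2 j (ix j x.2.1) ≤ θ :=
  not_lt.mp fun h' => h j hk hj (Or.inr (Or.inl h'))

theorem Alv.dn3 {θ : ℝ} {E1 E2 E3 : Finset ℤ} {L k : ℕ} {x : Pt} (h : Alv θ E1 E2 E3 L k x)
    {j : ℕ} (hk : k ≤ j) (hj : j ≤ L) : dn E3 j (ix j x.2.2) ≤ θ :=
  not_lt.mp fun h' => h j hk hj (Or.inr (Or.inr h'))

theorem avg_le {X : Type*} {Q : Finset X} {f g : X → ℝ} (h : ∀ x ∈ Q, f x ≤ g x) :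
    avg Q f ≤ avg Q g :=
  mul_le_mul_of_nonneg_left (sum_le_sum h) (inv_nonneg.mpr (Nat.cast_nonneg _))

theorem avg_const_mul {X : Type*} (Q : Finset X) (c : ℝ) (f : X → ℝ) :
    avg Q (fun x => c * f x) = c * avg Q f := by
  unfold avg; rw [← mul_sum]; ring

/-- one line: a function of size `h` carried by `E` -/
theorem line_le {E : Finset ℤ} {k : ℕ} {m : ℤ} {θ h : ℝ} {f : ℤ → ℝ}
    (hf : ∀ x ∈ iv k m, |f x| ≤ h * id1 E x) (hE : dn E k m ≤ θ) :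
    avg (iv k m) (fun x => f x ^ 2) ≤ h ^ 2 * θ := by
  have h1 : avg (iv k m) (fun x => f x ^ 2) ≤ h ^ 2 * dn E k m := by
    unfold dn
    rw [← avg_const_mul]
    refine avg_le fun x hx => ?_
    have := pow_le_pow_left₀ (abs_nonneg (f x)) (hf x hx) 2
    rw [sq_abs, mul_pow, id1_sq] at this
    exact this
  exact h1.trans (mul_le_mul_of_nonneg_left hE (sq_nonneg h))

/-- one square, one function with line averages at most `Λ` and one function of size `h` carried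
by `E` in the first variable -/
theorem square_le {E : Finset ℤ} {k : ℕ} {m m' : ℤ} {θ h Λ : ℝ} (hΛ : 0 ≤ Λ)
    {f G : ℤ → ℤ → ℝ} (hf : ∀ x ∈ iv k m, ∀ y ∈ iv k m', |f x y| ≤ h * id1 E x)
    (hG : ∀ x ∈ iv k m, avg (iv k m') (fun y => G x y ^ 2) ≤ Λ) (hE : dn E k m ≤ θ) :
    avg (iv k m) (fun x => avg (iv k m') fun y => (f x y * G x y) ^ 2) ≤ h ^ 2 * θ * Λ := by
  have h1 : ∀ x ∈ iv k m, avg (iv k m') (fun y => (f x y * G x y) ^ 2) ≤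
      h ^ 2 * Λ * id1 E x := by
    intro x hx
    have h2 : avg (iv k m') (fun y => (f x y * G x y) ^ 2) ≤
        h ^ 2 * id1 E x * avg (iv k m') (fun y => G x y ^ 2) := by
      rw [← avg_const_mul]
      refine avg_le fun y hy => ?_
      have := pow_le_pow_left₀ (abs_nonneg (f x y)) (hf x hx y hy) 2
      rw [sq_abs, mul_pow, id1_sq] at this
      rw [mul_pow]
      exact mul_le_mul_of_nonneg_right this (sq_nonneg _)
    refine h2.trans ?_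
    have := mul_le_mul_of_nonneg_left (hG x hx) (mul_nonneg (sq_nonneg h) (id1_nonneg E x))
    linarith
  have h3 : avg (iv k m) (fun x => avg (iv k m') fun y => (f x y * G x y) ^ 2) ≤
      h ^ 2 * Λ * dn E k m := by
    unfold dn
    rw [← avg_const_mul]
    exact avg_le h1
  have := mul_le_mul_of_nonneg_left hE (mul_nonneg (sq_nonneg h) hΛ)
  linarith

/-- an edge of size `h` carried by `E × E'` -/
def Ed (h : ℝ) (E E' : Finset ℤ) (a : ℤ → ℤ → ℝ) : Prop :=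
  ∀ x y, |a x y| ≤ h * (id1 E x * id1 E' y)

theorem Ed.left {h : ℝ} (hh : 0 ≤ h) {E E' : Finset ℤ} {a : ℤ → ℤ → ℝ} (H : Ed h E E' a)
    (x y : ℤ) : |a x y| ≤ h * id1 E x := by
  refine (H x y).trans (mul_le_mul_of_nonneg_left ?_ hh)
  have h1 := id1_nonneg E x
  have h2 := id1_le E' y
  nlinarith

theorem Ed.right {h : ℝ} (hh : 0 ≤ h) {E E' : Finset ℤ} {a : ℤ → ℤ → ℝ} (H : Ed h E E' a)
    (x y : ℤ) : |a x y| ≤ h * id1 E' y := by
  refine (H x y).trans (mul_le_mul_of_nonneg_left ?_ hh)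
  have h1 := id1_nonneg E' y
  have h2 := id1_le E x
  nlinarith

theorem Ed.abs_le {h : ℝ} (hh : 0 ≤ h) {E E' : Finset ℤ} {a : ℤ → ℤ → ℝ} (H : Ed h E E' a)
    (x y : ℤ) : |a x y| ≤ h := by
  have h1 := H.left hh x y
  have h2 := id1_le E x
  nlinarith

theorem Ed.off {h : ℝ} {E E' : Finset ℤ} {a : ℤ → ℤ → ℝ} (H : Ed h E E' a)
    {x y : ℤ} (hxy : ¬ (x ∈ E ∧ y ∈ E')) : a x y = 0 := by
  have := H x y
  have h0 : id1 E x * id1 E' y = 0 := by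
    unfold id1
    rcases not_and_or.mp hxy with h | h
    · rw [if_neg h, zero_mul]
    · rw [if_neg h, mul_zero]
  rw [h0, mul_zero] at this
  exact abs_nonpos_iff.mp this

/-- the line averages of an edge in the first variable -/
theorem Ed.line1 {h θ : ℝ} (hh : 0 ≤ h) {E E' : Finset ℤ} {a : ℤ → ℤ → ℝ} (H : Ed h E E' a)
    {k : ℕ} {m : ℤ} (hE : dn E k m ≤ θ) (y : ℤ) :
    avg (iv k m) (fun x => a x y ^ 2) ≤ h ^ 2 * θ :=
  line_le (fun x _ => H.left hh x y) hE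

/-- the line averages of an edge in the second variable -/
theorem Ed.line2 {h θ : ℝ} (hh : 0 ≤ h) {E E' : Finset ℤ} {a : ℤ → ℤ → ℝ} (H : Ed h E E' a)
    {k : ℕ} {m : ℤ} (hE : dn E' k m ≤ θ) (x : ℤ) :
    avg (iv k m) (fun y => a x y ^ 2) ≤ h ^ 2 * θ :=
  line_le (fun y _ => H.right hh x y) hE

/-- the energy of the product with a function with line averages at most `Λ` -/
theorem Ed.square {h θ Λ : ℝ} (hh : 0 ≤ h) (hΛ : 0 ≤ Λ) {E E' : Finset ℤ} {a G : ℤ → ℤ → ℝ}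
    (H : Ed h E E' a) {k : ℕ} {m m' : ℤ} (hE : dn E k m ≤ θ)
    (hG : ∀ x ∈ iv k m, avg (iv k m') (fun y => G x y ^ 2) ≤ Λ) :
    avg (iv k m) (fun x => avg (iv k m') fun y => (a x y * G x y) ^ 2) ≤ h ^ 2 * θ * Λ :=
  square_le hΛ (fun x _ y _ => H.left hh x y) hG hE

/-- the energy of one row of the product -/
theorem Ed.row {h Λ : ℝ} (hh : 0 ≤ h) {E E' : Finset ℤ} {a G : ℤ → ℤ → ℝ}
    (H : Ed h E E' a) {k : ℕ} {m' : ℤ} (x : ℤ)
    (hG : avg (iv k m') (fun y => G x y ^ 2) ≤ Λ) :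
    avg (iv k m') (fun y => (a x y * G x y) ^ 2) ≤ h ^ 2 * Λ * id1 E x := by
  have h2 : avg (iv k m') (fun y => (a x y * G x y) ^ 2) ≤
      h ^ 2 * id1 E x * avg (iv k m') (fun y => G x y ^ 2) := by
    rw [← avg_const_mul]
    refine avg_le fun y _ => ?_
    have := pow_le_pow_left₀ (abs_nonneg (a x y)) (H.left hh x y) 2
    rw [sq_abs, mul_pow, id1_sq] at this
    rw [mul_pow]
    exact mul_le_mul_of_nonneg_right this (sq_nonneg _)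
  have := mul_le_mul_of_nonneg_left hG (mul_nonneg (sq_nonneg h) (id1_nonneg E x))
  linarith

end

end Vale.Agent.P141.H585
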