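import Vale.Agent.P141.H585.Alive

/-!
# P141, line W, end lemma: pointwise bounds on alive boxes, abstract sides

`J` is alive for `E` when `W² |E ∩ J| ≤ κ |J|`.  A function of size `h` carried by `E` has mean
square at most `h² κ / W²` on `J`; the product with a function whose line averages are at most `Λ`
has energy at most `h² (κ / W²) Λ` on `J × J'`.
-/

namespace Vale.Agent.P141.H585

open Finset
open Vale.Agent.P141.PL (iv)
open Vale.Agent.P141.PL.H315 (avg avg_nonneg)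

noncomputable section

/-- the side `J` is alive for the set `E` -/
def Al {X : Type*} [DecidableEq X] (W κ : ℝ) (E J : Finset X) : Prop :=
  W ^ 2 * ((E ∩ J).card : ℝ) ≤ κ * J.card

variable {X Y : Type*} [DecidableEq X]

theorem Al.mono {W κ κ' : ℝ} {E E' J : Finset X} (h : Al W κ E J) (hκ : κ ≤ κ') (hE : E' ⊆ E) :
    Al W κ' E' J := by
  unfold Al at h ⊢
  have h1 : ((E' ∩ J).card : ℝ) ≤ (E ∩ J).card := by
    exact_mod_cast card_le_card (inter_subset_inter_right hE)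
  calc W ^ 2 * ((E' ∩ J).card : ℝ) ≤ W ^ 2 * ((E ∩ J).card : ℝ) := by gcongr
    _ ≤ κ * J.card := h
    _ ≤ _ := by gcongr

/-- the mean of the indicator -/
theorem Al.mean_le {W κ : ℝ} (hW : 0 < W) (hκ : 0 ≤ κ) {E J : Finset X} (h : Al W κ E J) :
    avg J (fun x => if x ∈ E then (1 : ℝ) else 0) ≤ κ / W ^ 2 := by
  unfold avg
  rw [sum_boole]
  have e : (J.filter (· ∈ E)).card = (E ∩ J).card := by
    congr 1; ext x; rw [mem_filter, mem_inter, and_comm]
  rw [e]
  rcases J.eq_empty_or_nonempty with rfl | hJ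
  · simp only [card_empty, Nat.cast_zero, inv_zero, zero_mul]; positivity
  · have hc : (0 : ℝ) < J.card := by exact_mod_cast hJ.card_pos
    unfold Al at h
    rw [inv_mul_le_iff₀ hc, mul_div_assoc', le_div_iff₀ (by positivity)]
    linarith

/-- **One line.** -/
theorem Al.line {W κ h : ℝ} (hW : 0 < W) (hκ : 0 ≤ κ) {E J : Finset X} (H : Al W κ E J)
    {f : X → ℝ} (hs : ∀ x ∈ J, f x ≠ 0 → x ∈ E) (hh : ∀ x ∈ J, |f x| ≤ h) :
    avg J (fun x => f x ^ 2) ≤ h ^ 2 * (κ / W ^ 2) := by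
  have h1 : ∀ x ∈ J, f x ^ 2 ≤ h ^ 2 * (if x ∈ E then (1 : ℝ) else 0) := by
    intro x hx
    by_cases h0 : f x = 0
    · rw [h0]; split_ifs <;> nlinarith [sq_nonneg h]
    · rw [if_pos (hs x hx h0), mul_one, ← sq_abs]
      exact pow_le_pow_left₀ (abs_nonneg _) (hh x hx) 2
  refine (avg_le h1).trans ?_
  rw [avg_const_mul]
  exact mul_le_mul_of_nonneg_left (H.mean_le hW hκ) (sq_nonneg h)

/-- **One square**, the carrier in the first variable. -/
theorem Al.square {W κ h Λ : ℝ} (hW : 0 < W) (hκ : 0 ≤ κ) (hΛ : 0 ≤ Λ) {E J : Finset X}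
    (H : Al W κ E J) {J' : Finset Y} {f G : X → Y → ℝ}
    (hs : ∀ x ∈ J, ∀ y ∈ J', f x y ≠ 0 → x ∈ E) (hh : ∀ x ∈ J, ∀ y ∈ J', |f x y| ≤ h)
    (hG : ∀ x ∈ J, avg J' (fun y => G x y ^ 2) ≤ Λ) :
    avg J (fun x => avg J' fun y => (f x y * G x y) ^ 2) ≤ h ^ 2 * (κ / W ^ 2) * Λ := by
  have h1 : ∀ x ∈ J, avg J' (fun y => (f x y * G x y) ^ 2) ≤
      h ^ 2 * Λ * (if x ∈ E then (1 : ℝ) else 0) := by
    intro x hx
    by_cases hE : x ∈ E
    · rw [if_pos hE, mul_one]
      have h2 : avg J' (fun y => (f x y * G x y) ^ 2) ≤ avg J' (fun y => h ^ 2 * G x y ^ 2) := by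
        refine avg_le fun y hy => ?_
        rw [mul_pow, ← sq_abs (f x y)]
        exact mul_le_mul_of_nonneg_right (pow_le_pow_left₀ (abs_nonneg _) (hh x hx y hy) 2)
          (sq_nonneg _)
      rw [avg_const_mul] at h2
      exact h2.trans (mul_le_mul_of_nonneg_left (hG x hx) (sq_nonneg h))
    · rw [if_neg hE, mul_zero]
      refine le_of_eq ?_
      unfold avg
      rw [sum_eq_zero, mul_zero]
      intro y hy
      have : f x y = 0 := by
        by_contra h0; exact hE (hs x hx y hy h0)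
      rw [this, zero_mul]; norm_num
  refine (avg_le h1).trans ?_
  rw [avg_const_mul]
  have := mul_le_mul_of_nonneg_left (H.mean_le hW hκ) (mul_nonneg (sq_nonneg h) hΛ)
  linarith

/-- one row of the square -/
theorem row_le {h Λ : ℝ} {J' : Finset Y} {E : Finset X} {f G : X → Y → ℝ} (x : X)
    (hs : ∀ y ∈ J', f x y ≠ 0 → x ∈ E) (hh : ∀ y ∈ J', |f x y| ≤ h)
    (hG : avg J' (fun y => G x y ^ 2) ≤ Λ) :
    avg J' (fun y => (f x y * G x y) ^ 2) ≤ h ^ 2 * Λ * (if x ∈ E then (1 : ℝ) else 0) := by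
  by_cases hE : x ∈ E
  · rw [if_pos hE, mul_one]
    have h2 : avg J' (fun y => (f x y * G x y) ^ 2) ≤ avg J' (fun y => h ^ 2 * G x y ^ 2) := by
      refine avg_le fun y hy => ?_
      rw [mul_pow, ← sq_abs (f x y)]
      exact mul_le_mul_of_nonneg_right (pow_le_pow_left₀ (abs_nonneg _) (hh y hy) 2)
        (sq_nonneg _)
    rw [avg_const_mul] at h2
    exact h2.trans (mul_le_mul_of_nonneg_left hG (sq_nonneg h))
  · rw [if_neg hE, mul_zero]
    refine le_of_eq ?_
    unfold avg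
    rw [sum_eq_zero, mul_zero]
    intro y hy
    have : f x y = 0 := by
      by_contra h0; exact hE (hs y hy h0)
    rw [this, zero_mul]; norm_num

/-- `Al` on a dyadic interval is a bound for the density -/
theorem al_iv {W κ : ℝ} (hW : 0 < W) {E : Finset ℤ} {k : ℕ} {m : ℤ} :
    Al W κ E (iv k m) ↔ dn E k m ≤ κ / W ^ 2 := by
  unfold Al
  have e : ((iv k m).filter (· ∈ E)) = E ∩ iv k m := by
    ext x; rw [mem_filter, mem_inter, and_comm]
  rw [dn_eq, e, Vale.Agent.P141.PL.card_iv, inv_mul_le_iff₀ (by positivity), mul_div_assoc',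
    le_div_iff₀ (by positivity)]
  push_cast
  constructor <;> intro h <;> linarith

/-- a cube is bad exactly when one of its sides is not alive -/
theorem bd_iff_al {W κ : ℝ} (hW : 0 < W) {E1 E2 E3 : Finset ℤ} {k : ℕ} {m : PL.Pt} :
    Bd (κ / W ^ 2) E1 E2 E3 k m ↔
      ¬ (Al W κ E1 (iv k m.1) ∧ Al W κ E2 (iv k m.2.1) ∧ Al W κ E3 (iv k m.2.2)) := by
  rw [al_iv hW, al_iv hW, al_iv hW]
  unfold Bd
  constructor
  · rintro (h | h | h) ⟨h1, h2, h3⟩ <;> linarith
  · intro h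
    by_contra h'
    push Not at h'
    exact h ⟨h'.1, h'.2.1, h'.2.2⟩

/-- an alive cube has three alive sides, at every scale up to the root -/
theorem Alv.al {W κ : ℝ} (hW : 0 < W) {E1 E2 E3 : Finset ℤ} {L k : ℕ} {x : PL.Pt}
    (h : Alv (κ / W ^ 2) E1 E2 E3 L k x) {j : ℕ} (hk : k ≤ j) (hj : j ≤ L) :
    Al W κ E1 (iv j (PL.ix j x.1)) ∧ Al W κ E2 (iv j (PL.ix j x.2.1)) ∧
      Al W κ E3 (iv j (PL.ix j x.2.2)) :=
  ⟨(al_iv hW).mpr (h.dn1 hk hj), (al_iv hW).mpr (h.dn2 hk hj), (al_iv hW).mpr (h.dn3 hk hj)⟩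

end

end Vale.Agent.P141.H585
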