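import Mathlib.Algebra.Order.BigOperators.Group.Finset
import Mathlib.Data.Finset.Prod
import Mathlib.Data.Real.Basic
import Mathlib.Algebra.BigOperators.Ring.Finset

/-!
# P141, line W, end lemma: counting over pairwise disjoint boxes
-/

namespace Vale.Agent.P141.H585

open Finset

/-- **Counting over disjoint boxes.** The sum over pairwise disjoint boxes of the products of the
three sections is at most the product of the three sets. -/
theorem count_box {ι α β γ : Type*} [DecidableEq α] [DecidableEq β] [DecidableEq γ]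
    (QQ : Finset ι) (J1 : ι → Finset α) (J2 : ι → Finset β) (J3 : ι → Finset γ)
    (hd : ∀ i ∈ QQ, ∀ j ∈ QQ, i ≠ j →
      Disjoint (J1 i ×ˢ J2 i ×ˢ J3 i) (J1 j ×ˢ J2 j ×ˢ J3 j))
    (E1 : Finset α) (E2 : Finset β) (E3 : Finset γ) :
    ∑ i ∈ QQ, ((E1 ∩ J1 i).card : ℝ) * (E2 ∩ J2 i).card * (E3 ∩ J3 i).card ≤
      (E1.card : ℝ) * E2.card * E3.card := by
  have h1 : ∑ i ∈ QQ, (E1 ∩ J1 i).card * (E2 ∩ J2 i).card * (E3 ∩ J3 i).card ≤
      E1.card * E2.card * E3.card := by
    have h2 : ∀ i, (E1 ∩ J1 i).card * (E2 ∩ J2 i).card * (E3 ∩ J3 i).card =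
        ((E1 ∩ J1 i) ×ˢ (E2 ∩ J2 i) ×ˢ (E3 ∩ J3 i)).card := by
      intro i; rw [card_product, card_product, mul_assoc]
    have h3 : E1.card * E2.card * E3.card = (E1 ×ˢ E2 ×ˢ E3).card := by
      rw [card_product, card_product, mul_assoc]
    rw [h3, sum_congr rfl fun i _ => h2 i, ← card_biUnion]
    · refine card_le_card ?_
      rw [biUnion_subset]
      intro i _
      exact product_subset_product inter_subset_left
        (product_subset_product inter_subset_left inter_subset_left)
    · intro i hi j hj hij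
      exact (hd i hi j hj hij).mono
        (product_subset_product inter_subset_right
          (product_subset_product inter_subset_right inter_subset_right))
        (product_subset_product inter_subset_right
          (product_subset_product inter_subset_right inter_subset_right))
  exact_mod_cast h1

/-- the sum over pairwise disjoint sets inside `Q` of sums of a nonnegative function -/
theorem sum_box {ι X : Type*} [DecidableEq X] (QQ : Finset ι) (J : ι → Finset X) {Q : Finset X}
    (hd : ∀ i ∈ QQ, ∀ j ∈ QQ, i ≠ j → Disjoint (J i) (J j)) (hs : ∀ i ∈ QQ, J i ⊆ Q)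
    {F : X → ℝ} (hF : ∀ x ∈ Q, 0 ≤ F x) : ∑ i ∈ QQ, ∑ x ∈ J i, F x ≤ ∑ x ∈ Q, F x := by
  rw [← sum_biUnion fun i hi j hj h => hd i hi j hj h]
  exact sum_le_sum_of_subset_of_nonneg (biUnion_subset.mpr hs) fun p hp _ => hF p hp

end Vale.Agent.P141.H585
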