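import Vale.Agent.P141.H606.Fib
import Vale.Agent.P141.H606.Reg

/-!
# P141, line W, end lemma: the family of a tree cut by the used cells

`cutA A V`: the family `A` on the used cells, empty elsewhere.  If the masses are at most `L` on the
used cells then they are at most `2 L` everywhere for the cut family (`tree1_cut`), and its dropped
mass is at most the dropped mass on the used cells plus `2 L` times the length of the root
(`DR_cut_le`): the exits are disjoint (`exits_le`).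
-/

namespace Vale.Agent.P141.H585

open Finset
open Vale.Agent.P141.PL.H315 (avg avg_nonneg)
open Vale.Agent.P141.H337 (ivm mem_ivm card_ivm cel card_cel ms ms_nonneg dm sum_pairs)
open Vale.Agent.P141.H606 (Tree1 DR DRV TC)

noncomputable section

/-- the family cut by the used cells -/
def cutA {Ω : Type*} (A : ℕ → ℤ → Finset Ω) (V : ℕ → Finset ℤ) (k : ℕ) (b : ℤ) : Finset Ω :=
  if b ∈ V k then A k b else ∅

/-- a half of an interval -/
theorem avg_half {k : ℕ} {b : ℤ} {f : ℤ → ℝ} (hf : ∀ x, 0 ≤ f x) :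
    avg (ivm k b) f ≤ 2 * avg (ivm (k + 1) (b / 2)) f := by
  have hsub : ivm k b ⊆ ivm (k + 1) (b / 2) := by
    intro x hx
    unfold ivm at hx ⊢
    rw [mem_Ico] at hx ⊢
    have h1 := Int.mul_ediv_add_emod b 2
    have h2 := Int.emod_nonneg b (by norm_num : (2 : ℤ) ≠ 0)
    have h3 := Int.emod_lt_of_pos b (by norm_num : (0 : ℤ) < 2)
    have h4 : (0 : ℤ) < 2 ^ k := by positivity
    rw [pow_succ]
    constructor <;> nlinarith [hx.1, hx.2]
  unfold avg
  rw [card_ivm, card_ivm]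
  have h1 : ∑ x ∈ ivm k b, f x ≤ ∑ x ∈ ivm (k + 1) (b / 2), f x :=
    sum_le_sum_of_subset_of_nonneg hsub fun x _ _ => hf x
  have h2 : (0 : ℝ) < 2 ^ k := by positivity
  push_cast
  rw [pow_succ, mul_inv]
  have h3 : 0 ≤ ((2 : ℝ) ^ k)⁻¹ := by positivity
  have h4 := mul_le_mul_of_nonneg_left h1 h3
  linarith

variable {Ω : Type*}

theorem ms_half (c : Ω → ℤ → ℝ) (D : Finset Ω) (k : ℕ) (b : ℤ) :
    ms c D (ivm k b) ≤ 2 * ms c D (ivm (k + 1) (b / 2)) := by
  unfold ms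
  rw [mul_sum]
  exact sum_le_sum fun i _ => avg_half fun x => sq_nonneg _

/-- the sum over a scale in terms of the next scale -/
theorem sum_cel_pairs {K : ℕ} {b0 : ℤ} {k : ℕ} (hk : k < K) (F : ℤ → ℝ) :
    ∑ b ∈ cel K b0 k, F b = ∑ b ∈ cel K b0 (k + 1), (F (2 * b) + F (2 * b + 1)) := by
  have e1 : K - k = (K - (k + 1)) + 1 := by omega
  unfold cel
  rw [e1, pow_succ, mul_comm ((2 : ℤ) ^ (K - (k + 1))) 2, mul_assoc, mul_assoc]
  exact sum_pairs _ _ F

/-- **The exits are disjoint.** -/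
theorem exits_le {K : ℕ} {b0 : ℤ} {V : ℕ → Finset ℤ}
    (hV : ∀ k < K, ∀ b ∈ cel K b0 k, b ∈ V k → b / 2 ∈ V (k + 1)) :
    ∑ k ∈ range K, ∑ b ∈ cel K b0 k, (if b ∉ V k ∧ b / 2 ∈ V (k + 1) then (2 : ℝ) ^ k else 0) ≤
      2 ^ K := by
  set f : ℕ → ℝ := fun k => 2 ^ k * ∑ b ∈ cel K b0 k, if b ∈ V k then (1 : ℝ) else 0 with hf
  have h1 : ∀ k ∈ range K,
      ∑ b ∈ cel K b0 k, (if b ∉ V k ∧ b / 2 ∈ V (k + 1) then (2 : ℝ) ^ k else 0) =
        f (k + 1) - f k := by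
    intro k hk
    rw [mem_range] at hk
    have h2 : ∀ b ∈ cel K b0 k, (if b ∉ V k ∧ b / 2 ∈ V (k + 1) then (2 : ℝ) ^ k else 0) =
        2 ^ k * (if b / 2 ∈ V (k + 1) then (1 : ℝ) else 0) -
          2 ^ k * (if b ∈ V k then (1 : ℝ) else 0) := by
      intro b hb
      by_cases hb1 : b ∈ V k
      · have hb2 := hV k hk b hb hb1
        simp [hb1, hb2]
      · by_cases hb2 : b / 2 ∈ V (k + 1) <;> simp [hb1, hb2]
    rw [sum_congr rfl h2, sum_sub_distrib, ← mul_sum, ← mul_sum,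
      sum_cel_pairs hk fun b => if b / 2 ∈ V (k + 1) then (1 : ℝ) else 0]
    have h3 : ∀ b ∈ cel K b0 (k + 1), ((if (2 * b) / 2 ∈ V (k + 1) then (1 : ℝ) else 0) +
        if (2 * b + 1) / 2 ∈ V (k + 1) then (1 : ℝ) else 0) =
        2 * (if b ∈ V (k + 1) then (1 : ℝ) else 0) := by
      intro b _
      have e1 : (2 * b) / 2 = b := by omega
      have e2 : (2 * b + 1) / 2 = b := by omega
      rw [e1, e2]; ring
    rw [sum_congr rfl h3, ← mul_sum, hf]
    simp only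
    rw [pow_succ]; ring
  rw [sum_congr rfl h1, sum_range_sub]
  have h4 : 0 ≤ f 0 := by
    rw [hf]
    exact mul_nonneg (by positivity) (sum_nonneg fun b _ => by split_ifs <;> norm_num)
  have h5 : f K ≤ 2 ^ K := by
    rw [hf]
    simp only
    have h6 : ∑ b ∈ cel K b0 K, (if b ∈ V K then (1 : ℝ) else 0) ≤ 1 := by
      unfold cel
      rw [Nat.sub_self, pow_zero, one_mul, one_mul]
      have : Ico b0 (b0 + 1) = {b0} := by
        ext y; simp only [mem_Ico, mem_singleton]; omega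
      rw [this, sum_singleton]
      split_ifs <;> norm_num
    have := mul_le_mul_of_nonneg_left h6 (by positivity : (0 : ℝ) ≤ 2 ^ K)
    linarith
  linarith

variable [DecidableEq Ω]

/-- **the cut family on the whole tree** -/
theorem tree1_cut {e L : ℝ} {c : Ω → ℤ → ℝ} {A : ℕ → ℤ → Finset Ω} {X h : ℕ → ℤ → ℝ} {K : ℕ}
    {b0 : ℤ} {V T : ℕ → Finset ℤ} (e0 : 0 ≤ e) (L0 : 0 ≤ L)
    (hh : ∀ k < K, ∀ b ∈ cel K b0 (k + 1), (∀ x ∈ ivm k (2 * b), h (k + 1) x = 1) ∧
      ∀ x ∈ ivm k (2 * b + 1), h (k + 1) x = -1)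
    (hX : ∀ k ≤ K, ∀ b ∈ cel K b0 k, avg (ivm k b) (fun x => X k x ^ 2) ≤ e)
    (hX' : ∀ k < K, ∀ b ∈ cel K b0 k, avg (ivm k b) (fun x => X (k + 1) x ^ 2) ≤ e)
    (hT : ∀ k < K, ∀ b ∈ cel K b0 k, b ∉ T k → ∀ x ∈ ivm k b, X (k + 1) x = X k x)
    (hL : ∀ k ≤ K, ∀ b ∈ cel K b0 k, b ∈ V k → ms c (A k b) (ivm k b) ≤ L) :
    Tree1 e (2 * L) c (cutA A V) X h K b0 T where
  e0 := e0
  hh := hh
  hX := hX
  hX' := hX'
  hT := hT
  hL k hk b hb := by
    unfold cutA
    split_ifs with h1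
    · exact (hL k hk b hb h1).trans (by linarith)
    · unfold ms; rw [sum_empty]; positivity
  hL' k hk b hb := by
    unfold cutA
    split_ifs with h1
    · have h2 := hL (k + 1) (by omega) (b / 2) (Vale.Agent.P141.H606.cel_parent hk hb) h1
      have h3 := ms_half c (A (k + 1) (b / 2)) k b
      linarith
    · unfold ms; rw [sum_empty]; positivity

/-- **the dropped mass of the cut family** -/
theorem DR_cut_le {L : ℝ} {c : Ω → ℤ → ℝ} {A : ℕ → ℤ → Finset Ω} {K : ℕ} {b0 : ℤ}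
    {V : ℕ → Finset ℤ} (L0 : 0 ≤ L)
    (hV : ∀ k < K, ∀ b ∈ cel K b0 k, b ∈ V k → b / 2 ∈ V (k + 1))
    (hL : ∀ k ≤ K, ∀ b ∈ cel K b0 k, b ∈ V k → ms c (A k b) (ivm k b) ≤ L) :
    DR c (cutA A V) K b0 ≤ DRV c A V K b0 + 2 * L * 2 ^ K := by
  have h0 := mul_le_mul_of_nonneg_left (exits_le hV) (by positivity : 0 ≤ 2 * L)
  refine le_trans ?_ (add_le_add_right h0 _)
  unfold DR DRV
  rw [mul_sum, ← sum_add_distrib]
  refine sum_le_sum fun k hk => ?_
  rw [mem_range] at hk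
  rw [mul_sum, sum_filter, ← sum_add_distrib]
  refine sum_le_sum fun b hb => ?_
  have hd : 0 ≤ (2 : ℝ) ^ k * dm c A k b := mul_nonneg (by positivity) (ms_nonneg _ _ _)
  by_cases h1 : b / 2 ∈ V (k + 1)
  · by_cases h2 : b ∈ V k
    · have h3 : dm c (cutA A V) k b = dm c A k b := by
        unfold dm cutA; rw [if_pos h1, if_pos h2]
      rw [h3, if_pos h2]
      have : ¬ (b ∉ V k ∧ b / 2 ∈ V (k + 1)) := fun h => h.1 h2
      rw [if_neg this, mul_zero, add_zero]
    · have h3 : dm c (cutA A V) k b = ms c (A (k + 1) (b / 2)) (ivm k b) := by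
        unfold dm cutA; rw [if_pos h1, if_neg h2, sdiff_empty]
      have h4 := ms_half c (A (k + 1) (b / 2)) k b
      have h5 := hL (k + 1) (by omega) (b / 2) (Vale.Agent.P141.H606.cel_parent hk hb) h1
      rw [h3, if_neg h2, if_pos ⟨h2, h1⟩, zero_add]
      have h6 : ms c (A (k + 1) (b / 2)) (ivm k b) ≤ 2 * L := by linarith
      have h7 := mul_le_mul_of_nonneg_left h6 (by positivity : (0 : ℝ) ≤ 2 ^ k)
      linarith
  · have h3 : dm c (cutA A V) k b = 0 := by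
      unfold dm cutA ms
      rw [if_neg h1, empty_sdiff, sum_empty]
    rw [h3, mul_zero]
    have h4 : 0 ≤ 2 * L * (if b ∉ V k ∧ b / 2 ∈ V (k + 1) then (2 : ℝ) ^ k else 0) := by
      split_ifs <;> positivity
    have h5 : 0 ≤ if b ∈ V k then (2 : ℝ) ^ k * dm c A k b else 0 := by
      split_ifs
      exacts [hd, le_rfl]
    linarith

omit [DecidableEq Ω] in
/-- the exact set of a used box stays inside the cut family -/
theorem sub_cutA {A : ℕ → ℤ → Finset Ω} {V : ℕ → Finset ℤ} {k : ℕ} {b : ℤ} {S : Finset Ω}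
    (hb : b ∈ V k) (h : S ⊆ A k b) : S ⊆ cutA A V k b := by
  unfold cutA; rwa [if_pos hb]

end

end Vale.Agent.P141.H585
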