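import Vale.Agent.P141.H585.Ev

/-!
# P141, line W, end lemma: the events of the moving edges, sums over the offsets and the face

`ev_face12`, `ev_face13`, `ev_face23`: the sum over the scales `k < K`, the offsets `θ` in the plane
`el c θ = 0` and the points `(x, y)` of a face of a cube of the squares of the old edge
`uT K q θ (mnA θ₀ E1 E2 E3 K (k + 1) v)` at the points whose square of scale `k` is an event square
is at most `12 h² |E_i| |E_j| 4 ^ K`.
-/

namespace Vale.Agent.P141.H585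

open Finset
open Vale.Agent.P141.PL (iv ix Pt cb cx mem_iv mem_cb card_iv card_cb ix_ix el)
open Vale.Agent.P141.PL.H315 (Tri)
open Vale.Agent.P141.H829 (ind ind_mem ind_not rst abs_rst_le rst_ne rs3)
open Vale.Agent.P141.H911 (uT Th el_of_mem inj12 inj13 inj23)

noncomputable section

variable {θ : ℝ} {E E' : Finset ℤ} {K k : ℕ} {t t' n m : ℤ}

/-- the points of the old carrier near a stop of scale `k` -/
def nr (θ : ℝ) (E : Finset ℤ) (K k : ℕ) : Finset ℤ := by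
  classical
  exact (lvS θ E K (k + 1)).filter fun w => ∃ y ∈ dd θ E K k, ix k w - ix k y ∈ ({-1, 0, 1} : Finset ℤ)

theorem mem_nr {w : ℤ} : w ∈ nr θ E K k ↔ w ∈ lvS θ E K (k + 1) ∧
    ∃ y ∈ dd θ E K k, ix k w - ix k y ∈ ({-1, 0, 1} : Finset ℤ) := by
  classical
  unfold nr; rw [mem_filter]

theorem mem_nr_of_evt {x : ℤ} (h : evt θ E K t k (ix k x)) (hx : x + t ∈ lvS θ E K (k + 1)) :
    x + t ∈ nr θ E K k := by
  obtain ⟨x0, hx0, h2, h3⟩ := h
  rw [mem_nr]
  refine ⟨hx, x0 + t, by unfold dd; exact mem_sdiff.mpr ⟨h2, h3⟩, ?_⟩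
  have h2k : (0 : ℤ) < 2 ^ k := by positivity
  have hx1 : x ∈ iv k (ix k x) := PL.self_mem_iv k x
  unfold iv at hx1 hx0
  rw [mem_Ico] at hx1 hx0
  have e1 := Int.mul_ediv_add_emod (x + t) (2 ^ k)
  have e2 := Int.emod_nonneg (x + t) h2k.ne'
  have e3 := Int.emod_lt_of_pos (x + t) h2k
  have e4 := Int.mul_ediv_add_emod (x0 + t) (2 ^ k)
  have e5 := Int.emod_nonneg (x0 + t) h2k.ne'
  have e6 := Int.emod_lt_of_pos (x0 + t) h2k
  have h7 : ix k (x + t) = (x + t) / 2 ^ k := rfl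
  have h8 : ix k (x0 + t) = (x0 + t) / 2 ^ k := rfl
  rw [h7, h8]
  set a := (x + t) / 2 ^ k
  set b := (x0 + t) / 2 ^ k
  have g1 : 2 ^ k * (a - b) < 2 * 2 ^ k := by nlinarith
  have g2 : -(2 * 2 ^ k) < 2 ^ k * (a - b) := by nlinarith
  have g3 : a - b < 2 := by
    by_contra h; push Not at h; nlinarith
  have g4 : -2 < a - b := by
    by_contra h; push Not at h; nlinarith
  simp only [mem_insert, mem_singleton]
  omega

/-- **the points near the stops of one scale** -/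
theorem card_nr_le (hθ : 0 ≤ θ) (hk : k < K) :
    ((nr θ E K k).card : ℝ) ≤ 6 * ((dd θ E K k).card : ℝ) := by
  classical
  set S := (dd θ E K k).image (ix k) with hS
  set D : Finset ℤ := {-1, 0, 1} with hD
  have h1 : ((nr θ E K k).card : ℝ) ≤
      ∑ s ∈ S, ∑ d ∈ D, ∑ y ∈ iv k (s + d), id1 (lvS θ E K (k + 1)) y := by
    have h2 : nr θ E K k ⊆ S.biUnion fun s => D.biUnion fun d =>
        (iv k (s + d)).filter (· ∈ lvS θ E K (k + 1)) := by
      intro w hw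
      obtain ⟨hw1, y, hy, hd⟩ := mem_nr.mp hw
      rw [mem_biUnion]
      refine ⟨ix k y, mem_image_of_mem _ hy, ?_⟩
      rw [mem_biUnion]
      refine ⟨ix k w - ix k y, hd, ?_⟩
      rw [mem_filter, mem_iv]
      exact ⟨by ring, hw1⟩
    have h3 : ∀ s d, ∑ y ∈ iv k (s + d), id1 (lvS θ E K (k + 1)) y =
        (((iv k (s + d)).filter (· ∈ lvS θ E K (k + 1))).card : ℝ) := by
      intro s d
      unfold id1
      rw [sum_boole]
    simp only [h3]
    have h4 := (card_le_card h2).trans card_biUnion_le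
    have h5 : ∑ s ∈ S, (D.biUnion fun d =>
        (iv k (s + d)).filter (· ∈ lvS θ E K (k + 1))).card ≤
        ∑ s ∈ S, ∑ d ∈ D, ((iv k (s + d)).filter (· ∈ lvS θ E K (k + 1))).card :=
      sum_le_sum fun s _ => card_biUnion_le
    exact_mod_cast h4.trans h5
  refine h1.trans ?_
  have h3 : ∀ s ∈ S, ∑ d ∈ D, ∑ y ∈ iv k (s + d), id1 (lvS θ E K (k + 1)) y ≤
      6 * (θ * 2 ^ k) := by
    intro s _
    refine (sum_le_card_nsmul _ _ _ fun d _ => sum_iv_lvS_le hθ hk (s + d)).trans ?_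
    have hc : D.card ≤ 3 := by rw [hD]; decide
    have hp : 0 ≤ 2 * (θ * 2 ^ k) := by positivity
    rw [nsmul_eq_mul]
    have : (D.card : ℝ) ≤ 3 := by exact_mod_cast hc
    nlinarith
  refine (sum_le_sum h3).trans ?_
  have h4 : ∀ s ∈ S, 6 * (θ * 2 ^ k) ≤ 6 * (((dd θ E K k).filter fun y => ix k y = s).card : ℝ) := by
    intro s hs
    obtain ⟨y, hy, rfl⟩ := mem_image.mp hs
    have h5 := dense_of_dd hy
    rw [dn_eq, lt_inv_mul_iff₀ (by positivity)] at h5
    have h6 : (iv k (ix k y)).filter (· ∈ E) ⊆ (dd θ E K k).filter fun z => ix k z = ix k y := by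
      intro z hz
      rw [mem_filter] at hz ⊢
      have := mem_iv.mp hz.1
      exact ⟨dd_of_same hk.le hy hz.2 this, this⟩
    have h7 : (((iv k (ix k y)).filter (· ∈ E)).card : ℝ) ≤
        ((dd θ E K k).filter fun z => ix k z = ix k y).card := by
      exact_mod_cast card_le_card h6
    linarith
  refine (sum_le_sum h4).trans ?_
  rw [← mul_sum]
  have h5 : ∑ s ∈ S, (((dd θ E K k).filter fun y => ix k y = s).card : ℝ) =
      ((dd θ E K k).card : ℝ) := by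
    rw [card_eq_sum_card_image (ix k) (dd θ E K k)]
    push_cast; rfl
  rw [h5]

theorem sum_nr_le (hθ : 0 ≤ θ) : ∑ k ∈ range K, ((nr θ E K k).card : ℝ) ≤ 6 * (E.card : ℝ) := by
  refine (sum_le_sum fun k hk => card_nr_le hθ (mem_range.mp hk)).trans ?_
  rw [← mul_sum]
  exact mul_le_mul_of_nonneg_left (sum_dd_le θ E K) (by norm_num)

/-- a sum over offsets which are determined by two coordinates -/
theorem sum_two_le {T : Finset Pt} {πi πj : Pt → ℤ}
    (hinj : Set.InjOn (fun τ => (πi τ, πj τ)) T) (F F' : Finset ℤ) (x y : ℤ) :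
    ∑ τ ∈ T, id1 F (x + πi τ) * id1 F' (y + πj τ) ≤ (F.card : ℝ) * F'.card := by
  classical
  have h1 : ∑ τ ∈ T, id1 F (x + πi τ) * id1 F' (y + πj τ) =
      ((T.filter fun τ => x + πi τ ∈ F ∧ y + πj τ ∈ F').card : ℝ) := by
    rw [← sum_boole]
    refine sum_congr rfl fun τ _ => ?_
    unfold id1
    by_cases h1 : x + πi τ ∈ F
    · by_cases h2 : y + πj τ ∈ F'
      · simp only [h1, h2, and_self, if_true, mul_one]
      · simp only [h2, and_false, if_false, mul_zero]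
    · simp only [h1, false_and, if_false, zero_mul]
  rw [h1]
  have h2 : (T.filter fun τ => x + πi τ ∈ F ∧ y + πj τ ∈ F').card ≤ (F ×ˢ F').card := by
    refine card_le_card_of_injOn (fun τ => (x + πi τ, y + πj τ)) ?_ ?_
    · intro τ hτ
      have := (mem_filter.mp (mem_coe.mp hτ)).2
      exact mem_coe.mpr (mem_product.mpr this)
    · intro τ hτ τ' hτ' he
      have e1 := (mem_filter.mp (mem_coe.mp hτ)).1
      have e2 := (mem_filter.mp (mem_coe.mp hτ')).1
      refine hinj e1 e2 ?_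
      simp only [Prod.mk.injEq, add_right_inj] at he
      exact Prod.ext he.1 he.2
  rw [card_product] at h2
  exact_mod_cast h2

open Classical in
/-- **The events, summed over the offsets and a face.** -/
theorem ev_face (hθ : 0 ≤ θ) {T : Finset Pt} {πi πj : Pt → ℤ}
    (hinj : Set.InjOn (fun τ => (πi τ, πj τ)) T) {h : ℝ} {d : ℤ × ℤ → ℝ} (hd : ∀ r, |d r| ≤ h)
    {A : ℕ → Pt → ℤ → ℤ → ℝ} (hA : ∀ k < K, ∀ τ ∈ T, ∀ x y, |A k τ x y| ≤
      |rst (lvS θ E K (k + 1)) (lvS θ E' K (k + 1)) d (x + πi τ, y + πj τ)|) (X Y : Finset ℤ) :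
    ∑ k ∈ range K, ∑ τ ∈ T, ∑ x ∈ X, ∑ y ∈ Y,
      (if evt θ E K (πi τ) k (ix k x) ∨ evt θ E' K (πj τ) k (ix k y) then A k τ x y ^ 2 else 0) ≤
      12 * h ^ 2 * ((E.card : ℝ) * E'.card) * ((X.card : ℝ) * Y.card) := by
  have h0 : 0 ≤ h := (abs_nonneg _).trans (hd (0, 0))
  have hE : (0 : ℝ) ≤ E.card := Nat.cast_nonneg _
  have hE' : (0 : ℝ) ≤ E'.card := Nat.cast_nonneg _
  -- pointwise
  have pt : ∀ k ∈ range K, ∀ τ ∈ T, ∀ x y,
      (if evt θ E K (πi τ) k (ix k x) ∨ evt θ E' K (πj τ) k (ix k y) then A k τ x y ^ 2 else 0) ≤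
      h ^ 2 * (id1 (nr θ E K k) (x + πi τ) * id1 E' (y + πj τ)) +
        h ^ 2 * (id1 E (x + πi τ) * id1 (nr θ E' K k) (y + πj τ)) := by
    intro k hk τ hτ x y
    have n1 : 0 ≤ h ^ 2 * (id1 (nr θ E K k) (x + πi τ) * id1 E' (y + πj τ)) :=
      mul_nonneg (sq_nonneg _) (mul_nonneg (id1_nonneg _ _) (id1_nonneg _ _))
    have n2 : 0 ≤ h ^ 2 * (id1 E (x + πi τ) * id1 (nr θ E' K k) (y + πj τ)) :=
      mul_nonneg (sq_nonneg _) (mul_nonneg (id1_nonneg _ _) (id1_nonneg _ _))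
    split_ifs with hev
    · have a1 := hA k (mem_range.mp hk) τ hτ x y
      by_cases hz : rst (lvS θ E K (k + 1)) (lvS θ E' K (k + 1)) d (x + πi τ, y + πj τ) = 0
      · rw [hz, abs_zero] at a1
        have : A k τ x y = 0 := abs_nonpos_iff.mp a1
        rw [this]; nlinarith
      · obtain ⟨m1, m2⟩ := rst_ne hz
        have a2 : A k τ x y ^ 2 ≤ h ^ 2 := by
          rw [← sq_abs]
          exact pow_le_pow_left₀ (abs_nonneg _)
            (a1.trans ((abs_rst_le _ _ _ _).trans (hd _))) 2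
        have i1 : id1 E (x + πi τ) = 1 := by unfold id1; rw [if_pos (lvS_sub _ _ _ _ m1)]
        have i2 : id1 E' (y + πj τ) = 1 := by unfold id1; rw [if_pos (lvS_sub _ _ _ _ m2)]
        rcases hev with hev | hev
        · have i3 : id1 (nr θ E K k) (x + πi τ) = 1 := by
            unfold id1; rw [if_pos (mem_nr_of_evt hev m1)]
          rw [i3, i2, one_mul, mul_one]
          linarith
        · have i3 : id1 (nr θ E' K k) (y + πj τ) = 1 := by
            unfold id1; rw [if_pos (mem_nr_of_evt hev m2)]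
          rw [i3, i1, one_mul, mul_one]
          linarith
    · linarith
  have step : ∀ k ∈ range K, ∑ τ ∈ T, ∑ x ∈ X, ∑ y ∈ Y,
      (if evt θ E K (πi τ) k (ix k x) ∨ evt θ E' K (πj τ) k (ix k y) then A k τ x y ^ 2 else 0) ≤
      ((X.card : ℝ) * Y.card) * (h ^ 2 * (((nr θ E K k).card : ℝ) * E'.card) +
        h ^ 2 * ((E.card : ℝ) * (nr θ E' K k).card)) := by
    intro k hk
    refine (sum_le_sum fun τ hτ => sum_le_sum fun x _ => sum_le_sum fun y _ =>
      pt k hk τ hτ x y).trans ?_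
    rw [sum_comm]
    have s1 : ∀ x ∈ X, ∑ τ ∈ T, ∑ y ∈ Y,
        (h ^ 2 * (id1 (nr θ E K k) (x + πi τ) * id1 E' (y + πj τ)) +
        h ^ 2 * (id1 E (x + πi τ) * id1 (nr θ E' K k) (y + πj τ))) ≤
        (Y.card : ℝ) * (h ^ 2 * (((nr θ E K k).card : ℝ) * E'.card) +
        h ^ 2 * ((E.card : ℝ) * (nr θ E' K k).card)) := by
      intro x _
      rw [sum_comm]
      refine (sum_le_card_nsmul _ _ _ fun y _ => ?_).trans (le_of_eq (nsmul_eq_mul _ _))
      rw [sum_add_distrib, ← mul_sum, ← mul_sum]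
      exact add_le_add
        (mul_le_mul_of_nonneg_left (sum_two_le hinj _ _ _ _) (sq_nonneg h))
        (mul_le_mul_of_nonneg_left (sum_two_le hinj _ _ _ _) (sq_nonneg h))
    refine (sum_le_card_nsmul _ _ _ s1).trans (le_of_eq ?_)
    rw [nsmul_eq_mul]; ring
  refine (sum_le_sum step).trans ?_
  rw [← mul_sum, sum_add_distrib, ← mul_sum, ← mul_sum, ← sum_mul, ← mul_sum]
  have c1 := sum_nr_le (E := E) (K := K) hθ
  have c2 := sum_nr_le (E := E') (K := K) hθ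
  have hXY : (0 : ℝ) ≤ (X.card : ℝ) * Y.card := by positivity
  calc (X.card : ℝ) * Y.card * (h ^ 2 * ((∑ k ∈ range K, ((nr θ E K k).card : ℝ)) * E'.card) +
        h ^ 2 * ((E.card : ℝ) * ∑ k ∈ range K, ((nr θ E' K k).card : ℝ)))
      ≤ (X.card : ℝ) * Y.card * (h ^ 2 * (6 * E.card * E'.card) +
        h ^ 2 * ((E.card : ℝ) * (6 * E'.card))) := by
        refine mul_le_mul_of_nonneg_left (add_le_add ?_ ?_) hXY
        · exact mul_le_mul_of_nonneg_left (mul_le_mul_of_nonneg_right c1 hE') (sq_nonneg h)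
        · exact mul_le_mul_of_nonneg_left (mul_le_mul_of_nonneg_left c2 hE) (sq_nonneg h)
    _ = _ := by ring

theorem abs_cs_le (Q : Finset (ℤ × ℤ)) (s : ℤ × ℤ) (f : ℤ × ℤ → ℝ) (x y : ℤ) :
    |PL.H560.cs Q s f (x, y)| ≤ |f (x + s.1, y + s.2)| := by
  by_cases hx : (((x, y) : ℤ × ℤ).1 + s.1, ((x, y) : ℤ × ℤ).2 + s.2) ∈ Q
  · rw [PL.H560.cs_of_mem hx]
  · rw [PL.H560.cs_of_not_mem hx, abs_zero]; exact abs_nonneg _

variable {κ : ℝ} {q : Pt} {u v : Tri} {E1 E2 E3 : Finset ℤ}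

open Classical in
/-- **38's form (iv)**, edge `12` -/
theorem ev_face12 {c : Pt} (hc : c.2.2 ≠ 0) (hθ : 0 ≤ θ) (hv : VC κ K q u v E1 E2 E3) (p : Pt) :
    ∑ k ∈ range K, ∑ τ ∈ Th c K p q, ∑ x ∈ iv K (ix K p.1), ∑ y ∈ iv K (ix K p.2.1),
      (if evt θ E1 K τ.1 k (ix k x) ∨ evt θ E2 K τ.2.1 k (ix k y) then
        (uT K q τ (mnA θ E1 E2 E3 K (k + 1) v)).1 (x, y) ^ 2 else 0) ≤
      12 * (rC K q u ^ 2 * sd12 K q u / κ ^ 2) ^ 2 * ((E1.card : ℝ) * E2.card) * 4 ^ K := by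
  have := ev_face (K := K) (E := E1) (E' := E2) hθ (T := Th c K p q) (πi := fun τ => τ.1)
    (πj := fun τ => τ.2.1)
    (fun a ha b hb hab => by
      simp only [Prod.mk.injEq] at hab
      exact inj12 hc (el_of_mem (mem_coe.1 ha)) (el_of_mem (mem_coe.1 hb)) hab.1 hab.2)
    (d := v.1) hv.hgt12
    (A := fun k τ x y => (uT K q τ (mnA θ E1 E2 E3 K (k + 1) v)).1 (x, y))
    (fun k _ τ _ x y => abs_cs_le _ _ _ x y) (iv K (ix K p.1)) (iv K (ix K p.2.1))
  rw [card_iv, card_iv] at this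
  push_cast at this
  rw [← mul_pow, show (2 : ℝ) * 2 = 4 by norm_num] at this
  exact this

open Classical in
/-- **38's form (iv)**, edge `13` -/
theorem ev_face13 {c : Pt} (hc : c.2.1 ≠ 0) (hθ : 0 ≤ θ) (hv : VC κ K q u v E1 E2 E3) (p : Pt) :
    ∑ k ∈ range K, ∑ τ ∈ Th c K p q, ∑ x ∈ iv K (ix K p.1), ∑ y ∈ iv K (ix K p.2.2),
      (if evt θ E1 K τ.1 k (ix k x) ∨ evt θ E3 K τ.2.2 k (ix k y) then
        (uT K q τ (mnA θ E1 E2 E3 K (k + 1) v)).2.1 (x, y) ^ 2 else 0) ≤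
      12 * (rC K q u ^ 2 * sd13 K q u / κ ^ 2) ^ 2 * ((E1.card : ℝ) * E3.card) * 4 ^ K := by
  have := ev_face (K := K) (E := E1) (E' := E3) hθ (T := Th c K p q) (πi := fun τ => τ.1)
    (πj := fun τ => τ.2.2)
    (fun a ha b hb hab => by
      simp only [Prod.mk.injEq] at hab
      exact inj13 hc (el_of_mem (mem_coe.1 ha)) (el_of_mem (mem_coe.1 hb)) hab.1 hab.2)
    (d := v.2.1) hv.hgt13
    (A := fun k τ x y => (uT K q τ (mnA θ E1 E2 E3 K (k + 1) v)).2.1 (x, y))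
    (fun k _ τ _ x y => abs_cs_le _ _ _ x y) (iv K (ix K p.1)) (iv K (ix K p.2.2))
  rw [card_iv, card_iv] at this
  push_cast at this
  rw [← mul_pow, show (2 : ℝ) * 2 = 4 by norm_num] at this
  exact this

open Classical in
/-- **38's form (iv)**, edge `23` -/
theorem ev_face23 {c : Pt} (hc : c.1 ≠ 0) (hθ : 0 ≤ θ) (hv : VC κ K q u v E1 E2 E3) (p : Pt) :
    ∑ k ∈ range K, ∑ τ ∈ Th c K p q, ∑ x ∈ iv K (ix K p.2.1), ∑ y ∈ iv K (ix K p.2.2),
      (if evt θ E2 K τ.2.1 k (ix k x) ∨ evt θ E3 K τ.2.2 k (ix k y) then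
        (uT K q τ (mnA θ E1 E2 E3 K (k + 1) v)).2.2 (x, y) ^ 2 else 0) ≤
      12 * (rC K q u ^ 2 * sd23 K q u / κ ^ 2) ^ 2 * ((E2.card : ℝ) * E3.card) * 4 ^ K := by
  have := ev_face (K := K) (E := E2) (E' := E3) hθ (T := Th c K p q) (πi := fun τ => τ.2.1)
    (πj := fun τ => τ.2.2)
    (fun a ha b hb hab => by
      simp only [Prod.mk.injEq] at hab
      exact inj23 hc (el_of_mem (mem_coe.1 ha)) (el_of_mem (mem_coe.1 hb)) hab.1 hab.2)
    (d := v.2.2) hv.hgt23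
    (A := fun k τ x y => (uT K q τ (mnA θ E1 E2 E3 K (k + 1) v)).2.2 (x, y))
    (fun k _ τ _ x y => abs_cs_le _ _ _ x y) (iv K (ix K p.2.1)) (iv K (ix K p.2.2))
  rw [card_iv, card_iv] at this
  push_cast at this
  rw [← mul_pow, show (2 : ℝ) * 2 = 4 by norm_num] at this
  exact this

end

end Vale.Agent.P141.H585
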