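import Vale.Agent.P141.H677.Split
import Vale.Agent.P141.H223.Birth

/-!
# P141, line (A), D2: the label cut of `v` by its potential, free of `x₀`

`birth_op` : one birth, operator inequality;
`births_op` : births on a finite dyadic tree, operator inequality for the sum of the projections;
`mass_op`, `rank_births`, `mass_births` : consequences;
`op_cut` : a slot `Z v` with line energies `ez` of `Z` and potential `w` of `v` on the interval has
operator norm at most `√(ez w)` on the square;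
`cut_births` : the cut `v_l = (1 - E) v` of a labelled function.
-/

namespace Vale.Agent.P141.H585.LabCut

open Finset Matrix
open Vale.Agent.P141.PL (iv ix mem_iv ix_ix)
open Vale.Agent.P141.H223 (Pj exists_spec diag_mul diag_trace diag_transpose diag_one
  diag_psd)
open Vale.Agent.P141.H677 (GT GT_psd GT_form GT_trace mT mT_succ sum_halves)
open Vale.Agent.P141.PL.H588 (sum_iv_succ)

noncomputable section

variable {ι : Type*} [Fintype ι] [DecidableEq ι]

/-! ### One birth -/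

/-- the residual of a cell -/
def res (G E : Matrix ι ι ℝ) : Matrix ι ι ℝ := (1 - E) * G * (1 - E)

theorem res_psd {G E : Matrix ι ι ℝ} (hG : G.PosSemidef) (hE : Pj E) : (res G E).PosSemidef := by
  have h1 := hG.mul_mul_conjTranspose_same (1 - E)
  rwa [conjTranspose_eq_transpose_of_trivial, hE.compl.tr] at h1

/-- **One birth, operator form.** -/
theorem birth_op {w : ℝ} (hw : 0 < w) {G E : Matrix ι ι ℝ} (hG : G.PosSemidef) (hE : Pj E) :
    ∃ P : Matrix ι ι ℝ, Pj P ∧ E * P = 0 ∧ P * E = 0 ∧ P * res G E = res G E * P ∧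
      (w • (1 : Matrix ι ι ℝ) - res G (E + P)).PosSemidef ∧
      (res G E - (res G (E + P) + w • P)).PosSemidef := by
  classical
  have hR := res_psd hG hE
  obtain ⟨U, d, hU1, hU2, hd, hRe⟩ := exists_spec hR
  set R := res G E with hRdef
  set p : ι → ℝ := fun i => if w < d i then 1 else 0 with hp
  set q : ι → ℝ := fun i => if w < d i then (d i)⁻¹ else 0 with hq
  set P := U * diagonal p * Uᵀ with hP
  set S := U * diagonal q * Uᵀ with hS
  have hPP : P * P = P := by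
    rw [hP, diag_mul hU1]
    congr 3
    funext i
    simp only [hp]
    split_ifs <;> norm_num
  have hPt : Pᵀ = P := diag_transpose U p
  have hPR : P = R * S := by
    rw [hP, hRe, hS, diag_mul hU1]
    congr 3
    funext i
    simp only [hp, hq]
    split_ifs with h
    · rw [mul_inv_cancel₀ (hw.trans h).ne']
    · rw [mul_zero]
  have hPR' : P = S * R := by
    rw [hP, hRe, hS, diag_mul hU1]
    congr 3
    funext i
    simp only [hp, hq]
    split_ifs with h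
    · rw [inv_mul_cancel₀ (hw.trans h).ne']
    · rw [zero_mul]
  have hcom : P * R = R * P := by
    rw [hP, hRe, diag_mul hU1, diag_mul hU1]
    congr 3
    funext i
    ring
  have hE1 : E * (1 - E) = 0 := by rw [Matrix.mul_sub, Matrix.mul_one, hE.sq, sub_self]
  have h1E : (1 - E) * E = 0 := by rw [Matrix.sub_mul, Matrix.one_mul, hE.sq, sub_self]
  have hER : E * R = 0 := by
    rw [hRdef, res, ← Matrix.mul_assoc, ← Matrix.mul_assoc, hE1, Matrix.zero_mul, Matrix.zero_mul]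
  have hRE : R * E = 0 := by
    rw [hRdef, res, Matrix.mul_assoc, h1E, Matrix.mul_zero]
  have hEP : E * P = 0 := by rw [hPR, ← Matrix.mul_assoc, hER, Matrix.zero_mul]
  have hPE : P * E = 0 := by rw [hPR', Matrix.mul_assoc, hRE, Matrix.mul_zero]
  have hfac : 1 - (E + P) = (1 - E) * (1 - P) := by
    simp only [Matrix.mul_sub, Matrix.sub_mul, Matrix.mul_one, Matrix.one_mul, hEP]
    abel
  have hfac' : 1 - (E + P) = (1 - P) * (1 - E) := by
    simp only [Matrix.mul_sub, Matrix.sub_mul, Matrix.mul_one, Matrix.one_mul, hPE]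
    abel
  have h1P : 1 - P = U * diagonal (fun i => 1 - p i) * Uᵀ := by
    have h1 := diag_one hU2 1
    rw [one_smul] at h1
    rw [hP]
    conv_lhs => rw [h1]
    rw [H223.diag_sub]
  have hres : res G (E + P) = U * diagonal (fun i => (1 - p i) * d i * (1 - p i)) * Uᵀ := by
    have h1 : res G (E + P) = (1 - P) * R * (1 - P) := by
      calc res G (E + P) = ((1 - P) * (1 - E)) * G * ((1 - E) * (1 - P)) := by
            rw [← hfac', ← hfac]
            rfl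
        _ = _ := by rw [hRdef, res]; simp only [Matrix.mul_assoc]
    rw [h1, h1P, hRe, diag_mul hU1, diag_mul hU1]
  refine ⟨P, ⟨hPt, hPP⟩, hEP, hPE, hcom, ?_, ?_⟩
  · rw [hres, diag_one hU2 w, H223.diag_sub]
    refine diag_psd fun i => ?_
    simp only [hp]
    split_ifs with h
    · simp [hw.le]
    · push Not at h
      simp only [sub_zero, one_mul, mul_one]
      linarith
  · have hwP : w • P = U * diagonal (fun i => w * p i) * Uᵀ := by
      rw [hP, ← Matrix.smul_mul, ← Matrix.mul_smul]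
      congr 2
      ext i j
      by_cases hij : i = j
      · subst hij; simp
      · simp [hij]
    have hsum : res G (E + P) + w • P =
        U * diagonal (fun i => (1 - p i) * d i * (1 - p i) + w * p i) * Uᵀ := by
      rw [hres, hwP, ← Matrix.add_mul, ← Matrix.mul_add, diagonal_add]
    rw [hsum, hRe, H223.diag_sub]
    refine diag_psd fun i => ?_
    simp only [hp]
    split_ifs with h
    · simp only [sub_self, zero_mul, mul_one, zero_add]
      linarith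
    · simp

/-! ### The tree -/

/-- the born projection of one cell -/
def born (w : ℝ) (G E : Matrix ι ι ℝ) : Matrix ι ι ℝ :=
  open Classical in
  if h : 0 < w ∧ G.PosSemidef ∧ Pj E then (birth_op h.1 h.2.1 h.2.2).choose else 0

theorem born_spec {w : ℝ} (hw : 0 < w) {G E : Matrix ι ι ℝ} (hG : G.PosSemidef) (hE : Pj E) :
    Pj (born w G E) ∧ E * born w G E = 0 ∧ born w G E * E = 0 ∧
      born w G E * res G E = res G E * born w G E ∧
      (w • (1 : Matrix ι ι ℝ) - res G (E + born w G E)).PosSemidef ∧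
      (res G E - (res G (E + born w G E) + w • born w G E)).PosSemidef := by
  unfold born
  rw [dif_pos ⟨hw, hG, hE⟩]
  exact (birth_op hw hG hE).choose_spec

theorem Pj_add {E P : Matrix ι ι ℝ} (hE : Pj E) (hP : Pj P) (h1 : E * P = 0) (h2 : P * E = 0) :
    Pj (E + P) := by
  refine ⟨by rw [transpose_add, hE.tr, hP.tr], ?_⟩
  rw [Matrix.mul_add, Matrix.add_mul, Matrix.add_mul, hE.sq, hP.sq, h1, h2]
  abel

/-- the projection at depth `j` below the scale `n` -/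
def EO (w : ℝ) (n : ℕ) (G : ℕ → ℤ → Matrix ι ι ℝ) : ℕ → ℤ → Matrix ι ι ℝ
  | 0, m => 0 + born w (G n m) 0
  | (j + 1), m => EO w n G j (m / 2) + born w (G (n - (j + 1)) m) (EO w n G j (m / 2))

theorem EO_pj {w : ℝ} (hw : 0 < w) {n : ℕ} {G : ℕ → ℤ → Matrix ι ι ℝ}
    (hG : ∀ k ≤ n, ∀ m, (G k m).PosSemidef) (j : ℕ) (m : ℤ) : Pj (EO w n G j m) := by
  induction j generalizing m with
  | zero =>
    have h := born_spec hw (hG n le_rfl m) (Pj.zero (ι := ι))
    exact Pj_add Pj.zero h.1 h.2.1 h.2.2.1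
  | succ j ih =>
    have h := born_spec hw (hG (n - (j + 1)) (Nat.sub_le _ _) m) (ih (m / 2))
    exact Pj_add (ih (m / 2)) h.1 h.2.1 h.2.2.1

/-- **The births of a dyadic tree, operator form.** `E k m` the projection of the cell, `B k m` the
part born at the cell. -/
structure Births (w : ℝ) (n : ℕ) (G E B : ℕ → ℤ → Matrix ι ι ℝ) : Prop where
  pj : ∀ k ≤ n, ∀ m, Pj (E k m)
  bpj : ∀ k ≤ n, ∀ m, Pj (B k m)
  top : ∀ m, E n m = B n m
  add : ∀ k < n, ∀ m, E k m = E (k + 1) (m / 2) + B k m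
  orth : ∀ k < n, ∀ m, E (k + 1) (m / 2) * B k m = 0 ∧ B k m * E (k + 1) (m / 2) = 0
  comm : ∀ k < n, ∀ m, B k m * res (G k m) (E (k + 1) (m / 2)) =
    res (G k m) (E (k + 1) (m / 2)) * B k m
  low : ∀ k ≤ n, ∀ m, (w • (1 : Matrix ι ι ℝ) - res (G k m) (E k m)).PosSemidef
  drop : ∀ k < n, ∀ m, (res (G k m) (E (k + 1) (m / 2)) -
    (res (G k m) (E k m) + w • B k m)).PosSemidef
  drop_top : ∀ m, (G n m - (res (G n m) (E n m) + w • B n m)).PosSemidef

theorem exists_births {w : ℝ} (hw : 0 < w) (n : ℕ) (G : ℕ → ℤ → Matrix ι ι ℝ)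
    (hG : ∀ k ≤ n, ∀ m, (G k m).PosSemidef) : ∃ E B, Births w n G E B := by
  set E : ℕ → ℤ → Matrix ι ι ℝ := fun k m => EO w n G (n - k) m with hE
  set B : ℕ → ℤ → Matrix ι ι ℝ := fun k m =>
    if k < n then born w (G k m) (E (k + 1) (m / 2)) else born w (G k m) 0 with hB
  have hpj : ∀ k m, Pj (E k m) := fun k m => EO_pj hw hG _ m
  have hstep : ∀ k < n, ∀ m, E k m = E (k + 1) (m / 2) + born w (G k m) (E (k + 1) (m / 2)) := by
    intro k hk m
    obtain ⟨j, hj⟩ : ∃ j, n - k = j + 1 := ⟨n - k - 1, by omega⟩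
    have h1 : n - (k + 1) = j := by omega
    have h2 : n - (j + 1) = k := by omega
    show EO w n G (n - k) m =
      EO w n G (n - (k + 1)) (m / 2) + born w (G k m) (EO w n G (n - (k + 1)) (m / 2))
    rw [hj, h1, EO, h2]
  have htop : ∀ m, E n m = born w (G n m) 0 := by
    intro m
    show EO w n G (n - n) m = _
    rw [Nat.sub_self, EO, zero_add]
  have hBk : ∀ k < n, ∀ m, B k m = born w (G k m) (E (k + 1) (m / 2)) := by
    intro k hk m
    simp only [hB]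
    rw [if_pos hk]
  have hBn : ∀ m, B n m = born w (G n m) 0 := by
    intro m
    simp only [hB]
    rw [if_neg (lt_irrefl n)]
  have hsp : ∀ k < n, ∀ m, _ := fun k hk m => born_spec hw (hG k (le_of_lt hk) m) (hpj (k + 1) (m / 2))
  have hspn : ∀ m, _ := fun m => born_spec hw (hG n le_rfl m) (Pj.zero (ι := ι))
  refine ⟨E, B, ?_, ?_, ?_, ?_, ?_, ?_, ?_, ?_, ?_⟩
  · exact fun k _ m => hpj k m
  · intro k hk m
    rcases hk.eq_or_lt with rfl | hlt
    · rw [hBn m]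
      exact (hspn m).1
    · rw [hBk k hlt m]
      exact (hsp k hlt m).1
  · intro m
    rw [htop m, hBn m]
  · intro k hk m
    rw [hBk k hk m]
    exact hstep k hk m
  · intro k hk m
    rw [hBk k hk m]
    exact ⟨(hsp k hk m).2.1, (hsp k hk m).2.2.1⟩
  · intro k hk m
    rw [hBk k hk m]
    exact (hsp k hk m).2.2.2.1
  · intro k hk m
    rcases hk.eq_or_lt with rfl | hlt
    · rw [htop m]
      have h := (hspn m).2.2.2.2.1
      rwa [zero_add] at h
    · rw [hstep k hlt m]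
      exact (hsp k hlt m).2.2.2.2.1
  · intro k hk m
    rw [hBk k hk m]
    have h := (hsp k hk m).2.2.2.2.2
    rw [← hstep k hk m] at h
    exact h
  · intro m
    have h := (hspn m).2.2.2.2.2
    rw [hBn m, htop m]
    rw [zero_add] at h
    have h0 : res (G n m) 0 = G n m := by
      unfold res
      rw [sub_zero, Matrix.one_mul, Matrix.mul_one]
    rwa [h0] at h

/-! ### Sums over the tree, as quadratic forms -/

/-- quadratic form -/
def qf (M : Matrix ι ι ℝ) (e : ι → ℝ) : ℝ := e ⬝ᵥ M *ᵥ e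

omit [DecidableEq ι] in
theorem qf_add (M L : Matrix ι ι ℝ) (e : ι → ℝ) : qf (M + L) e = qf M e + qf L e := by
  unfold qf
  rw [add_mulVec, dotProduct_add]

omit [DecidableEq ι] in
theorem qf_sub (M L : Matrix ι ι ℝ) (e : ι → ℝ) : qf (M - L) e = qf M e - qf L e := by
  unfold qf
  rw [sub_mulVec, dotProduct_sub]

omit [DecidableEq ι] in
theorem qf_smul (c : ℝ) (M : Matrix ι ι ℝ) (e : ι → ℝ) : qf (c • M) e = c * qf M e := by
  unfold qf
  rw [smul_mulVec, dotProduct_smul, smul_eq_mul]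

theorem qf_one (e : ι → ℝ) : qf (1 : Matrix ι ι ℝ) e = e ⬝ᵥ e := by
  unfold qf
  rw [one_mulVec]

theorem qf_nonneg {M : Matrix ι ι ℝ} (h : M.PosSemidef) (e : ι → ℝ) : 0 ≤ qf M e :=
  H186.form_nonneg h e

omit [DecidableEq ι] in
theorem qf_mul (C G : Matrix ι ι ℝ) (hC : Cᵀ = C) (e : ι → ℝ) :
    qf (C * G * C) e = qf G (C *ᵥ e) := by
  unfold qf
  rw [← mulVec_mulVec, ← mulVec_mulVec, dotProduct_mulVec, ← mulVec_transpose, hC]

/-- the form of the residual -/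
theorem qf_res {G E : Matrix ι ι ℝ} (hE : Pj E) (e : ι → ℝ) :
    qf (res G E) e = qf G ((1 - E) *ᵥ e) := qf_mul _ _ hE.compl.tr e

/-- the form of a projection -/
theorem qf_pj {E : Matrix ι ι ℝ} (hE : Pj E) (e : ι → ℝ) :
    qf E e = (E *ᵥ e) ⬝ᵥ (E *ᵥ e) := by
  have h := qf_mul E 1 hE.tr e
  rw [Matrix.mul_one, hE.sq, qf_one] at h
  exact h

section Sums

variable {w : ℝ} {n : ℕ} {G E B : ℕ → ℤ → Matrix ι ι ℝ}

/-- **The potential of the births does not grow towards the leaves**, for every vector. -/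
theorem Births.sum_le (h : Births w n G E B) (hw : 0 < w) (hG : ∀ k ≤ n, ∀ m, (G k m).PosSemidef)
    (hmean : ∀ k < n, ∀ m, G (k + 1) m = (1 / 2 : ℝ) • (G k (2 * m) + G k (2 * m + 1)))
    (e : ι → ℝ) : ∀ k ≤ n, ∀ m, ∑ i ∈ iv (n - k) m,
      (w * qf (E k i) e + qf (res (G k i) (E k i)) e) ≤ 2 ^ (n - k) * qf (G n m) e := by
  have key : ∀ j k, k + j = n → ∀ m, ∑ i ∈ iv j m,
      (w * qf (E k i) e + qf (res (G k i) (E k i)) e) ≤ 2 ^ j * qf (G n m) e := by
    intro j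
    induction j with
    | zero =>
      intro k hk m
      have hk' : k = n := by omega
      subst hk'
      have h1 : iv 0 m = {m} := by ext y; simp [PL.iv]; omega
      rw [h1, sum_singleton, pow_zero, one_mul]
      have h2 := qf_nonneg (h.drop_top m) e
      rw [qf_sub, qf_add, qf_smul, ← h.top m] at h2
      linarith
    | succ j ih =>
      intro k hk m
      have hk' : k < n := by omega
      have ih' := ih (k + 1) (by omega) m
      rw [sum_iv_succ]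
      have hterm : ∀ i : ℤ, (w * qf (E k (2 * i)) e + qf (res (G k (2 * i)) (E k (2 * i))) e) +
          (w * qf (E k (2 * i + 1)) e + qf (res (G k (2 * i + 1)) (E k (2 * i + 1))) e) ≤
          2 * (w * qf (E (k + 1) i) e + qf (res (G (k + 1) i) (E (k + 1) i)) e) := by
        intro i
        have e1 : 2 * i / 2 = i := by omega
        have e2 : (2 * i + 1) / 2 = i := by omega
        have d1 := qf_nonneg (h.drop k hk' (2 * i)) e
        have d2 := qf_nonneg (h.drop k hk' (2 * i + 1)) e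
        have a1 := h.add k hk' (2 * i)
        have a2 := h.add k hk' (2 * i + 1)
        rw [e1] at d1 a1
        rw [e2] at d2 a2
        rw [qf_sub, qf_add, qf_smul] at d1 d2
        have q1 : qf (E k (2 * i)) e = qf (E (k + 1) i) e + qf (B k (2 * i)) e := by
          rw [a1, qf_add]
        have q2 : qf (E k (2 * i + 1)) e = qf (E (k + 1) i) e + qf (B k (2 * i + 1)) e := by
          rw [a2, qf_add]
        have hr : qf (res (G k (2 * i)) (E (k + 1) i)) e +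
            qf (res (G k (2 * i + 1)) (E (k + 1) i)) e =
            2 * qf (res (G (k + 1) i) (E (k + 1) i)) e := by
          have hp := h.pj (k + 1) hk' i
          rw [qf_res hp, qf_res hp, qf_res hp, hmean k hk' i, qf_smul, qf_add]
          ring
        rw [q1, q2]
        nlinarith [d1, d2, hr]
      calc ∑ i ∈ iv j m, ((w * qf (E k (2 * i)) e + qf (res (G k (2 * i)) (E k (2 * i))) e) +
          (w * qf (E k (2 * i + 1)) e + qf (res (G k (2 * i + 1)) (E k (2 * i + 1))) e))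
          ≤ ∑ i ∈ iv j m, 2 * (w * qf (E (k + 1) i) e +
            qf (res (G (k + 1) i) (E (k + 1) i)) e) := sum_le_sum fun i _ => hterm i
        _ = 2 * ∑ i ∈ iv j m, (w * qf (E (k + 1) i) e +
            qf (res (G (k + 1) i) (E (k + 1) i)) e) := by rw [mul_sum]
        _ ≤ 2 * (2 ^ j * qf (G n m) e) := by linarith
        _ = 2 ^ (j + 1) * qf (G n m) e := by ring
  intro k hk m
  exact key (n - k) k (by omega) m

/-- **Mass of a vector on the born directions.** -/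
theorem Births.mass (h : Births w n G E B) (hw : 0 < w) (hG : ∀ k ≤ n, ∀ m, (G k m).PosSemidef)
    (hmean : ∀ k < n, ∀ m, G (k + 1) m = (1 / 2 : ℝ) • (G k (2 * m) + G k (2 * m + 1)))
    (e : ι → ℝ) {k : ℕ} (hk : k ≤ n) (m : ℤ) :
    ∑ i ∈ iv (n - k) m, (E k i *ᵥ e) ⬝ᵥ (E k i *ᵥ e) ≤ 2 ^ (n - k) * (qf (G n m) e / w) := by
  have h1 := h.sum_le hw hG hmean e k hk m
  have h2 : ∑ i ∈ iv (n - k) m, w * qf (E k i) e ≤ 2 ^ (n - k) * qf (G n m) e := by
    refine le_trans (sum_le_sum fun i _ => ?_) h1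
    exact le_add_of_nonneg_right (qf_nonneg (res_psd (hG k hk i) (h.pj k hk i)) e)
  rw [← mul_sum] at h2
  have h3 : ∑ i ∈ iv (n - k) m, (E k i *ᵥ e) ⬝ᵥ (E k i *ᵥ e) = ∑ i ∈ iv (n - k) m, qf (E k i) e :=
    sum_congr rfl fun i _ => (qf_pj (h.pj k hk i) e).symm
  rw [h3, ← mul_div_assoc, le_div_iff₀ hw]
  linarith

/-- the sum over the cells of the births above the scale `k` -/
theorem Births.telescope (h : Births w n G E B) (e : ι → ℝ) : ∀ k ≤ n, ∀ m,
    2 ^ k * ∑ i ∈ iv (n - k) m, qf (E k i) e =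
      ∑ l ∈ Icc k n, 2 ^ l * ∑ i ∈ iv (n - l) m, qf (B l i) e := by
  have key : ∀ j k, k + j = n → ∀ m, 2 ^ k * ∑ i ∈ iv j m, qf (E k i) e =
      ∑ l ∈ Icc k n, 2 ^ l * ∑ i ∈ iv (n - l) m, qf (B l i) e := by
    intro j
    induction j with
    | zero =>
      intro k hk m
      have hk' : k = n := by omega
      subst hk'
      rw [Icc_self, sum_singleton, Nat.sub_self]
      congr 1
      exact sum_congr rfl fun i _ => by rw [h.top i]
    | succ j ih =>
      intro k hk m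
      have hk' : k < n := by omega
      have ih' := ih (k + 1) (by omega) m
      have hI : Icc k n = insert k (Icc (k + 1) n) := by
        ext y; simp only [mem_Icc, mem_insert]; omega
      rw [hI, sum_insert (by simp), ← ih']
      have hn : n - k = j + 1 := by omega
      rw [hn, sum_iv_succ, sum_iv_succ]
      have hterm : ∀ i : ℤ, qf (E k (2 * i)) e + qf (E k (2 * i + 1)) e =
          (qf (B k (2 * i)) e + qf (B k (2 * i + 1)) e) + 2 * qf (E (k + 1) i) e := by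
        intro i
        have e1 : 2 * i / 2 = i := by omega
        have e2 : (2 * i + 1) / 2 = i := by omega
        have a1 := h.add k hk' (2 * i)
        have a2 := h.add k hk' (2 * i + 1)
        rw [e1] at a1
        rw [e2] at a2
        rw [a1, a2, qf_add, qf_add]
        ring
      rw [sum_congr rfl fun i _ => hterm i, sum_add_distrib, ← mul_sum]
      ring
  intro k hk m
  exact key (n - k) k (by omega) m

/-- **Energy of a vector on all births.** -/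
theorem Births.mass_births (h : Births w n G E B) (hw : 0 < w)
    (hG : ∀ k ≤ n, ∀ m, (G k m).PosSemidef)
    (hmean : ∀ k < n, ∀ m, G (k + 1) m = (1 / 2 : ℝ) • (G k (2 * m) + G k (2 * m + 1)))
    (e : ι → ℝ) (m : ℤ) :
    ∑ l ∈ Icc 0 n, 2 ^ l * ∑ i ∈ iv (n - l) m, (B l i *ᵥ e) ⬝ᵥ (B l i *ᵥ e) ≤
      2 ^ n * (qf (G n m) e / w) := by
  have h1 := h.telescope e 0 (Nat.zero_le n) m
  have h2 := h.mass hw hG hmean e (Nat.zero_le n) m
  rw [pow_zero, one_mul] at h1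
  have h3 : ∑ l ∈ Icc 0 n, (2 : ℝ) ^ l * ∑ i ∈ iv (n - l) m, (B l i *ᵥ e) ⬝ᵥ (B l i *ᵥ e) =
      ∑ l ∈ Icc 0 n, 2 ^ l * ∑ i ∈ iv (n - l) m, qf (B l i) e := by
    refine sum_congr rfl fun l hl => ?_
    congr 1
    exact sum_congr rfl fun i _ => (qf_pj (h.bpj l (mem_Icc.1 hl).2 i) e).symm
  rw [h3, ← h1]
  refine le_trans (le_of_eq ?_) h2
  exact sum_congr rfl fun i _ => qf_pj (h.pj 0 (Nat.zero_le n) i) e

theorem trace_eq_sum (M : Matrix ι ι ℝ) :
    M.trace = ∑ i, qf M (Pi.single i 1) := by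
  unfold qf Matrix.trace
  refine sum_congr rfl fun i _ => ?_
  simp [Matrix.mulVec, dotProduct, Pi.single_apply, Matrix.diag]

/-- **Rank of all births.** -/
theorem Births.rank_births (h : Births w n G E B) (hw : 0 < w)
    (hG : ∀ k ≤ n, ∀ m, (G k m).PosSemidef)
    (hmean : ∀ k < n, ∀ m, G (k + 1) m = (1 / 2 : ℝ) • (G k (2 * m) + G k (2 * m + 1)))
    (m : ℤ) :
    ∑ l ∈ Icc 0 n, 2 ^ l * ∑ i ∈ iv (n - l) m, (B l i).trace ≤ 2 ^ n * ((G n m).trace / w) := by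
  have h1 := sum_le_sum fun (j : ι) (_ : j ∈ univ) =>
    h.mass_births hw hG hmean (Pi.single j 1) m
  rw [← mul_sum, ← sum_div, ← trace_eq_sum, sum_comm] at h1
  refine le_trans (le_of_eq ?_) h1
  refine sum_congr rfl fun l hl => ?_
  rw [← mul_sum, sum_comm]
  congr 1
  refine sum_congr rfl fun i _ => ?_
  rw [trace_eq_sum]
  exact sum_congr rfl fun j _ => qf_pj (h.bpj l (mem_Icc.1 hl).2 i) _

end Sums

/-! ### The operator norm of `Z v` -/

section Cap

omit [DecidableEq ι]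

theorem dot_sum_smul {Y : Finset ℤ} (a : ℤ → ℝ) (b : ℤ → ι → ℝ) (e : ι → ℝ) :
    (∑ y ∈ Y, a y • b y) ⬝ᵥ e = ∑ y ∈ Y, a y * (b y ⬝ᵥ e) := by
  rw [sum_dotProduct]
  exact sum_congr rfl fun y _ => by rw [smul_dotProduct, smul_eq_mul]

/-- one row -/
theorem row_cut {Y : Finset ℤ} {z : ℤ → ℝ} {v : ℤ → ι → ℝ} {W : ℝ} (hW : 0 ≤ W)
    (hv : ∀ e : ι → ℝ, ∑ y ∈ Y, (v y ⬝ᵥ e) ^ 2 ≤ W * (e ⬝ᵥ e)) :
    (∑ y ∈ Y, z y • v y) ⬝ᵥ (∑ y ∈ Y, z y • v y) ≤ W * ∑ y ∈ Y, z y ^ 2 := by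
  set V := ∑ y ∈ Y, z y • v y with hV
  have h1 : V ⬝ᵥ V = ∑ y ∈ Y, z y * (v y ⬝ᵥ V) := by
    rw [← dot_sum_smul]
  have h2 : (V ⬝ᵥ V) ^ 2 ≤ (∑ y ∈ Y, z y ^ 2) * ∑ y ∈ Y, (v y ⬝ᵥ V) ^ 2 := by
    rw [h1]
    exact sum_mul_sq_le_sq_mul_sq _ _ _
  have h3 := hv V
  have h0 : 0 ≤ V ⬝ᵥ V := by
    unfold dotProduct
    exact sum_nonneg fun i _ => mul_self_nonneg _
  have hz : 0 ≤ ∑ y ∈ Y, z y ^ 2 := sum_nonneg fun _ _ => sq_nonneg _
  have h4 : (V ⬝ᵥ V) ^ 2 ≤ (∑ y ∈ Y, z y ^ 2) * (W * (V ⬝ᵥ V)) :=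
    h2.trans (mul_le_mul_of_nonneg_left h3 hz)
  rcases h0.eq_or_lt with h5 | h5
  · rw [← h5]
    positivity
  · have h6 : (V ⬝ᵥ V) * (V ⬝ᵥ V) ≤ (W * ∑ y ∈ Y, z y ^ 2) * (V ⬝ᵥ V) := by nlinarith
    exact le_of_mul_le_mul_right h6 h5

/-- **The operator norm of `Z v`**: line energies of `Z` in `x`, potentials of `v` in `y`. -/
theorem op_cut {X Y : Finset ℤ} {Z : ℤ → ℤ → ℝ} {v : ℤ → ℤ → ι → ℝ} {ez W : ℝ} (hW : 0 ≤ W)
    (hZ : ∀ y ∈ Y, ∑ x ∈ X, Z x y ^ 2 ≤ ez)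
    (hv : ∀ x ∈ X, ∀ e : ι → ℝ, ∑ y ∈ Y, (v x y ⬝ᵥ e) ^ 2 ≤ W * (e ⬝ᵥ e)) (f : ℤ → ℝ) :
    ∑ x ∈ X, (∑ y ∈ Y, (f y * Z x y) • v x y) ⬝ᵥ (∑ y ∈ Y, (f y * Z x y) • v x y) ≤
      ez * W * ∑ y ∈ Y, f y ^ 2 := by
  calc ∑ x ∈ X, (∑ y ∈ Y, (f y * Z x y) • v x y) ⬝ᵥ (∑ y ∈ Y, (f y * Z x y) • v x y)
      ≤ ∑ x ∈ X, W * ∑ y ∈ Y, (f y * Z x y) ^ 2 := sum_le_sum fun x hx => row_cut hW (hv x hx)
    _ = W * ∑ y ∈ Y, f y ^ 2 * ∑ x ∈ X, Z x y ^ 2 := by
        rw [← mul_sum, sum_comm]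
        congr 1
        refine sum_congr rfl fun y _ => ?_
        rw [mul_sum]
        exact sum_congr rfl fun x _ => by ring
    _ ≤ W * ∑ y ∈ Y, f y ^ 2 * ez := by
        refine mul_le_mul_of_nonneg_left (sum_le_sum fun y hy => ?_) hW
        exact mul_le_mul_of_nonneg_left (hZ y hy) (sq_nonneg _)
    _ = _ := by rw [← sum_mul]; ring

/-- **The cap of `Z v` on a cell, averages**: `x` in a cell of scale `a`, `y` in a cell of scale
`k`. -/
theorem cap_cut {a k : ℕ} {n m : ℤ} {Z : ℤ → ℤ → ℝ} {v : ℤ → ℤ → ι → ℝ} {ez w : ℝ} (hw : 0 ≤ w)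
    (hZ : ∀ y ∈ iv k m, ((2 : ℝ) ^ a)⁻¹ * ∑ x ∈ iv a n, Z x y ^ 2 ≤ ez)
    (hv : ∀ x ∈ iv a n, ∀ e : ι → ℝ,
      ((2 : ℝ) ^ k)⁻¹ * ∑ y ∈ iv k m, (v x y ⬝ᵥ e) ^ 2 ≤ w * (e ⬝ᵥ e)) (f : ℤ → ℝ) :
    ((2 : ℝ) ^ a)⁻¹ * ∑ x ∈ iv a n,
      (((2 : ℝ) ^ k)⁻¹ • ∑ y ∈ iv k m, (f y * Z x y) • v x y) ⬝ᵥ
        (((2 : ℝ) ^ k)⁻¹ • ∑ y ∈ iv k m, (f y * Z x y) • v x y) ≤
      ez * w * (((2 : ℝ) ^ k)⁻¹ * ∑ y ∈ iv k m, f y ^ 2) := by
  have ha : (0 : ℝ) < 2 ^ a := by positivity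
  have hk : (0 : ℝ) < 2 ^ k := by positivity
  have h := op_cut (X := iv a n) (Y := iv k m) (Z := Z) (v := v) (ez := 2 ^ a * ez)
    (W := 2 ^ k * w) (by positivity)
    (fun y hy => by
      have := hZ y hy
      rwa [inv_mul_le_iff₀ ha] at this)
    (fun x hx e => by
      have := hv x hx e
      rw [inv_mul_le_iff₀ hk] at this
      linarith) f
  have e1 : ∀ x : ℤ, (((2 : ℝ) ^ k)⁻¹ • ∑ y ∈ iv k m, (f y * Z x y) • v x y) ⬝ᵥ
        (((2 : ℝ) ^ k)⁻¹ • ∑ y ∈ iv k m, (f y * Z x y) • v x y) =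
      (((2 : ℝ) ^ k)⁻¹) ^ 2 * ((∑ y ∈ iv k m, (f y * Z x y) • v x y) ⬝ᵥ
        (∑ y ∈ iv k m, (f y * Z x y) • v x y)) := by
    intro x
    rw [smul_dotProduct, dotProduct_smul, smul_eq_mul, smul_eq_mul]
    ring
  rw [sum_congr rfl fun x _ => e1 x, ← mul_sum]
  calc ((2 : ℝ) ^ a)⁻¹ * ((((2 : ℝ) ^ k)⁻¹) ^ 2 * ∑ x ∈ iv a n,
        (∑ y ∈ iv k m, (f y * Z x y) • v x y) ⬝ᵥ (∑ y ∈ iv k m, (f y * Z x y) • v x y))
      ≤ ((2 : ℝ) ^ a)⁻¹ * ((((2 : ℝ) ^ k)⁻¹) ^ 2 *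
        (2 ^ a * ez * (2 ^ k * w) * ∑ y ∈ iv k m, f y ^ 2)) := by gcongr
    _ = _ := by
        field_simp

end Cap

/-! ### The cut of a labelled function -/

section Cut

variable {w : ℝ} {n : ℕ} {v : ℤ → ℤ → ι → ℝ} {x : ℤ} {E B : ℕ → ℤ → Matrix ι ι ℝ}

/-- the cut at the scale `k` -/
def vl (E : ℕ → ℤ → Matrix ι ι ℝ) (v : ℤ → ι → ℝ) (k : ℕ) (y : ℤ) : ι → ℝ :=
  (1 - E k (ix k y)) *ᵥ v y

theorem GT_mean (v : ℤ → ℤ → ι → ℝ) (x : ℤ) (k : ℕ) (m : ℤ) :
    GT v x (k + 1) m = (1 / 2 : ℝ) • (GT v x k (2 * m) + GT v x k (2 * m + 1)) :=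
  mT_succ _ k m

/-- **Existence of the cut**: births of the Gram tree of `v x ·` below the scale `n`. -/
theorem exists_cut (hw : 0 < w) (n : ℕ) (v : ℤ → ℤ → ι → ℝ) :
    ∃ E B : ℤ → ℕ → ℤ → Matrix ι ι ℝ, ∀ x, Births w n (GT v x) (E x) (B x) := by
  choose E B h using fun x => exists_births hw n (GT v x) fun k _ m => GT_psd v x k m
  exact ⟨E, B, h⟩

omit [DecidableEq ι] in
theorem mulVec_dot (C : Matrix ι ι ℝ) (hC : Cᵀ = C) (a e : ι → ℝ) :
    (C *ᵥ a) ⬝ᵥ e = a ⬝ᵥ (C *ᵥ e) := by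
  rw [dotProduct_comm, dotProduct_mulVec, ← mulVec_transpose, hC, dotProduct_comm]

/-- the potential of `(1 - F) v` on a cell -/
theorem pot_cut {F : Matrix ι ι ℝ} (hF : Pj F) (k : ℕ) (m : ℤ) (e : ι → ℝ) :
    ((2 : ℝ) ^ k)⁻¹ * ∑ y ∈ iv k m, (((1 - F) *ᵥ v x y) ⬝ᵥ e) ^ 2 =
      qf (res (GT v x k m) F) e := by
  rw [qf_res hF]
  unfold qf
  rw [GT_form]
  congr 1
  exact sum_congr rfl fun y _ => by rw [mulVec_dot _ hF.compl.tr]

/-- **Potential after the births of the cell.** -/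
theorem Births.pot_after (h : Births w n (GT v x) E B) {k : ℕ} (hk : k ≤ n) (m : ℤ)
    (e : ι → ℝ) :
    ((2 : ℝ) ^ k)⁻¹ * ∑ y ∈ iv k m, (vl E (v x) k y ⬝ᵥ e) ^ 2 ≤ w * (e ⬝ᵥ e) := by
  have h1 := qf_nonneg (h.low k hk m) e
  rw [qf_sub, qf_smul, qf_one] at h1
  have h2 : ((2 : ℝ) ^ k)⁻¹ * ∑ y ∈ iv k m, (vl E (v x) k y ⬝ᵥ e) ^ 2 =
      qf (res (GT v x k m) (E k m)) e := by
    rw [← pot_cut (h.pj k hk m)]
    congr 1
    refine sum_congr rfl fun y hy => ?_
    unfold vl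
    rw [mem_iv.1 hy]
  rw [h2]
  linarith

/-- **Potential before the births of the cell** (cut of the parent cell). -/
theorem Births.pot_before (h : Births w n (GT v x) E B) {k : ℕ} (hk : k < n) (m : ℤ)
    (e : ι → ℝ) :
    ((2 : ℝ) ^ k)⁻¹ * ∑ y ∈ iv k m, (vl E (v x) (k + 1) y ⬝ᵥ e) ^ 2 ≤ 2 * w * (e ⬝ᵥ e) := by
  have hp := h.pj (k + 1) hk (m / 2)
  have h2 : ((2 : ℝ) ^ k)⁻¹ * ∑ y ∈ iv k m, (vl E (v x) (k + 1) y ⬝ᵥ e) ^ 2 =
      qf (res (GT v x k m) (E (k + 1) (m / 2))) e := by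
    rw [← pot_cut hp]
    congr 1
    refine sum_congr rfl fun y hy => ?_
    unfold vl
    have : ix (k + 1) y = m / 2 := by
      rw [← mem_iv.1 hy, ← ix_ix k 1]
      rfl
    rw [this]
  have h1 := qf_nonneg (h.low (k + 1) hk (m / 2)) e
  rw [qf_sub, qf_smul, qf_one] at h1
  have h3 : ∀ i : ℤ, qf (res (GT v x (k + 1) i) (E (k + 1) (m / 2))) e =
      1 / 2 * (qf (res (GT v x k (2 * i)) (E (k + 1) (m / 2))) e +
        qf (res (GT v x k (2 * i + 1)) (E (k + 1) (m / 2))) e) := by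
    intro i
    rw [qf_res hp, qf_res hp, qf_res hp, GT_mean, qf_smul, qf_add]
  have h4 := h3 (m / 2)
  have p1 := qf_nonneg (res_psd (GT_psd v x k (2 * (m / 2))) hp) e
  have p2 := qf_nonneg (res_psd (GT_psd v x k (2 * (m / 2) + 1)) hp) e
  rw [h2]
  rcases Int.emod_two_eq_zero_or_one m with h0 | h0
  · have e1 : 2 * (m / 2) = m := by omega
    rw [e1] at h4 p1 p2
    linarith
  · have e1 : 2 * (m / 2) + 1 = m := by omega
    rw [e1] at h4 p2
    linarith

/-- the change of the cut at a cell -/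
theorem Births.vl_step (h : Births w n (GT v x) E B) {k : ℕ} (hk : k < n) (y : ℤ) :
    vl E (v x) k y = vl E (v x) (k + 1) y - B k (ix k y) *ᵥ v x y := by
  unfold vl
  have : ix (k + 1) y = ix k y / 2 := by
    rw [← ix_ix k 1]
    rfl
  rw [this, h.add k hk (ix k y), sub_mulVec, sub_mulVec, add_mulVec]
  abel

/-- the cut does not increase the length -/
theorem Births.vl_le (h : Births w n (GT v x) E B) {k : ℕ} (hk : k ≤ n) (y : ℤ) :
    vl E (v x) k y ⬝ᵥ vl E (v x) k y ≤ v x y ⬝ᵥ v x y := by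
  unfold vl
  have hp := h.pj k hk (ix k y)
  rw [← qf_pj hp.compl, qf_sub, qf_one]
  have := qf_nonneg hp.posSemidef (v x y)
  linarith

/-- the change has no product with the cut after the births, on the cell -/
theorem Births.cross (h : Births w n (GT v x) E B) {k : ℕ} (hk : k < n) (m : ℤ)
    (e f : ι → ℝ) :
    ∑ y ∈ iv k m, ((B k m *ᵥ v x y) ⬝ᵥ e) * (vl E (v x) k y ⬝ᵥ f) = 0 := by
  have hp := h.pj (k + 1) hk (m / 2)
  have hb := h.bpj k hk.le m
  have hpk := h.pj k hk.le m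
  have hc := h.comm k hk m
  set R := res (GT v x k m) (E (k + 1) (m / 2)) with hR
  have hEB := h.orth k hk m
  have hadd := h.add k hk m
  have h1B : B k m * (1 - E (k + 1) (m / 2)) = B k m := by
    rw [Matrix.mul_sub, Matrix.mul_one, hEB.2, sub_zero]
  have hfac : 1 - E k m = (1 - E (k + 1) (m / 2)) * (1 - B k m) := by
    rw [hadd]
    simp only [Matrix.mul_sub, Matrix.sub_mul, Matrix.mul_one, Matrix.one_mul, hEB.1]
    abel
  have hz : B k m * GT v x k m * (1 - E k m) = 0 := by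
    have h1 : B k m * GT v x k m * (1 - E k m) = B k m * R * (1 - B k m) := by
      rw [hfac, hR, res]
      calc B k m * GT v x k m * ((1 - E (k + 1) (m / 2)) * (1 - B k m))
          = (B k m * (1 - E (k + 1) (m / 2))) * GT v x k m *
            ((1 - E (k + 1) (m / 2)) * (1 - B k m)) := by rw [h1B]
        _ = _ := by simp only [Matrix.mul_assoc]
    rw [h1, hc, Matrix.mul_assoc, Matrix.mul_sub, Matrix.mul_one, hb.sq, sub_self, Matrix.mul_zero]
  have hform : ((2 : ℝ) ^ k)⁻¹ * ∑ y ∈ iv k m, ((B k m *ᵥ v x y) ⬝ᵥ e) * (vl E (v x) k y ⬝ᵥ f) =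
      e ⬝ᵥ (B k m * GT v x k m * (1 - E k m)) *ᵥ f := by
    rw [← mulVec_mulVec, ← mulVec_mulVec, ← mulVec_dot _ hb.tr e]
    unfold GT mT
    rw [smul_mulVec, dotProduct_smul, smul_eq_mul, sum_mulVec, dotProduct_sum]
    congr 1
    refine sum_congr rfl fun y hy => ?_
    rw [vecMulVec_mulVec, op_smul_eq_smul, dotProduct_smul, smul_eq_mul]
    unfold vl
    rw [mem_iv.1 hy, mulVec_dot _ hb.tr, mulVec_dot _ hpk.compl.tr,
      dotProduct_comm (B k m *ᵥ e)]
    ring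
  rw [hz, zero_mulVec, dotProduct_zero] at hform
  have hk2 : ((2 : ℝ) ^ k)⁻¹ ≠ 0 := by positivity
  exact (mul_eq_zero.1 hform).resolve_left hk2

/-- **Mass of a vector on the removed labels**: top potential `P` of `v`. -/
theorem Births.mass_top (h : Births w n (GT v x) E B) (hw : 0 < w) {P : ℝ} {m : ℤ}
    (hP : ∀ e : ι → ℝ, ((2 : ℝ) ^ n)⁻¹ * ∑ y ∈ iv n m, (v x y ⬝ᵥ e) ^ 2 ≤ P * (e ⬝ᵥ e))
    {k : ℕ} (hk : k ≤ n) (e : ι → ℝ) :
    ((2 : ℝ) ^ (n - k))⁻¹ * ∑ i ∈ iv (n - k) m, (E k i *ᵥ e) ⬝ᵥ (E k i *ᵥ e) ≤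
      P / w * (e ⬝ᵥ e) := by
  have h1 := h.mass hw (fun k _ m => GT_psd v x k m) (fun k _ m => GT_mean v x k m) e hk m
  have h2 : qf (GT v x n m) e ≤ P * (e ⬝ᵥ e) := by
    unfold qf
    rw [GT_form]
    exact hP e
  have hp : (0 : ℝ) < 2 ^ (n - k) := by positivity
  rw [inv_mul_le_iff₀ hp]
  refine h1.trans (mul_le_mul_of_nonneg_left ?_ hp.le)
  rw [div_mul_eq_mul_div]
  exact div_le_div_of_nonneg_right h2 hw.le

end Cut

end

end Vale.Agent.P141.H585.LabCut
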