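import Vale.Agent.P141.H585.MainC
import Vale.Agent.P141.H606.TMain
import Vale.Agent.P141.H780.Drn

/-!
# P141, line W, end lemma: the estimate of the main family

* `hD2M`, `hD3M`: the dropped masses;
* `mainK`: the total of the main family is at most the kernel number plus the residual part;
* `ResE`: the estimate of the residual part (a Prop);
* `mainEst_of`: `H998.MainEst` from the estimate of the residual part.
-/

namespace Vale.Agent.P141.H585M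

open Finset
open Vale.Agent.P141.H315 (Grid dot)
open Vale.Agent.P141.PL (Pt fc iv mem_iv)
open Vale.Agent.P141.PL.H315 (avg cube3 Tri)
open Vale.Agent.P141.PL.H95 (gr card_gr)
open Vale.Agent.P141.PL.H318 (CSys a1)
open Vale.Agent.P141.PL.H571 (W)
open Vale.Agent.P141.PL.H855 (n4T)
open Vale.Agent.P141.H347 (cd cd_pos)
open Vale.Agent.P141.H8 (Rgn En Un T4 T4_congr st mv Fam2)
open Vale.Agent.P141.H922 (wP wP_nonneg)
open Vale.Agent.P141.H911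
open Vale.Agent.P141.H330 (nvT)
open Vale.Agent.P141.H337 (ivm mem_ivm)
open Vale.Agent.P141.H540 (ln)
open Vale.Agent.P141.H443 (cu)
open Vale.Agent.P141.H606 (TN RP RB bt2 bt3 al DR tmain)
open Vale.Agent.P141.H865 (KrO RrO mainO main_split)
open Vale.Agent.P141.H75 (und mem_und slt)
open Vale.Agent.P141.H935 (Ys)
open Vale.Agent.P141.H780 (DrN DrN_nonneg drnA_pdec drnB_pdec)
open Vale.Agent.P141.H585 (bthO rB kS kS_nonneg mem_posB posB pdec_pos mainF_pos lmM_pos mainF_eq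
  UTest un_wP)
open Vale.Agent.P141.H998 (Bi PDec mainF lmM Bdc Gd An en MainEst)

noncomputable section

open scoped Classical

variable {s : ℤ} {τ : Equiv.Perm (Fin 4)} {gd ud : ℕ → ℤ → Prop} {Λ : ℕ} {x : ℤ}
  {C t e0 lam m1 κ μ Mm sg Lg : ℝ} {a : ℤ} {P GP D G1 : ℤ → ℝ} {B : Finset Bi} {cf : Bi → ℝ}
  {E : Bi → Finset ℤ × Finset ℤ × Finset ℤ} {v : Bi → Tri} {F : ℕ → ℤ → ℝ} {o : ℤ}
  {nd : Finset (ℕ × ℤ)} {le : ℕ × ℤ → ℤ}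

theorem posB_eq (h : ∀ b ∈ B, 0 < rB b) : posB B = B := by
  unfold H585.posB
  exact filter_true_of_mem h

/-- **the dropped masses**, tree of the second coordinate -/
theorem hD2M [hdec : DecidableEq ((Bi × Pt × Pt) × (ℕ × ℤ × ℤ))]
    (h : Ctx s τ gd ud Λ x C t e0 lam m1 κ μ Mm a P GP D G1 B cf E v F)
    (ho : o = 1 ∨ o = -1) (hs : 0 < sg) (hL0 : 0 ≤ Lg) (hκ1 : κ ≤ 1) (R : ℤ → ℤ → Finset ℤ) :
    ∑ x0 ∈ Ico (0 : ℤ) (6 * 2 ^ Λ), ∑ x1 ∈ Ico (0 : ℤ) (6 * 2 ^ Λ), ∑ b ∈ R x0 x1,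
      DR (dM s τ o nd le ud Λ x κ μ sg Lg G1 B cf E v x0 x1).a
        (dM s τ o nd le ud Λ x κ μ sg Lg G1 B cf E v x0 x1).A2 Λ b ≤
      DrN κ μ sg Lg C (128 * Mm) * 2 ^ Λ * (36 * 4 ^ Λ) := by
  have hC0 : 0 < C := by linarith [h.hC]
  have ho1 : |o| ≤ 1 := by rcases ho with rfl | rfl <;> norm_num
  have key := drnA_pdec (nd := Wn s nd le ud Λ x) (σ := τ) ho1 h.rgn h.enG hC0.le h.hκ hκ1
    h.hμ.le hs hL0 h.dec R
  rw [posB_eq h.pos] at key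
  exact key

/-- **the dropped masses**, tree of the third coordinate -/
theorem hD3M [hdec : DecidableEq ((Bi × Pt × Pt) × (ℕ × ℤ × ℤ))]
    (h : Ctx s τ gd ud Λ x C t e0 lam m1 κ μ Mm a P GP D G1 B cf E v F)
    (ho : o = 1 ∨ o = -1) (hs : 0 < sg) (hs1 : sg ≤ 1) (hL0 : 0 ≤ Lg) (hκ1 : κ ≤ 1)
    (hμ1 : 1 ≤ μ) (R : ℤ → ℤ → Finset ℤ) :
    ∑ x0 ∈ Ico (0 : ℤ) (6 * 2 ^ Λ), ∑ x1 ∈ Ico (0 : ℤ) (6 * 2 ^ Λ), ∑ b ∈ R x0 x1,
      DR (dM s τ o nd le ud Λ x κ μ sg Lg G1 B cf E v x0 x1).b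
        (dM s τ o nd le ud Λ x κ μ sg Lg G1 B cf E v x0 x1).A3 Λ b ≤
      DrN κ μ sg Lg C (128 * Mm) * 2 ^ Λ * (36 * 4 ^ Λ) := by
  have hC0 : 0 < C := by linarith [h.hC]
  have ho1 : |o| ≤ 1 := by rcases ho with rfl | rfl <;> norm_num
  have key := drnB_pdec (nd := Wn s nd le ud Λ x) (σ := τ) ho1 h.rgn h.enG hC0.le h.hκ hκ1
    hμ1 hs hs1 hL0 h.dec R
  rw [posB_eq h.pos] at key
  exact key

/-- the residual part of the main family -/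
def RPm (s : ℤ) (σ : Equiv.Perm (Fin 4)) (o : ℤ) (nd : Finset (ℕ × ℤ)) (le : ℕ × ℤ → ℤ)
    (ud : ℕ → ℤ → Prop) (Λ : ℕ) (x : ℤ) (κ μ sg Lg : ℝ) (G1 : ℤ → ℝ) (B : Finset Bi)
    (cf : Bi → ℝ) (E : Bi → Finset ℤ × Finset ℤ × Finset ℤ) (v : Bi → Tri)
    (tp : ℕ → ℤ → ℕ) (X : Fin 2 → ℕ → ℤ → ℝ) : ℝ :=
  (|dd σ.symm 3 2| : ℤ) * ((36 * (4 : ℝ) ^ Λ)⁻¹ * RP σ.symm o Λ (Wn s nd le ud Λ x)
    (slt σ (mainF (lc σ.symm 0) μ B cf E v) (cu ud G1) (Ys ud tp (X 0)) (Ys ud tp (X 1)))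
    (RrO (lc σ.symm 0) (bthO κ μ sg Lg cf E v) (Gm σ.symm ud G1) (exm σ.symm ud Λ) B))

/-- **The total of the main family**: kernel number plus residual part. -/
theorem mainK {σ : Equiv.Perm (Fin 4)}
    (h : Ctx s σ.symm gd ud Λ x C t e0 lam m1 κ μ Mm a P GP D G1 B cf E v F)
    (ho : o = 1 ∨ o = -1) (hs : 0 < sg) (hs1 : sg ≤ 1) (hLg : 256 * C ≤ Lg)
    (hsub : ∀ N ∈ nd, W N.1 N.2 ⊆ (gr 7 s).cube N.1 (le N)) (hnd : ∀ N ∈ nd, 1 ≤ N.1)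
    (hm1 : 0 ≤ m1) (hκ1 : κ ≤ 1) (hμ1 : 1 ≤ μ) {tp : ℕ → ℤ → ℕ} {X : Fin 2 → ℕ → ℤ → ℝ}
    {ε e Kp : ℝ} (hX : Fam2 (gr 7 s) ud Λ tp X e Kp) (hε : 0 < ε) (he : 0 ≤ e) (hKp : 0 ≤ Kp) :
    T4 (nvT s ho nd le σ hsub) (An ud fun k y => ¬ Bdc s Λ x k y)
      (mainF (lc σ.symm 0) μ B cf E v) (st G1) (mv tp (X 0)) (mv tp (X 1)) ≤
      3 * TN ε (kS C t e0 lam + 3 / 2 * sg * m1) (512 * e) (LmN κ μ sg Lg C m1) 157
        (40192 * (Kp + 1)) (DrN κ μ sg Lg C (128 * Mm)) * 2 ^ Λ +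
        RPm s σ o nd le ud Λ x κ μ sg Lg G1 B cf E v tp X := by
  have hC0 : 0 < C := by linarith [h.hC]
  have hL0 : 0 ≤ Lg := by linarith
  have hN : ∀ k y, (An ud fun k y => ¬ Bdc s Λ x k y) k y → ud k y := fun k y hy => hy.1
  have e1 : T4 (nvT s ho nd le σ hsub) (An ud fun k y => ¬ Bdc s Λ x k y)
      (mainF (lc σ.symm 0) μ B cf E v) (st G1) (mv tp (X 0)) (mv tp (X 1)) =
      T4 (nvT s ho nd le σ hsub) (An ud fun k y => ¬ Bdc s Λ x k y)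
      (mainF (lc σ.symm 0) μ B cf E v) (cu ud G1) (mv tp (X 0)) (mv tp (X 1)) :=
    T4_congr fun k y hy z hz => ⟨rfl, (h.cu_eq hy.1 hz).symm, rfl, rfl⟩
  rw [e1]
  have hτ : 0 ≤ kS C t e0 lam + 3 / 2 * sg * m1 :=
    add_nonneg (kS_nonneg hC0.le h.ht.le) (by positivity)
  have hL : 0 ≤ LmN κ μ sg Lg C m1 := by
    unfold LmN
    have h1 := H443.cA_nonneg (κ := κ) (sg := sg) (Λ := 256 * C) h.hμ.le hL0
    have h2 := H443.cB_nonneg (κ := κ) (μ := μ) (sg := sg) (Λ := 256 * C)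
    positivity
  have hKR : ∀ k m0 m1 n, (k, vz σ.symm o m0 m1 n) ∈ nd →
      (An ud fun k y => ¬ Bdc s Λ x k y) k (le (k, vz σ.symm o m0 m1 n)) →
      ∀ x0 ∈ ivm k m0, ∀ x1 ∈ ivm k m1, ∀ x2 ∈ ivm k n, ∀ x3 ∈ ivm k (qz o m0 m1 n),
        mainF (lc σ.symm 0) μ B cf E v k
          (dd σ.symm 0 1 * x1 + dd σ.symm 0 2 * x2 + dd σ.symm 0 3 * x3) *
          cu ud G1 k (dd σ.symm 1 0 * x0 + dd σ.symm 1 2 * x2 + dd σ.symm 1 3 * x3) =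
        KrO (lc σ.symm 0) (bthO κ μ sg Lg cf E v) (Gm σ.symm ud G1) (exm σ.symm ud Λ) B k x0 x1
          x2 x3 +
        RrO (lc σ.symm 0) (bthO κ μ sg Lg cf E v) (Gm σ.symm ud G1) (exm σ.symm ud Λ) B k x0 x1
          x2 x3 := by
    intro k m0 m1 n _ _ x0 _ x1 _ x2 _ x3 _
    have hms := main_split (c := lc σ.symm 0) (B := bthO κ μ sg Lg cf E v)
      (G := Gm σ.symm ud G1) (ex := exm σ.symm ud Λ) (I := B)
      (fun b _ => H585.cp_nonneg h.hμ.le hL0 b)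
      (fun x0 k n m he y hy z hz => h.hex x0 k n m he hy hz) k x0 x1 x2 x3
    rw [← mainF_eq h.pos] at hms
    exact hms
  have hF : ∀ x0 ∈ Ico (0 : ℤ) (6 * 2 ^ Λ), ∀ x1 ∈ Ico (0 : ℤ) (6 * 2 ^ Λ),
      H606.FibC σ.symm o Λ (Wn s nd le ud Λ x) ud
      (KrO (lc σ.symm 0) (bthO κ μ sg Lg cf E v) (Gm σ.symm ud G1) (exm σ.symm ud Λ) B)
      (kS C t e0 lam + 3 / 2 * sg * m1) (LmN κ μ sg Lg C m1) x0 x1
      (dM s σ.symm o nd le ud Λ x κ μ sg Lg G1 B cf E v x0 x1) :=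
    fun x0 h0 x1 h1 => fibCM h ho hs hLg hsub hm1 h0 h1
  exact tmain ho σ hsub hnd h.rgn h.top hN hX hε hτ he hL hKp
    (mainF (lc σ.symm 0) μ B cf E v) (cu ud G1) hKR
    (dM s σ.symm o nd le ud Λ x κ μ sg Lg G1 B cf E v) hF
    (hD2M (hdec := fun a b => Classical.propDecidable (a = b)) h ho hs hL0 hκ1
      fun x0 x1 => RB Λ (dd σ.symm 3 2) (bt2 σ.symm (al s Λ x) x0 x1))
    (hD3M (hdec := fun a b => Classical.propDecidable (a = b)) h ho hs hs1 hL0 hκ1 hμ1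
      fun x0 x1 => RB Λ (dd σ.symm 2 3) (bt3 σ.symm (al s Λ x) x0 x1))

/-- **The estimate of the residual part** (open input: `H24/ResOf`). -/
def ResE (s : ℤ) (a : ℤ) (o : ℤ) (nd : Finset (ℕ × ℤ)) (le : ℕ × ℤ → ℤ) (gd : ℕ → ℤ → Prop)
    (C t e0 lam m1 κ μ Mm sg Lg e Kp cR : ℝ) : Prop :=
  ∀ (σ : Equiv.Perm (Fin 4)) (Λ : ℕ) (x : ℤ) (ud : ℕ → ℤ → Prop) (P GP D G1 : ℤ → ℝ)
    (B : Finset Bi) (cf : Bi → ℝ) (E : Bi → Finset ℤ × Finset ℤ × Finset ℤ) (v : Bi → Tri)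
    (F : ℕ → ℤ → ℝ), Ctx s σ.symm gd ud Λ x C t e0 lam m1 κ μ Mm a P GP D G1 B cf E v F →
    ∀ (tp : ℕ → ℤ → ℕ) (X : Fin 2 → ℕ → ℤ → ℝ), Fam2 (gr 7 s) ud Λ tp X e Kp →
      RPm s σ o nd le ud Λ x κ μ sg Lg G1 B cf E v tp X ≤ cR * 2 ^ Λ

/-- **`MainEst` from the residual part.** -/
theorem mainEst_of {κι : Type*} (ho : o = 1 ∨ o = -1)
    (hsub : ∀ N ∈ nd, W N.1 N.2 ⊆ (gr 7 s).cube N.1 (le N)) (hnd : ∀ N ∈ nd, 1 ≤ N.1)
    {U : Fin 4 → CSys (gr 7 s) κι} (hU : UTest U t) {L : ℕ} {e Kp ε cR cM : ℝ}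
    (hC : 1 ≤ C) (ht : 0 < t) (he0 : 0 ≤ e0) (hlam : 0 ≤ lam) (hm1 : 0 ≤ m1) (hκ : 0 < κ)
    (hκ1 : κ ≤ 1) (hμ1 : 1 ≤ μ) (ha : 128 ≤ a) (hs : 0 < sg) (hs1 : sg ≤ 1)
    (hLg : 256 * C ≤ Lg) (hε : 0 < ε) (he : 0 ≤ e) (hKp : 0 ≤ Kp)
    (hres : ResE s a o nd le gd C t e0 lam m1 κ μ Mm sg Lg e Kp cR)
    (hcM : 3 * TN ε (kS C t e0 lam + 3 / 2 * sg * m1) (512 * e) (LmN κ μ sg Lg C m1) 157
      (40192 * (Kp + 1)) (DrN κ μ sg Lg C (128 * Mm)) + cR ≤ 128 * cM) :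
    MainEst (n4T s ho nd le hsub) gd L U (lmM s a) C e0 lam m1 e Kp κ μ Mm cM := by
  intro σ Λ x ud _ hR hx P GP D G1 B cf E v F hd hP hUn hEP hED hUn1 hEG hti hlm tp X hX
  have h : Ctx s σ.symm gd ud Λ x C t e0 lam m1 κ μ Mm a P GP D G1 (posB B) cf E v F :=
    { rgn := hR
      top := hx
      dec := pdec_pos hd
      pos := fun b hb => (mem_posB.1 hb).2
      sum := hP
      un := un_wP hU (by linarith) hUn
      enP := hEP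
      enD := hED
      enG := hEG
      tiny := hti
      loc := fun k y hy => (lmM_pos a k y).trans (hlm k y hy)
      hC := hC
      ht := ht
      he0 := he0
      hlam := hlam
      hκ := hκ
      hμ := by linarith
      ha := ha }
  have h1 := mainK h ho hs hs1 hLg hsub hnd hm1 hκ1 hμ1 hX hε he hKp
  have h2 := hres σ Λ x ud P GP D G1 (posB B) cf E v F h tp X hX
  rw [← mainF_pos hd.vc] at h1
  have h3 : cd (gr 7 s) Λ x = 128 * 2 ^ Λ := by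
    unfold cd
    rw [card_gr]
    push_cast
    rw [pow_add]
    ring
  refine (h1.trans (add_le_add le_rfl h2)).trans ?_
  rw [h3, ← add_mul]
  have h4 : (0 : ℝ) < 2 ^ Λ := by positivity
  have h5 := mul_le_mul_of_nonneg_right hcM h4.le
  linarith

end

end Vale.Agent.P141.H585M
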