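import Vale.Agent.P141.H585.MainOf
import Vale.Agent.P141.H24.ResOf

/-!
# P141, line W, end lemma: the estimate of the main family, residual part included

`resE`: the residual part (`H24/ResOf`); `mainEst_num`: `H998.MainEst` with an explicit number.
-/

namespace Vale.Agent.P141.H585M

open Finset
open Vale.Agent.P141.PL (Pt)
open Vale.Agent.P141.PL.H95 (gr card_gr)
open Vale.Agent.P141.PL.H318 (CSys)
open Vale.Agent.P141.PL.H571 (W)
open Vale.Agent.P141.PL.H855 (n4T)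
open Vale.Agent.P141.H347 (cd)
open Vale.Agent.P141.H8 (Fam2)
open Vale.Agent.P141.H911
open Vale.Agent.P141.H443 (cu)
open Vale.Agent.P141.H606 (TN)
open Vale.Agent.P141.H75 (slt slt_2 slt_3)
open Vale.Agent.P141.H935 (Ys)
open Vale.Agent.P141.H780 (DrN)
open Vale.Agent.P141.H24 (kRes tres_pdec)
open Vale.Agent.P141.H585 (kS UTest)
open Vale.Agent.P141.H998 (mainF lmM MainEst)

noncomputable section

open scoped Classical

variable {s : ℤ} {gd : ℕ → ℤ → Prop} {C t e0 lam m1 κ μ Mm sg Lg : ℝ} {a o : ℤ}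
  {nd : Finset (ℕ × ℤ)} {le : ℕ × ℤ → ℤ}

/-- **The residual part.** -/
theorem resE (ho : o = 1 ∨ o = -1) (hsg : 0 < sg) (hLg : 512 * C ≤ Lg) (hκ1 : κ ≤ 1)
    {e Kp : ℝ} (he : 0 < e) (hKp : 0 ≤ Kp) :
    ResE s a o nd le gd C t e0 lam m1 κ μ Mm sg Lg e Kp (128 * (kRes κ μ sg Lg e C Kp * Mm)) := by
  intro σ Λ x ud P GP D G1 B cf E v F h tp X hX
  have hC0 : 0 < C := by linarith [h.hC]
  have key := tres_pdec (σ := σ.symm) (nd := Wn s nd le ud Λ x) (Lg := Lg) (sg := sg)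
    (A := slt σ (mainF (lc σ.symm 0) μ B cf E v) (cu ud G1) (Ys ud tp (X 0)) (Ys ud tp (X 1)))
    ho h.rgn hX h.enG hC0.le he hKp h.hκ hκ1 h.hμ hsg (by linarith) hLg h.dec
    (fun k _ => by rw [slt_2]) (fun k _ => by rw [slt_3])
  rw [posB_eq h.pos] at key
  have h3 : cd (gr 7 s) Λ x = 128 * 2 ^ Λ := by
    unfold cd
    rw [card_gr]
    push_cast
    rw [pow_add]
    ring
  unfold RPm
  refine key.trans (le_of_eq ?_)
  rw [h3]
  ring

/-- **The estimate of the main family in numbers.** -/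
theorem mainEst_num {κι : Type*} (ho : o = 1 ∨ o = -1)
    (hsub : ∀ N ∈ nd, W N.1 N.2 ⊆ (gr 7 s).cube N.1 (le N)) (hnd : ∀ N ∈ nd, 1 ≤ N.1)
    {U : Fin 4 → CSys (gr 7 s) κι} (hU : UTest U t) {L : ℕ} {e Kp ε cM : ℝ}
    (hC : 1 ≤ C) (ht : 0 < t) (he0 : 0 ≤ e0) (hlam : 0 ≤ lam) (hm1 : 0 ≤ m1) (hκ : 0 < κ)
    (hκ1 : κ ≤ 1) (hμ1 : 1 ≤ μ) (ha : 128 ≤ a) (hs : 0 < sg) (hs1 : sg ≤ 1)
    (hLg : 512 * C ≤ Lg) (hε : 0 < ε) (he : 0 < e) (hKp : 0 ≤ Kp)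
    (hcM : 3 * TN ε (kS C t e0 lam + 3 / 2 * sg * m1) (512 * e) (LmN κ μ sg Lg C m1) 157
      (40192 * (Kp + 1)) (DrN κ μ sg Lg C (128 * Mm)) / 128 + kRes κ μ sg Lg e C Kp * Mm ≤ cM) :
    MainEst (n4T s ho nd le hsub) gd L U (lmM s a) C e0 lam m1 e Kp κ μ Mm cM :=
  mainEst_of ho hsub hnd hU hC ht he0 hlam hm1 hκ hκ1 hμ1 ha hs hs1 (by linarith) hε he.le hKp
    (resE ho hs hLg hκ1 he hKp) (by linarith)

end

end Vale.Agent.P141.H585M
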