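import Vale.Agent.P141.H585.NumLD
import Vale.Agent.P141.PL.H855.EndSpine

/-!
# P141, line W, end lemma: `MainT`, and `EndStmT`

`mainT : MainT`, the estimate of the main family for the systems `Ex.T`;
`endStmT : H444.EndStmT`, the END statement.
-/

namespace Vale.Agent.P141.H585M

open Finset
open Vale.Agent.P141.PL.H95 (gr shf)
open Vale.Agent.P141.PL.H315 (le)
open Vale.Agent.P141.PL.H855
open Vale.Agent.P141.H347 (Dat2 Root2)
open Vale.Agent.P141.H347.Gs (Ex)
open Vale.Agent.P141.H379 (nvF sub_frN)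
open Vale.Agent.P141.H444 (EndStmT)
open Vale.Agent.P141.H782 (used frN mem_frN)
open Vale.Agent.P141.H585 (kS kS_nonneg kS_le cKop cKop_nonneg uTest_ex)
open Vale.Agent.P141.H780 (DrN DrN_nonneg)
open Vale.Agent.P141.H944 (BE BE_nonneg cMain cMain_nonneg main_num top_tj)
open Vale.Agent.P141.H150.Mv (nE nE_nonneg)
open Vale.Agent.P141.H443 (cA_nonneg cB_nonneg)

noncomputable section

open scoped Classical

/-- the constant of the operator bound -/
def CtE (A : ℝ) : ℝ := 3 * cKop A + 3 / 2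

/-- the constant of the main family -/
def A2E (A : ℝ) : ℝ :=
  cMain A 512 (CLE A) (CDE A) (CtE A) (256 * A) (50944 * A) 3710 259 259 157 40192 (3 / 128) 99

theorem CLE_nonneg {A : ℝ} (hA : 0 ≤ A) : 0 ≤ CLE A := by unfold CLE; positivity

theorem CDE_nonneg {A : ℝ} (hA : 0 ≤ A) : 0 ≤ CDE A := by
  have := Vale.Agent.P141.H780.cN_nonneg
  unfold CDE; positivity

theorem CtE_nonneg {A : ℝ} (hA : 1 ≤ A) : 0 ≤ CtE A := by
  have := cKop_nonneg hA
  unfold CtE; positivity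

theorem A2E_nonneg {A : ℝ} (hA : 1 ≤ A) : 0 ≤ A2E A := by
  have h0 : 0 ≤ A := by linarith
  unfold A2E
  exact cMain_nonneg h0 (by norm_num) (CLE_nonneg h0) (CDE_nonneg h0) (CtE_nonneg hA)
    (by norm_num) (by norm_num) (by norm_num) (by norm_num) (by norm_num) (by norm_num)

/-- **The estimate of the main family.** -/
theorem mainT : MainT := by
  intro ex κ _ hκ hκ1 aM _ _
  refine ⟨BE aM (aLE aM) 8 κ, min (3 / 8) (κ / 2), BE_nonneg hκ.le,
    lt_min (by norm_num) (by linarith), fun A hA => ⟨A2E A, A2E_nonneg hA, ?_⟩⟩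
  intro n P hP _ f o K V 𝒩 hd j _ b en K' hen henB hK' henK
  have hA0 : 0 ≤ A := by linarith
  have hj0 : (0 : ℝ) ≤ j := Nat.cast_nonneg j
  have ht := tj_pos j
  have ht1 := tj_le_one j
  have hk := kapE_pos aM j
  have hk1 := kapE_le_one aM j
  have hmu := muE_pos aM j
  have hm1 := m1E_pos aM j
  have hMm := MmE_nonneg hA0 aM j
  have hC := Vale.Agent.P141.H780.cN_nonneg
  have hp0 : (0 : ℝ) < 2 ^ (-(κ * (j : ℝ))) := Real.rpow_pos_of_pos two_pos _
  have hp1 : (2 : ℝ) ^ (-(κ * (j : ℝ))) ≤ 1 :=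
    Real.rpow_le_one_of_one_le_of_nonpos one_le_two (by
      have := mul_nonneg hκ.le hj0
      linarith)
  have hsg : 0 < tj j ^ (aM + 2) := by positivity
  have hsg1 : tj j ^ (aM + 2) ≤ 1 := pow_le_one₀ ht.le ht1
  have hnd : ∀ N ∈ frN n b 𝒩 ∅, 1 ≤ N.1 := fun N hN => (hd.root N (mem_frN.1 hN).1).1
  -- the number
  set τ : ℝ := kS A (tj j) (2 ^ (-(κ * (j : ℝ)))) (tj j ^ 2) +
    3 / 2 * tj j ^ (aM + 2) * m1E aM j with hτd
  have hτ0 : 0 ≤ τ := add_nonneg (kS_nonneg hA0 ht.le) (by positivity)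
  have hτ : τ ≤ CtE A * tj j ^ min (3 / 8) (κ / 2) :=
    top_tj (cKop_nonneg hA) (by norm_num) (kS_le hA ht ht1 hp0.le hp1 (by positivity))
      (le_of_eq (by ring))
  have hL0 : 0 ≤ LmN (kapE aM j) (muE aM j) (tj j ^ (aM + 2)) (512 * A) A (m1E aM j) := by
    unfold LmN
    have h1 := cA_nonneg (κ := kapE aM j) (sg := tj j ^ (aM + 2)) (Λ := 256 * A) hmu.le
      (by positivity : 0 ≤ 512 * A)
    have h2 := cB_nonneg (κ := kapE aM j) (μ := muE aM j) (sg := tj j ^ (aM + 2)) (Λ := 256 * A)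
    positivity
  have hD0 : 0 ≤ DrN (kapE aM j) (muE aM j) (tj j ^ (aM + 2)) (512 * A) A
      (128 * MmE A aM j) := DrN_nonneg hmu.le (by positivity) (by positivity)
  have hK0 : 0 ≤ K' := by linarith
  have hnum := main_num (pE := 8) (A3 := 3 / 128) (A4 := 99) (Nr := 157) (Ctt := 40192)
    (LG := 256 * A) (CE := 50944 * A) (CnD := 3710) (CnL := 259) (Cr := 259) (Ce := 512)
    (e' := 512 * en) (e'' := 259 * en) (tt := 40192 * (K' + 1)) (nE := nE (kapE aM j) A)
    (nD := 3710 * (en * (K' + 1))) (nL := 259 * en) hA0 (by norm_num) (CLE_nonneg hA0)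
    (CDE_nonneg hA0) (CtE_nonneg hA) (by positivity) (by positivity) (by norm_num) (by norm_num)
    (by norm_num) (by norm_num) (by norm_num) (by norm_num) (by norm_num) hen henB hK' henK
    (by positivity) le_rfl le_rfl hL0 hD0 (LmN_le hA0 aM j) (DrN_le hA0 aM j) hτ0 hτ le_rfl
    (nE_nonneg hA0) (le_of_eq (div_eq_mul_inv _ _)) (by positivity) le_rfl (by positivity) le_rfl
  refine mainEst_num (sg := tj j ^ (aM + 2)) (Lg := 512 * A) (ε := tj j ^ (aLE aM + 1)) hd.ho
    (sub_frN hd) hnd (uTest_ex ex n j b) hA ht hp0.le (by positivity) hm1.le hk hk1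
    (one_le_muE aM j) (by norm_num) hsg hsg1 le_rfl (by positivity) hen hK0 ?_
  rw [kRes_eq]
  have e1 : 512 * A / 2 = 256 * A := by ring
  rw [e1]
  have h2 : A2E A * 2 ^ (-((κ + min (3 / 8) (κ / 2)) * (j : ℝ))) ≤
      A2E A * 2 ^ (-((κ + min (3 / 8) (κ / 2)) * (j : ℝ))) * (1 + P) :=
    le_mul_of_one_le_right (mul_nonneg (A2E_nonneg hA) (Real.rpow_pos_of_pos two_pos _).le)
      (by linarith)
  refine le_trans (le_of_eq ?_) (hnum.trans h2)
  ring

/-- **END.** -/
theorem endStmT : EndStmT := endStmT_of mainT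

end

end Vale.Agent.P141.H585M
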