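import Vale.Agent.P141.H944.NumT
import Vale.Agent.P141.H585.MainR

/-!
# P141, line W, end lemma: the masses and the dropped masses as powers of `t`

`aLE`: the exponent; `LmN_le`, `DrN_le`, `kRes_eq`: the numbers of `mainEst_num` in the letters of
`H944.main_num`.
-/

namespace Vale.Agent.P141.H585M

open Vale.Agent.P141.PL.H855 (tj tj_pos tj_le_one kapE muE m1E MmE)
open Vale.Agent.P141.H443 (cA cB)
open Vale.Agent.P141.H780 (DrN cN cN_nonneg)
open Vale.Agent.P141.H24 (kRes nRes)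
open Vale.Agent.P141.H944 (conv_le xR)
open Vale.Agent.P141.H150.Mv (nE)

noncomputable section

/-- the exponent of the masses -/
def aLE (aM : ℕ) : ℕ := (aM + 2) * 146 + (aM + 2) * 6 + (aM + 1) * 1 + aM * 1

theorem kapE_pos (aM j : ℕ) : 0 < kapE aM j := by
  have := tj_pos j
  unfold kapE
  positivity

theorem kapE_le_one (aM j : ℕ) : kapE aM j ≤ 1 := by
  unfold kapE
  exact pow_le_one₀ (tj_pos j).le (tj_le_one j)

theorem muE_pos (aM j : ℕ) : 0 < muE aM j := by
  have := kapE_pos aM j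
  unfold muE
  positivity

theorem one_le_muE (aM j : ℕ) : 1 ≤ muE aM j := by
  have h := kapE_pos aM j
  unfold muE
  exact one_le_inv_iff₀.2 ⟨by positivity, pow_le_one₀ h.le (kapE_le_one aM j)⟩

theorem m1E_pos (aM j : ℕ) : 0 < m1E aM j := by
  have := tj_pos j
  unfold m1E
  positivity

theorem MmE_nonneg {A : ℝ} (hA : 0 ≤ A) (aM j : ℕ) : 0 ≤ MmE A aM j := by
  have := tj_pos j
  unfold MmE
  positivity

/-- the constant of the masses -/
def CLE (A : ℝ) : ℝ := 2 * (17 * (557056 * ((256 * A) ^ 2 * (512 * A))) +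
  17 * (1114112 * (256 * A) ^ 2))

/-- **the masses** -/
theorem LmN_le {A : ℝ} (hA : 0 ≤ A) (aM j : ℕ) :
    2 * LmN (kapE aM j) (muE aM j) (tj j ^ (aM + 2)) (512 * A) A (m1E aM j) ≤
      CLE A / tj j ^ aLE aM := by
  have ht := tj_pos j
  have hk := kapE_pos aM j
  have hk1 := kapE_le_one aM j
  have hm := m1E_pos aM j
  set k := kapE aM j with hkd
  set g := tj j ^ (aM + 2) with hg
  have hg0 : 0 < g := by positivity
  have hg1 : g ≤ 1 := pow_le_one₀ ht.le (tj_le_one j)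
  refine conv_le (aM := aM) (aL := aLE aM) (p := 146) (q := 6) (r := 1) (s := 0)
    (by unfold CLE; positivity) ?_ (by unfold aLE; omega)
  rw [← hkd, ← hg, pow_one, pow_zero, mul_one]
  have hmu : muE aM j = (k ^ 26)⁻¹ := rfl
  have e1 : cA k (muE aM j) g (512 * A) (256 * A) =
      557056 * ((256 * A) ^ 2 * (512 * A)) * ((k ^ 146)⁻¹ * (g ^ 6)⁻¹) := by
    unfold cA
    rw [hmu, inv_pow, ← pow_mul, show (146 : ℕ) = 26 * 5 + 16 by norm_num, pow_add]
    field_simp
  have e2 : cB k (muE aM j) g (256 * A) ≤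
      1114112 * (256 * A) ^ 2 * ((k ^ 146)⁻¹ * (g ^ 6)⁻¹) := by
    have e3 : cB k (muE aM j) g (256 * A) =
        1114112 * (256 * A) ^ 2 * ((k ^ 116)⁻¹ * (g ^ 2)⁻¹) := by
      unfold cB
      rw [hmu, inv_pow, ← pow_mul, show (116 : ℕ) = 26 * 4 + 12 by norm_num, pow_add]
      field_simp
    rw [e3]
    refine mul_le_mul_of_nonneg_left ?_ (by positivity)
    refine mul_le_mul ?_ ?_ (by positivity) (by positivity)
    · exact inv_anti₀ (by positivity) (pow_le_pow_of_le_one hk.le hk1 (by norm_num))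
    · exact inv_anti₀ (by positivity) (pow_le_pow_of_le_one hg0.le hg1 (by norm_num))
  unfold LmN CLE
  rw [e1]
  have e4 := mul_le_mul_of_nonneg_right e2 hm.le
  calc _ ≤ 2 * (17 * (557056 * ((256 * A) ^ 2 * (512 * A)) * ((k ^ 146)⁻¹ * (g ^ 6)⁻¹) *
        m1E aM j) + 17 * (1114112 * (256 * A) ^ 2 * ((k ^ 146)⁻¹ * (g ^ 6)⁻¹) * m1E aM j)) := by
        linarith
    _ = _ := by ring

/-- the constant of the dropped masses -/
def CDE (A : ℝ) : ℝ := 187 * (34 * cN * ((1 + 512 * A) * A ^ 2)) * (128 * A)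

/-- **the dropped masses** -/
theorem DrN_le {A : ℝ} (hA : 0 ≤ A) (aM j : ℕ) :
    DrN (kapE aM j) (muE aM j) (tj j ^ (aM + 2)) (512 * A) A (128 * MmE A aM j) ≤
      CDE A / tj j ^ aLE aM := by
  have ht := tj_pos j
  have hk := kapE_pos aM j
  have hc := cN_nonneg
  set k := kapE aM j with hkd
  set g := tj j ^ (aM + 2) with hg
  have hg0 : 0 < g := by positivity
  refine conv_le (aM := aM) (aL := aLE aM) (p := 98) (q := 6) (r := 0) (s := 1)
    (by unfold CDE; positivity) ?_ (by unfold aLE; omega)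
  rw [← hkd, ← hg, pow_one, pow_zero, mul_one]
  have hmu : muE aM j = (k ^ 26)⁻¹ := rfl
  have hMm : MmE A aM j = A * (tj j ^ aM)⁻¹ := rfl
  unfold DrN CDE
  rw [hmu, hMm, inv_pow, ← pow_mul, show (98 : ℕ) = 26 * 3 + 20 by norm_num, pow_add]
  refine le_of_eq ?_
  field_simp

/-- the residual number in the letters of `H944` -/
theorem kRes_eq (κ μ sg Lg e C Kp : ℝ) : kRes κ μ sg Lg e C Kp =
    99 * xR μ κ sg (Lg / 2) (nE κ C) (3710 * (e * (Kp + 1))) (259 * e) (259 * e) := rfl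

end

end Vale.Agent.P141.H585M
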