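import Vale.Agent.P141.H585.PairR
import Vale.Agent.P141.H336.TVp

/-!
# The pair (B, C~), hub x1, with the linear form of the stack numbers

`finR`, `pair_rawR`: as `H585.PairF.fin` and `H585.PairR.pair_raw`, the stack is a `H336.StkR` with
the total energy `EstR`. `TV_PB`: the plane energy of the raw partner.
-/

set_option linter.unusedSectionVars false

namespace Vale.Agent.P141.H585.PairFR

open Finset Matrix Vale.Agent.P075 Vale.Agent.P141.PL Vale.Agent.P141.PL.H103 Vale.Agent.P141.H103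
open Vale.Agent.P141.H389 Vale.Agent.P141.H585.PairCh Vale.Agent.P141.H585.PairO
open Vale.Agent.P141.H585.PhiSat Vale.Agent.P141.H585.PairS Vale.Agent.P141.H585.PairF
open Vale.Agent.P141.H505 Vale.Agent.P141.H297.Ch Vale.Agent.P141.H585.StkG
open Vale.Agent.P141.H585.PairR
open Vale.Agent.P141.H336 (StkR EstR)
open Vale.Agent.P141.H43 (av av_half av_mono av_nonneg av_add av_sub av_mul)

noncomputable section

section plane

variable {ι : ℕ → Type*} [∀ k, Fintype (ι k)] [∀ k, DecidableEq (ι k)]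
variable {N k₀ : ℕ} {s t2 : ℝ} {P W : ∀ k, ℕ → ℤ → ℤ → Matrix (ι k) (ι k) ℝ}
  {r : ∀ k, Matrix (ι (k + 1)) (ι (k + 1)) ℝ} {P' X₀ X₁ M : ∀ k, ℤ → ℤ → Matrix (ι k) (ι k) ℝ}
  {g y x : ℕ → ℤ → ℤ → ℤ → ℝ}
  {R S T : ℤ} {μ : ℝ} {J j : ℕ} {Y₀ Y₁ M₀ M₁ : ∀ k, ℕ → ℤ → ℤ → Matrix (ι k) (ι k) ℝ}
  {q p γ : ℕ → ℕ → ℤ → ℤ → ℝ} {H Qo Qm : ℕ → ℝ}

/-- own defects of the outer steps on the main diagonal -/
theorem stk_dlsR (h : StkR k₀ N T S μ J W Y₀ Y₁ M₀ M₁ q p γ H Qo Qm) (hj : j ≤ J)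
    (hs : s = (μ / 4 ^ j)⁻¹) :
    ∑ k ∈ Ico k₀ N, (4 : ℝ) ^ (k + 1) * ∑ m ∈ iv (N - (k + 1)) S,
      ∑ n ∈ iv (N - (k + 1)) T, mh (fun h => dls s (Y₀ k k n h) (Y₁ k k n h)) m
      ≤ 4 * s * EstR N J H Qo Qm := by
  have hμ := h.hμ
  have s0 : 0 < s := by rw [hs]; positivity
  have h1 := h.outer_diag 0
  rw [Nat.sub_zero] at h1
  have hX := h.X_le
  have h2 : ∑ k ∈ Ico k₀ N, (4 : ℝ) ^ (k + 1) * ∑ m ∈ iv (N - (k + 1)) S,
      ∑ n ∈ iv (N - (k + 1)) T, mh (fun h => dls s (Y₀ k k n h) (Y₁ k k n h)) m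
      ≤ ∑ k ∈ Ico k₀ N, s * ((2 : ℝ) ^ (k + 0 + 1) * 2 ^ k * ∑ m ∈ iv (N - k) S,
        ∑ n ∈ iv (N - (k + 0 + 1)) T, SD μ J (Y₀ k (k + 0) n m) (Y₁ k (k + 0) n m)) := by
    refine Finset.sum_le_sum fun k hk => ?_
    rw [mh_sum (mem_Ico.1 hk).2 T S (fun n h => dls s (Y₀ k k n h) (Y₁ k k n h))]
    simp only [add_zero]
    rw [mul_left_comm s]
    refine mul_le_mul_of_nonneg_left ?_ (by positivity)
    rw [Finset.mul_sum]
    refine Finset.sum_le_sum fun m _ => ?_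
    rw [Finset.mul_sum]
    refine Finset.sum_le_sum fun n _ => ?_
    have k1 := H336.le_SD (h.psd0 k k n m) (h.psd1 k k n m) hμ hj
    have hsi : μ / 4 ^ j = s⁻¹ := by rw [hs, inv_inv]
    rw [hsi, inv_inv] at k1
    have k2 := mul_le_mul_of_nonneg_left k1 s0.le
    unfold dls
    linarith
  rw [← Finset.mul_sum] at h2
  have h3 := mul_le_mul_of_nonneg_left h1 s0.le
  have h4 := mul_le_mul_of_nonneg_left hX (show 0 ≤ 4 * s by positivity)
  linarith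

/-- own gaps of the middle steps on the main diagonal -/
theorem stk_gpR (h : StkR k₀ N T S μ J W Y₀ Y₁ M₀ M₁ q p γ H Qo Qm)
    (s0 : 0 < s)
    (hγ : ∀ k, k₀ ≤ k → k < N → ∀ n m,
      gp s (r k) (W (k + 1) (k + 1) n m) ≤ 2 * s * γ k (k + 1) n m) :
    ∑ k ∈ Ico k₀ N, (4 : ℝ) ^ (k + 1) * ∑ m ∈ iv (N - (k + 1)) S,
      ∑ n ∈ iv (N - (k + 1)) T, gp s (r k) (W (k + 1) (k + 1) n m)
      ≤ 2 * s * EstR N J H Qo Qm := by
  have h1 := (h.mid_diag 0).trans h.X_le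
  rw [Nat.sub_zero] at h1
  have h2 : ∑ k ∈ Ico k₀ N, (4 : ℝ) ^ (k + 1) * ∑ m ∈ iv (N - (k + 1)) S,
      ∑ n ∈ iv (N - (k + 1)) T, gp s (r k) (W (k + 1) (k + 1) n m)
      ≤ ∑ k ∈ Ico k₀ N, 2 * s * ((2 : ℝ) ^ (k + 1 + 0) * 2 ^ (k + 1)
        * ∑ m ∈ iv (N - (k + 1)) S, ∑ n ∈ iv (N - (k + 1 + 0)) T, γ k (k + 1 + 0) n m) := by
    refine Finset.sum_le_sum fun k hk => ?_
    have hk := mem_Ico.1 hk
    simp only [add_zero]
    have e : (4 : ℝ) ^ (k + 1) = 2 ^ (k + 1) * 2 ^ (k + 1) := by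
      rw [← mul_pow]
      norm_num
    rw [e, mul_left_comm (2 * s)]
    refine mul_le_mul_of_nonneg_left ?_ (by positivity)
    rw [Finset.mul_sum]
    refine Finset.sum_le_sum fun m _ => ?_
    rw [Finset.mul_sum]
    exact Finset.sum_le_sum fun n _ => hγ k hk.1 hk.2 n m
  rw [← Finset.mul_sum] at h2
  have h3 := mul_le_mul_of_nonneg_left h1 (show 0 ≤ 2 * s by positivity)
  linarith

/-- energy of the moves on the main diagonal -/
theorem stk_mvR (h : StkR k₀ N T S μ J W Y₀ Y₁ M₀ M₁ q p γ H Qo Qm)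
    (hmv : ∀ k, k₀ ≤ k → k < N → ∀ n m, mvE (M k n m) (X₀ k n m) (X₁ k n m) ≤ q k k n m) :
    ∑ k ∈ Ico k₀ N, (4 : ℝ) ^ (k + 1) * ∑ m ∈ iv (N - (k + 1)) S,
      ∑ n ∈ iv (N - (k + 1)) T, mh (fun h => mvE (M k n h) (X₀ k n h) (X₁ k n h)) m
      ≤ EstR N J H Qo Qm := by
  have h1 := h.hQo 0
  rw [Nat.sub_zero] at h1
  have h2 : ∑ k ∈ Ico k₀ N, (4 : ℝ) ^ (k + 1) * ∑ m ∈ iv (N - (k + 1)) S,
      ∑ n ∈ iv (N - (k + 1)) T, mh (fun h => mvE (M k n h) (X₀ k n h) (X₁ k n h)) m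
      ≤ ∑ k ∈ Ico k₀ N, (2 : ℝ) ^ (k + 0 + 1) * 2 ^ k * ∑ m ∈ iv (N - k) S,
        ∑ n ∈ iv (N - (k + 0 + 1)) T, q k (k + 0) n m := by
    refine Finset.sum_le_sum fun k hk => ?_
    have hk := mem_Ico.1 hk
    rw [mh_sum hk.2 T S (fun n h => mvE (M k n h) (X₀ k n h) (X₁ k n h))]
    simp only [add_zero]
    refine mul_le_mul_of_nonneg_left ?_ (by positivity)
    exact Finset.sum_le_sum fun m _ => Finset.sum_le_sum fun n _ => hmv k hk.1 hk.2 n m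
  have hH := h.nH 0
  have hQm := h.nQm 0
  have hX := h.X_le
  have : 0 ≤ ((J : ℝ) + 1) * H 0 := by positivity
  linarith

/-- **Final form, middle losses `Y` given.** -/
theorem finR (Hp : SPair N k₀ s t2 P W P' X₀ X₁ M g y x)
    (h : StkR k₀ N T S μ J W Y₀ Y₁ M₀ M₁ q p γ H Qo Qm) (hj : j ≤ J) (hs : s = (μ / 4 ^ j)⁻¹)
    (e0 : ∀ k n m, X₀ k n m = Y₀ k k n m) (e1 : ∀ k n m, X₁ k n m = Y₁ k k n m)
    (hmv : ∀ k, k₀ ≤ k → k < N → ∀ n m, mvE (M k n m) (X₀ k n m) (X₁ k n m) ≤ q k k n m)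
    (ht : 0 ≤ t2) {cc : ℕ → ℤ} (hcc : H588.Pl cc) {VB Y ZB X : ℝ} (nZB : 0 ≤ ZB)
    (hVB : TV k₀ N R S P ≤ VB)
    (hY : ∑ k ∈ Ico k₀ N, GW N R S T (k + 1) (cc (k + 1)) (y k) ≤ Y)
    (hZB : ∑ k ∈ Ico k₀ N, GW N R S T (k + 1) (cc (k + 1)) (fun n n' m =>
      mh (fun h => ((M k n' h)ᵀ * P' k n h * M k n' h).trace) m) ≤ ZB)
    (hX : ∑ k ∈ Ico k₀ N, GW N R S T (k + 1) (cc (k + 1)) (fun n n' m =>
      mh (fun h => x k n n' h) m) ≤ X) :
    ∑ k ∈ Ico k₀ N, GW N R S T (k + 1) (cc (k + 1)) (g k)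
      ≤ √(VB * (400 * s * EstR N J H Qo Qm))
        + (Y + 15 * (t2 * EstR N J H Qo Qm) + X)
        + 7 * √(t2 * s * EstR N J H Qo Qm * ZB) := by
  have hμ := h.hμ
  have s0 : 0 < s := by rw [hs]; positivity
  have nO := h.Est_nonneg
  have k1 := stk_dlsR h hj hs
  simp only [← e0, ← e1] at k1
  have k2 := stk_mvR h hmv
  have k3 := h.TV_stack hj
  rw [← hs] at k3
  set O : ℝ := EstR N J H Qo Qm with hO
  have key := Hp.total_opt s0 ht h.hkN hcc (by positivity : 0 ≤ 4 * s * O) nZB nO hY k1 k2 hZB hX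
  have nV : 0 ≤ TV k₀ N T S (fun k a n m => phs s (W k a n m)) :=
    TV_nonneg (fun k a n m => PairO.phs_symm s0 (h.psd k a n m))
  have nVB : 0 ≤ TV k₀ N R S P := TV_nonneg (fun k a n m => psd_isSymm (Hp.sP k a n m))
  have k4 : √(TV k₀ N R S P * TV k₀ N T S (fun k a n m => phs s (W k a n m)))
      ≤ √(VB * (400 * s * O)) :=
    Real.sqrt_le_sqrt (mul_le_mul hVB k3 nV (nVB.trans hVB))
  have k5 := num_sqrt (b := 0) ht nO le_rfl nZB s0
  have e3 : t2 * s⁻¹ * (4 * s * O) = 4 * (t2 * O) := by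
    field_simp
  rw [e3] at key
  have n1 : 0 ≤ t2 * O := by positivity
  linarith

end plane

section node

variable {ι : Type*} [Fintype ι] [DecidableEq ι]
variable {r : ℝ} {R D : ℕ → ℤ → ℤ → Matrix ι ι ℝ} {c dc : ℕ → ℤ → ℤ → ι → ℝ}
  {b db : ℕ → ℤ → ℤ → ι ⊕ ι → ℝ}

/-- **The pair (B, C~), hub x1, raw partner, linear form.** -/
theorem pair_rawR {k₀ N : ℕ} {Y S T : ℤ} {cc : ℕ → ℤ} (hcc : H588.Pl cc)
    {μ : ℝ} {J j : ℕ} (hj : j ≤ J) {s : ℝ} (hs : s = (μ / 4 ^ j)⁻¹)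
    {t2 : ℝ} (ht : 0 ≤ t2) (hr : r ≠ 0)
    (hM : ∀ a, k₀ ≤ a → a < N → Mvo (R a) (R (a + 1)) (D (a + 1)))
    (hTc : ∀ k, k₀ ≤ k → k < N → Chg k (c k) (c (k + 1)) (dc k))
    (hTb : ∀ k, k₀ ≤ k → k < N → Chg k (b k) (b (k + 1)) (db k))
    (hb : ∀ k x y, b k x y = Sum.elim (0 : ι → ℝ) (fun i => b k x y (Sum.inr i)))
    (cap : ∀ k, k₀ ≤ k → k ≤ N → ∀ n m,
      (t2 • (1 : Matrix (Ix k × (ι ⊕ ι)) (Ix k × (ι ⊕ ι)) ℝ) - PB b k k n m).PosSemidef)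
    {p : ℕ → ℕ → ℤ → ℤ → ℝ} {H Qo Qm : ℕ → ℝ}
    (st : StkR k₀ N T S μ J (fun k => WO r R (c k) k)
      (fun k a n m => XH r R (c k) k a (2 * n) m)
      (fun k a n m => XH r R (c k) k a (2 * n + 1) m)
      (fun k a n m => Nm r D k a n m) (fun k a n m => -Nm r D k a n m)
      (qO J r R D c) p
      (fun k a n m => (1 / 2) * SCr k μ J (WO r R (c (k + 1)) (k + 1) a n m)) H Qo Qm)
    {Qd : ℝ} (hQd : ∑ k ∈ Ico k₀ N, ∑ x ∈ iv N S, ∑ y ∈ iv N T,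
      es r (R (k + 1)) (k + 1) (dc k) x y ≤ Qd)
    {VB ZB XB : ℝ} (hVB : TV k₀ N Y S (PB b) ≤ VB)
    (hZB : ∑ k ∈ Ico k₀ N, GW N Y S T (k + 1) (cc (k + 1)) (fun n n' m =>
      av (k + 1) n fun y => av (k + 1) m fun x =>
        ∑ i, ((D (k + 1) x n')ᵀ *ᵥ fun i => b k x y (Sum.inr i)) i ^ 2) ≤ ZB) (nZB : 0 ≤ ZB)
    (hXB : ∑ k ∈ Ico k₀ N, GW N Y S T (k + 1) (cc (k + 1)) (fun n n' m =>
      mh (fun h => bB s r R c db k n n' h) m) ≤ XB) :
    ∑ k ∈ Ico k₀ N, GW N Y S T (k + 1) (cc (k + 1)) (fun n n' m =>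
      (PB b (k + 1) (k + 1) n m * (rr k (ι ⊕ ι)
        * phs s (WO r R (c (k + 1)) (k + 1) (k + 1) n' m) * rr k (ι ⊕ ι))).trace)
      ≤ 2 * (√(VB * (400 * s * EstR N J H Qo Qm))
        + (17 * (t2 * EstR N J H Qo Qm) + 2 * (t2 * Qd) + XB)
        + 7 * √(t2 * s * EstR N J H Qo Qm * ((r ^ 2)⁻¹ * ZB))) := by
  have hμ := st.hμ
  have s0 : 0 < s := by rw [hs]; positivity
  have sp := spair_raw (t2 := t2) s0 ht hr hM hTc hTb cap
  have gg := stk_gpR (r := fun k => rr k (ι ⊕ ι)) st s0 (by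
    intro k _ _ n m
    exact gp_SCr hμ hj hs k (WO_psd r R (c (k + 1)) (k + 1) (k + 1) n m))
  have nO := st.Est_nonneg
  set O : ℝ := EstR N J H Qo Qm with hO
  -- middle losses
  have hY : ∑ k ∈ Ico k₀ N, GW N Y S T (k + 1) (cc (k + 1)) (fun n n' m =>
      t2 * s⁻¹ * gp s (rr k (ι ⊕ ι)) (WO r R (c (k + 1)) (k + 1) (k + 1) n' m)
          + 2 * t2 * mh (fun h => bC r R dc k n' h) m
          + mh (fun h => bB s r R c db k n n' h) m)
      ≤ 2 * (t2 * O) + 2 * (t2 * Qd) + XB := by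
    have e : ∀ k, GW N Y S T (k + 1) (cc (k + 1)) (fun n n' m =>
        t2 * s⁻¹ * gp s (rr k (ι ⊕ ι)) (WO r R (c (k + 1)) (k + 1) (k + 1) n' m)
          + 2 * t2 * mh (fun h => bC r R dc k n' h) m
          + mh (fun h => bB s r R c db k n n' h) m)
        = t2 * s⁻¹ * GW N Y S T (k + 1) (cc (k + 1)) (fun _ n' m =>
            gp s (rr k (ι ⊕ ι)) (WO r R (c (k + 1)) (k + 1) (k + 1) n' m))
          + 2 * t2 * GW N Y S T (k + 1) (cc (k + 1)) (fun _ n' m =>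
            mh (fun h => bC r R dc k n' h) m)
          + GW N Y S T (k + 1) (cc (k + 1)) (fun n n' m =>
            mh (fun h => bB s r R c db k n n' h) m) := by
      intro k
      rw [← GW_mul, ← GW_mul, ← PairO.GW_add, ← PairO.GW_add]
    simp only [e, Finset.sum_add_distrib, ← Finset.mul_sum]
    have g1 : ∑ k ∈ Ico k₀ N, GW N Y S T (k + 1) (cc (k + 1)) (fun _ n' m =>
        gp s (rr k (ι ⊕ ι)) (WO r R (c (k + 1)) (k + 1) (k + 1) n' m)) ≤ 2 * s * O :=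
      (Finset.sum_le_sum fun k _ => GW_le_one N Y S T (k + 1) (cc (k + 1))
        (f := fun n' m => gp s (rr k (ι ⊕ ι)) (WO r R (c (k + 1)) (k + 1) (k + 1) n' m))
        (fun n m => gp_nonneg s0 (WO_psd _ _ _ _ _ _ _) (rr_symm k))).trans
        gg
    have g2 : ∑ k ∈ Ico k₀ N, GW N Y S T (k + 1) (cc (k + 1)) (fun _ n' m =>
        mh (fun h => bC r R dc k n' h) m) ≤ Qd := by
      refine (Finset.sum_le_sum fun k _ => GW_le_one N Y S T (k + 1) (cc (k + 1))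
        (f := fun n' m => mh (fun h => bC r R dc k n' h) m)
        (fun n m => mh_nonneg (fun h => bC_nonneg k n h) m)).trans ?_
      rw [bC_sum]
      exact hQd
    have hs' : 0 < s⁻¹ := inv_pos.2 s0
    have f1 := mul_le_mul_of_nonneg_left g1 (show 0 ≤ t2 * s⁻¹ by positivity)
    have f2 := mul_le_mul_of_nonneg_left g2 (show 0 ≤ 2 * t2 by positivity)
    have e3 : t2 * s⁻¹ * (2 * s * O) = 2 * (t2 * O) := by field_simp
    linarith
  have hZ : ∑ k ∈ Ico k₀ N, GW N Y S T (k + 1) (cc (k + 1)) (fun n n' m =>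
      mh (fun h => ((Nm r D k k n' h)ᵀ * PB b k (k + 1) n h * Nm r D k k n' h).trace) m)
      ≤ (r ^ 2)⁻¹ * ZB := by
    have e : ∀ k, GW N Y S T (k + 1) (cc (k + 1)) (fun n n' m =>
        mh (fun h => ((Nm r D k k n' h)ᵀ * PB b k (k + 1) n h * Nm r D k k n' h).trace) m)
        = (r ^ 2)⁻¹ * GW N Y S T (k + 1) (cc (k + 1)) (fun n n' m =>
          av (k + 1) n fun y => av (k + 1) m fun x =>
            ∑ i, ((D (k + 1) x n')ᵀ *ᵥ fun i => b k x y (Sum.inr i)) i ^ 2) := by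
      intro k
      rw [← GW_mul]
      refine congrArg _ (funext fun n => funext fun n' => funext fun m => ?_)
      unfold mh
      beta_reduce
      rw [Nm_br hb, Nm_br hb]
      have e4 : (av (k + 1) n fun y => av (k + 1) m fun x =>
          ∑ i, ((D (k + 1) x n')ᵀ *ᵥ fun i => b k x y (Sum.inr i)) i ^ 2)
          = (1 / 2) * ((av (k + 1) n fun y => av k (2 * m) fun x =>
              ∑ i, ((D (k + 1) x n')ᵀ *ᵥ fun i => b k x y (Sum.inr i)) i ^ 2)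
            + av (k + 1) n fun y => av k (2 * m + 1) fun x =>
              ∑ i, ((D (k + 1) x n')ᵀ *ᵥ fun i => b k x y (Sum.inr i)) i ^ 2) := by
        rw [← av_add, ← av_mul]
        exact congrArg _ (funext fun y => av_half _ _ _)
      rw [e4]
      ring
    simp only [e, ← Finset.mul_sum]
    exact mul_le_mul_of_nonneg_left hZB (by positivity)
  have hX : ∑ k ∈ Ico k₀ N, GW N Y S T (k + 1) (cc (k + 1)) (fun n n' m =>
      mh (fun h => (fun _ _ _ _ => (0 : ℝ)) k n n' h) m) ≤ 0 := by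
    refine Finset.sum_nonpos fun k _ => le_of_eq ?_
    unfold GW mh
    simp
  have key := finR sp st hj hs (fun _ _ _ => rfl) (fun _ _ _ => rfl)
    (fun k _ _ n m => mv_q hr k n m) ht hcc (by positivity : 0 ≤ (r ^ 2)⁻¹ * ZB) hVB hY hZ hX
  simp only [GW_mul, ← Finset.mul_sum] at key
  rw [← hO] at key
  linarith

/-! ### The plane energy of the raw partner -/

/-- own energies after a change -/
theorem sq_chg {n : Type*} [Fintype n] [DecidableEq n] {X X' Z : Matrix n n ℝ}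
    (hX' : X'.PosSemidef) (hX : X.PosSemidef) (hZ : Z.PosSemidef) (h : (X + Z - X').PosSemidef)
    {q q' : ℝ} (c : (q • (1 : Matrix n n ℝ) - X).PosSemidef)
    (c' : (q' • (1 : Matrix n n ℝ) - X').PosSemidef) :
    (X' * X').trace ≤ (X * X).trace + (q + q') * Z.trace := by
  have a1 := trace_mul_le_right hX' h
  have a2 := trace_mul_le_right hX h
  have a3 := trace_mul_le_left hZ c'
  have a4 := trace_mul_le_left hZ c
  rw [smul_mul_assoc, Matrix.one_mul, trace_smul, smul_eq_mul] at a3 a4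
  rw [Matrix.mul_add, trace_add] at a1 a2
  rw [trace_mul_comm X X'] at a2
  linarith

theorem PB_up {t2 : ℝ} {k : ℕ}
    (cap : ∀ n m, (t2 • (1 : Matrix (Ix k × (ι ⊕ ι)) (Ix k × (ι ⊕ ι)) ℝ)
      - PB b k k n m).PosSemidef) {a : ℕ} (ha : k ≤ a) (n m : ℤ) :
    (t2 • (1 : Matrix (Ix k × (ι ⊕ ι)) (Ix k × (ι ⊕ ι)) ℝ) - PB b k a n m).PosSemidef := by
  induction a, ha using Nat.le_induction generalizing n with
  | base => exact cap n m
  | succ a ha ih =>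
    rw [PB_par]
    have e : t2 • (1 : Matrix (Ix k × (ι ⊕ ι)) (Ix k × (ι ⊕ ι)) ℝ)
        - mn (fun n => PB b k a n m) n
        = (1 / 2 : ℝ) • ((t2 • 1 - PB b k a (2 * n) m) + (t2 • 1 - PB b k a (2 * n + 1) m)) := by
      unfold mn
      module
    rw [e]
    exact ((ih _).add (ih _)).smul (by norm_num)

/-- cap of the new function on the old middle cells -/
theorem PB_new {t2 : ℝ} {k : ℕ}
    (cap : ∀ n m, (t2 • (1 : Matrix (Ix (k + 1) × (ι ⊕ ι)) (Ix (k + 1) × (ι ⊕ ι)) ℝ)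
      - PB b (k + 1) (k + 1) n m).PosSemidef) {a : ℕ} (ha : k + 1 ≤ a) (n h : ℤ) :
    ((2 * t2) • (1 : Matrix (Ix k × (ι ⊕ ι)) (Ix k × (ι ⊕ ι)) ℝ)
      - Py (sl k h (b (k + 1))) a n).PosSemidef := by
  obtain ⟨c0, c1⟩ := cap_half_mid (PB_up cap ha n (ix 1 h))
  have h1 : h = 2 * ix 1 h ∨ h = 2 * ix 1 h + 1 := by
    unfold ix
    omega
  rcases h1 with h1 | h1
  · rw [h1]
    exact c0
  · rw [h1]
    exact c1

/-- **The plane energy of the raw partner**, arbitrary changes. -/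
theorem TV_PB {k₀ N : ℕ} (hkN : k₀ ≤ N) {Y S : ℤ} {t2 : ℝ} (ht : 0 ≤ t2)
    (hTb : ∀ k, k₀ ≤ k → k < N → Chg k (b k) (b (k + 1)) (db k))
    (cap : ∀ k, k₀ ≤ k → k ≤ N → ∀ n m,
      (t2 • (1 : Matrix (Ix k × (ι ⊕ ι)) (Ix k × (ι ⊕ ι)) ℝ) - PB b k k n m).PosSemidef) :
    TV k₀ N Y S (PB b) ≤ 77 * (t2 * ∑ x ∈ iv N S, ∑ y ∈ iv N Y, ∑ i, b k₀ x y i ^ 2
      + ∑ k ∈ Ico k₀ N, 3 * t2 * ∑ x ∈ iv N S, ∑ y ∈ iv N Y, ∑ i, db k x y i ^ 2) := by
  have tr_sl : ∀ (k : ℕ) (w : ℤ → ℤ → ι ⊕ ι → ℝ) (a : ℕ) (n m : ℤ), (Py (sl k m w) a n).trace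
      = av a n fun y => av k m fun x => ∑ i, w x y i ^ 2 := by
    intro k w a n m
    rw [tr_Py_eq]
    exact congrArg _ (funext fun y => sl_sq _ _ _ _)
  have h := H92.TV_exactE hkN (R := Y) (S := S) (P := PB b)
    (d := fun k => 3 * t2 * ∑ x ∈ iv N S, ∑ y ∈ iv N Y, ∑ i, db k x y i ^ 2)
    (fun k => by positivity)
    (fun k _ _ a _ _ n m => by
      have := PB_par (b := b) k a n m
      unfold mn at this
      exact this)
    (fun k a n m => Py_symm _ _ _)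
    (fun k k1 k2 a a1 a2 => by
      have s1 := H297.Ch.EW_mid (R := Y) (S := S) (a := a) k2
        (P := fun a n m => Py (sl k m (b (k + 1))) a n)
        (P' := fun a n m => Py (sl (k + 1) m (b (k + 1))) a n)
        (fun n m => mid_le k m (b (k + 1)) (b (k + 1)) a a n n)
      refine s1.trans ?_
      unfold EW
      have s2 : ∀ m n : ℤ, (Py (sl k m (b (k + 1))) a n * Py (sl k m (b (k + 1))) a n).trace
          ≤ (PB b k a n m * PB b k a n m).trace + 3 * t2 * (Py (sl k m (db k)) a n).trace := by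
        intro m n
        have g := sq_chg (Py_PSD (sl k m (b (k + 1))) a n) (Py_PSD (sl k m (b k)) a n)
          (Py_PSD (sl k m (db k)) a n) (gram_chg0 (hTb k k1 k2) a n m)
          (PB_up (cap k k1 k2.le) (by omega : k ≤ a) n m)
          (PB_new (cap (k + 1) (by omega) k2) a1 n m)
        unfold PB at g ⊢
        linarith
      have s3 : ∑ m ∈ iv (N - k) S, ∑ n ∈ iv (N - a) Y,
          (Py (sl k m (b (k + 1))) a n * Py (sl k m (b (k + 1))) a n).trace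
          ≤ (∑ m ∈ iv (N - k) S, ∑ n ∈ iv (N - a) Y, (PB b k a n m * PB b k a n m).trace)
            + 3 * t2 * ∑ m ∈ iv (N - k) S, ∑ n ∈ iv (N - a) Y, (Py (sl k m (db k)) a n).trace := by
        rw [Finset.mul_sum, ← Finset.sum_add_distrib]
        refine Finset.sum_le_sum fun m _ => ?_
        rw [Finset.mul_sum, ← Finset.sum_add_distrib]
        exact Finset.sum_le_sum fun n _ => s2 m n
      have s4 := mul_le_mul_of_nonneg_left s3 (show (0 : ℝ) ≤ 2 ^ a * 2 ^ k by positivity)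
      refine s4.trans (le_of_eq ?_)
      have s5 := bs_av (show k ≤ N by omega) a2 Y S (fun x y => ∑ i, db k x y i ^ 2)
      simp only [tr_sl]
      rw [← s5]
      ring)
  have h0 : EW N Y S k₀ (PB b k₀) k₀ ≤ t2 * ∑ x ∈ iv N S, ∑ y ∈ iv N Y, ∑ i, b k₀ x y i ^ 2 := by
    unfold EW
    have s2 : ∑ m ∈ iv (N - k₀) S, ∑ n ∈ iv (N - k₀) Y, (PB b k₀ k₀ n m * PB b k₀ k₀ n m).trace
        ≤ t2 * ∑ m ∈ iv (N - k₀) S, ∑ n ∈ iv (N - k₀) Y, (PB b k₀ k₀ n m).trace := by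
      rw [Finset.mul_sum]
      refine Finset.sum_le_sum fun m _ => ?_
      rw [Finset.mul_sum]
      refine Finset.sum_le_sum fun n _ => ?_
      have h3 := trace_mul_le_left (Py_PSD (sl k₀ m (b k₀)) k₀ n) (cap k₀ le_rfl hkN n m)
      rwa [smul_mul_assoc, Matrix.one_mul, trace_smul, smul_eq_mul] at h3
    have s4 := mul_le_mul_of_nonneg_left s2 (show (0 : ℝ) ≤ 2 ^ k₀ * 2 ^ k₀ by positivity)
    refine s4.trans (le_of_eq ?_)
    have s5 := bs_av hkN hkN Y S (fun x y => ∑ i, b k₀ x y i ^ 2)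
    unfold PB
    simp only [tr_sl]
    rw [← s5]
    ring
  linarith

end node

end

end Vale.Agent.P141.H585.PairFR
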