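import Vale.Agent.P141.H585.AliveJ
import Vale.Agent.P141.H829.VT
import Vale.Agent.P141.H998.Tiny
import Vale.Agent.P141.PL.H318.Sys1

/-!
# P141, line W, end lemma: the stops in the one-dimensional letters

`a1 c K (q, v)` is the push-forward of an atom on a cube of scale `K`.

* `a1_split`: alive part at scale `k` plus the push-forwards of the stops of scale at least `k`;
* `alv_iff`, `a1_main`: the alive part is the push-forward of ONE product atom;
* `exists_dual`: for every cube a test function with line averages at most `e`;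
* `sum_cells_le`: the cells which see a cube of the same scale.
-/

namespace Vale.Agent.P141.H585

open Finset
open Vale.Agent.P141.PL (iv ix Pt cb cx mem_iv mem_cb card_iv card_cb ix_ix el)
open Vale.Agent.P141.PL.H315 (avg avg_nonneg cube3 atm Tri e12 e13 e23)
open Vale.Agent.P141.PL.H318 (a1 dot_a1 csz two_cells_el ixs mem_gs)
open Vale.Agent.P141.H315 (dot dot_self_nonneg Grid toE norm_toE_sq)
open Vale.Agent.P141.PL.H95 (gr mem_gr card_gr)
open Vale.Agent.P141.H347 (cd cd_pos)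
open Vale.Agent.P141.H998 (en)
open Vale.Agent.P141.H834 (LineB)
open Vale.Agent.P141.H829 (rs3 atm_rs3 ind ind_mem ind_not)

noncomputable section

theorem cube3_eq (k : ℕ) (p : Pt) : cube3 k p = cb k (cx k p) := rfl

/-- the corner of a cube -/
def crn (s : ℕ × Pt) : Pt := (2 ^ s.1 * s.2.1, 2 ^ s.1 * s.2.2.1, 2 ^ s.1 * s.2.2.2)

theorem cx_crn (s : ℕ × Pt) : cx s.1 (crn s) = s.2 := by
  have h : (2 : ℤ) ^ s.1 ≠ 0 := by positivity
  unfold cx crn ix
  simp only [Int.mul_ediv_cancel_left _ h]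

theorem cube3_crn (s : ℕ × Pt) : cube3 s.1 (crn s) = cb s.1 s.2 := by
  rw [cube3_eq, cx_crn]

/-! ### The push-forward -/

open Classical in
/-- **Splitting a push-forward** into its alive part and the stops. -/
theorem a1_split (c : Pt) (θ : ℝ) (E1 E2 E3 : Finset ℤ) (K k : ℕ) (q : Pt) (v : Tri) (s : ℤ) :
    a1 c K (q, v) s =
      (∑ y ∈ cube3 K q, if el c y = s then
        (if Alv θ E1 E2 E3 K k y then atm v y else 0) else 0) +
      ∑ σ ∈ (stp θ E1 E2 E3 K (cx K q)).filter (fun σ => k ≤ σ.1), a1 c σ.1 (crn σ, v) s := by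
  unfold a1
  simp only
  have h1 : ∀ y ∈ cube3 K q, (if el c y = s then atm v y else 0) =
      (if el c y = s then (if Alv θ E1 E2 E3 K k y then atm v y else 0) else 0) +
      ∑ σ ∈ (stp θ E1 E2 E3 K (cx K q)).filter (fun σ => k ≤ σ.1),
        if y ∈ cb σ.1 σ.2 then (if el c y = s then atm v y else 0) else 0 := by
    intro y hy
    have h2 := eq_alive_add_stops θ E1 E2 E3 (L := K) (k := k) (M := cx K q)
      (fun y => if el c y = s then atm v y else 0) hy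
    refine h2.trans (congrArg₂ (· + ·) ?_ rfl)
    by_cases h3 : el c y = s
    · simp only [h3, if_true]
    · simp only [h3, if_false, ite_self]
  rw [sum_congr rfl h1, sum_add_distrib]
  congr 1
  rw [sum_comm]
  refine sum_congr rfl fun σ hσ => ?_
  rw [mem_filter] at hσ
  rw [cube3_crn, ← sum_filter]
  refine sum_congr ?_ fun _ _ => rfl
  ext y
  rw [mem_filter, cube3_eq]
  exact ⟨fun h => h.2, fun h => ⟨stp_sub hσ.1 h, h⟩⟩

/-! ### The alive part is a product atom -/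

/-- all intervals above `x` of the scales `k, …, L` have density at most `θ` -/
def Liv (θ : ℝ) (E : Finset ℤ) (L k : ℕ) (x : ℤ) : Prop :=
  ∀ j, k ≤ j → j ≤ L → dn E j (ix j x) ≤ θ

theorem alv_iff {θ : ℝ} {E1 E2 E3 : Finset ℤ} {L k : ℕ} {x : Pt} :
    Alv θ E1 E2 E3 L k x ↔ Liv θ E1 L k x.1 ∧ Liv θ E2 L k x.2.1 ∧ Liv θ E3 L k x.2.2 := by
  constructor
  · intro h
    exact ⟨fun j h1 h2 => h.dn1 h1 h2, fun j h1 h2 => h.dn2 h1 h2, fun j h1 h2 => h.dn3 h1 h2⟩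
  · rintro ⟨h1, h2, h3⟩ j hk hj (h | h | h)
    · exact absurd h (not_lt.mpr (h1 j hk hj))
    · exact absurd h (not_lt.mpr (h2 j hk hj))
    · exact absurd h (not_lt.mpr (h3 j hk hj))

/-- the points of `E` with no dense interval above, scales `k, …, L` -/
def lvS (θ : ℝ) (E : Finset ℤ) (L k : ℕ) : Finset ℤ := by
  classical
  exact E.filter (Liv θ E L k)

theorem mem_lvS {θ : ℝ} {E : Finset ℤ} {L k : ℕ} {x : ℤ} :
    x ∈ lvS θ E L k ↔ x ∈ E ∧ Liv θ E L k x := by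
  classical
  unfold lvS; rw [mem_filter]

theorem lvS_sub (θ : ℝ) (E : Finset ℤ) (L k : ℕ) : lvS θ E L k ⊆ E := fun _ h => (mem_lvS.mp h).1

theorem lvS_anti {θ : ℝ} {E : Finset ℤ} {L k k' : ℕ} (h : k ≤ k') :
    lvS θ E L k ⊆ lvS θ E L k' := fun x hx => by
  rw [mem_lvS] at hx ⊢
  exact ⟨hx.1, fun j h1 h2 => hx.2 j (h.trans h1) h2⟩

/-- liveliness only depends on the interval of scale `k` -/
theorem Liv.congr {θ : ℝ} {E : Finset ℤ} {L k : ℕ} {x y : ℤ} (he : ix k x = ix k y)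
    (h : Liv θ E L k x) : Liv θ E L k y := by
  intro j hk hj
  obtain ⟨l, rfl⟩ := Nat.exists_eq_add_of_le hk
  have e : ix (k + l) x = ix (k + l) y := by rw [← ix_ix, ← ix_ix, he]
  rw [← e]; exact h _ hk hj

/-- **the density of the alive set is small on EVERY interval of the scales `k, …, L`** -/
theorem dn_lvS_le {θ : ℝ} (hθ : 0 ≤ θ) {E : Finset ℤ} {L k j : ℕ} (hk : k ≤ j) (hj : j ≤ L)
    (m : ℤ) : dn (lvS θ E L k) j m ≤ θ := by
  by_cases h : ∃ x ∈ iv j m, x ∈ lvS θ E L k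
  · obtain ⟨x, hx, hx'⟩ := h
    have h1 := (mem_lvS.mp hx').2 j hk hj
    rw [mem_iv.mp hx] at h1
    refine le_trans ?_ h1
    refine avg_le fun y _ => ?_
    unfold id1
    by_cases hy : y ∈ lvS θ E L k
    · rw [if_pos hy, if_pos (lvS_sub _ _ _ _ hy)]
    · rw [if_neg hy]; split_ifs <;> norm_num
  · push Not at h
    have : dn (lvS θ E L k) j m = 0 := by
      unfold dn avg
      rw [sum_eq_zero, mul_zero]
      intro y hy
      unfold id1; rw [if_neg (h y hy)]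
    rw [this]; exact hθ

open Classical in
/-- the alive part of an atom carried by `E1 × E2 × E3` -/
theorem atm_alive {θ : ℝ} {E1 E2 E3 : Finset ℤ} {K k : ℕ} {v : Tri}
    (h12 : ∀ x y, v.1 (x, y) ≠ 0 → x ∈ E1 ∧ y ∈ E2) (h13 : ∀ x z, v.2.1 (x, z) ≠ 0 → x ∈ E1 ∧ z ∈ E3)
    (y : Pt) : (if Alv θ E1 E2 E3 K k y then atm v y else 0) =
      atm (rs3 (lvS θ E1 K k) (lvS θ E2 K k) (lvS θ E3 K k) v) y := by
  rw [atm_rs3]
  by_cases h0 : atm v y = 0
  · rw [h0, mul_zero, ite_self]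
  · have hv : v.1 (y.1, y.2.1) ≠ 0 ∧ v.2.1 (y.1, y.2.2) ≠ 0 := by
      unfold atm e12 e13 e23 at h0
      constructor
      · intro h; apply h0; rw [h]; ring
      · intro h; apply h0; rw [h]; ring
    have e1 := (h12 _ _ hv.1).1
    have e2 := (h12 _ _ hv.1).2
    have e3 := (h13 _ _ hv.2).2
    by_cases hA : Alv θ E1 E2 E3 K k y
    · rw [if_pos hA]
      obtain ⟨a1, a2, a3⟩ := alv_iff.mp hA
      rw [ind_mem (mem_lvS.mpr ⟨e1, a1⟩), ind_mem (mem_lvS.mpr ⟨e2, a2⟩),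
        ind_mem (mem_lvS.mpr ⟨e3, a3⟩)]
      ring
    · rw [if_neg hA]
      by_cases a1 : Liv θ E1 K k y.1
      · by_cases a2 : Liv θ E2 K k y.2.1
        · have a3 : ¬ Liv θ E3 K k y.2.2 := fun a3 => hA (alv_iff.mpr ⟨a1, a2, a3⟩)
          rw [ind_not (E := lvS θ E3 K k) fun h => a3 (mem_lvS.mp h).2]; ring
        · rw [ind_not (E := lvS θ E2 K k) fun h => a2 (mem_lvS.mp h).2]; ring
      · rw [ind_not (E := lvS θ E1 K k) fun h => a1 (mem_lvS.mp h).2]; ring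

/-- the main atom at scale `k` -/
def mnA (θ : ℝ) (E1 E2 E3 : Finset ℤ) (K k : ℕ) (v : Tri) : Tri :=
  rs3 (lvS θ E1 K k) (lvS θ E2 K k) (lvS θ E3 K k) v

/-- **The main part is the push-forward of one product atom.** -/
theorem a1_main (c : Pt) {θ : ℝ} {E1 E2 E3 : Finset ℤ} {v : Tri}
    (h12 : ∀ x y, v.1 (x, y) ≠ 0 → x ∈ E1 ∧ y ∈ E2) (h13 : ∀ x z, v.2.1 (x, z) ≠ 0 → x ∈ E1 ∧ z ∈ E3)
    (K k : ℕ) (q : Pt) :
    a1 c K (q, v) = a1 c K (q, mnA θ E1 E2 E3 K k v) +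
      ∑ σ ∈ (stp θ E1 E2 E3 K (cx K q)).filter (fun σ => k ≤ σ.1), a1 c σ.1 (crn σ, v) := by
  classical
  funext s
  rw [Pi.add_apply, Finset.sum_apply, a1_split c θ E1 E2 E3 K k q v s]
  congr 1
  unfold a1 mnA
  refine sum_congr rfl fun y _ => ?_
  rw [atm_alive h12 h13]

/-- the increment of scale `i` -/
def inc (c : Pt) (θ : ℝ) (E1 E2 E3 : Finset ℤ) (K : ℕ) (q : Pt) (v : Tri) (i : ℕ) : ℤ → ℝ :=
  ∑ σ ∈ (stp θ E1 E2 E3 K (cx K q)).filter (fun σ => σ.1 = i), a1 c σ.1 (crn σ, v)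

/-- main part plus accumulated increments, the form consumed by (TS2) -/
theorem a1_incr (c : Pt) {θ : ℝ} {E1 E2 E3 : Finset ℤ} {v : Tri}
    (h12 : ∀ x y, v.1 (x, y) ≠ 0 → x ∈ E1 ∧ y ∈ E2) (h13 : ∀ x z, v.2.1 (x, z) ≠ 0 → x ∈ E1 ∧ z ∈ E3)
    (K k : ℕ) (q : Pt) :
    a1 c K (q, v) = a1 c K (q, mnA θ E1 E2 E3 K k v) +
      ∑ i ∈ Icc k K, inc c θ E1 E2 E3 K q v i := by
  classical
  rw [a1_main c h12 h13 K k q]
  congr 1
  unfold inc
  rw [← sum_fiberwise_of_maps_to (s := (stp θ E1 E2 E3 K (cx K q)).filter (fun σ => k ≤ σ.1))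
    (t := Icc k K) (g := fun σ => σ.1)]
  · refine sum_congr rfl fun i hi => sum_congr ?_ fun _ _ => rfl
    ext σ
    rw [mem_Icc] at hi
    simp only [mem_filter]
    constructor
    · rintro ⟨⟨h1, _⟩, h3⟩; exact ⟨h1, h3⟩
    · rintro ⟨h1, h3⟩; exact ⟨⟨h1, by omega⟩, h3⟩
  · intro σ hσ
    rw [mem_filter] at hσ
    exact mem_Icc.mpr ⟨hσ.2, stp_le hσ.1⟩

/-! ### Duality on one cube -/

theorem sum_inj_le {ι : Type*} {I : Finset ι} {J : Finset ℤ} {f : ι → ℤ} {a : ℤ → ℝ}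
    (hf : Set.InjOn f I) : ∑ x ∈ I, (if f x ∈ J then a (f x) else 0) ^ 2 ≤ ∑ s ∈ J, a s ^ 2 := by
  classical
  have h1 : ∑ x ∈ I, (if f x ∈ J then a (f x) else 0) ^ 2 =
      ∑ s ∈ I.image f, (if s ∈ J then a s else 0) ^ 2 :=
    (sum_image (f := fun s => (if s ∈ J then a s else 0) ^ 2) hf).symm
  rw [h1]
  have h2 : ∀ s ∈ I.image f, (if s ∈ J then a s else 0) ^ 2 = if s ∈ J then a s ^ 2 else 0 := by
    intro s _; split_ifs <;> ring
  rw [sum_congr rfl h2, ← sum_filter]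
  refine sum_le_sum_of_subset_of_nonneg ?_ fun _ _ _ => sq_nonneg _
  intro s hs
  exact (mem_filter.mp hs).2

/-- the push-forward of a function on a cube -/
def pf (c : Pt) (k : ℕ) (q : Pt) (w : Pt → ℝ) (s : ℤ) : ℝ :=
  ∑ y ∈ cube3 k q, if el c y = s then w y else 0

theorem a1_eq_pf (c : Pt) (k : ℕ) (q : Pt) (v : Tri) : a1 c k (q, v) = pf c k q (atm v) := rfl

theorem dot_pf (c : Pt) (k : ℕ) (q : Pt) (w : Pt → ℝ) (J : Finset ℤ) (G : ℤ → ℝ) :
    dot J G (pf c k q w) = ∑ y ∈ cube3 k q, if el c y ∈ J then G (el c y) * w y else 0 := by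
  unfold dot pf
  simp_rw [mul_sum]
  rw [sum_comm]
  refine sum_congr rfl fun y _ => ?_
  by_cases hy : el c y ∈ J
  · rw [if_pos hy, sum_eq_single (el c y)]
    · simp
    · intro s _ hs; rw [if_neg (fun h => hs h.symm)]; simp
    · intro h; exact absurd hy h
  · rw [if_neg hy]
    refine sum_eq_zero fun s hs => ?_
    rw [if_neg (fun h : el c y = s => hy (by rw [h]; exact hs))]; simp

/-- **Duality on one cube**: the `ℓ²` norm of a push-forward is attained at a function of the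
linear form with line averages at most `e`. -/
theorem exists_dual {c : Pt} (h1 : c.1 ≠ 0) (h2 : c.2.1 ≠ 0) (h3 : c.2.2 ≠ 0) {e : ℝ}
    (he : 0 ≤ e) (k : ℕ) (q : Pt) (w : Pt → ℝ) (J : Finset ℤ) :
    ∃ R : ℤ → ℝ, LineB e (PL.H315.iv k q.1) (PL.H315.iv k q.2.1) (PL.H315.iv k q.2.2)
        (fun y => R (el c y)) ∧
      √(e * 2 ^ k) * √(dot J (pf c k q w) (pf c k q w)) =
        ∑ y ∈ cube3 k q, R (el c y) * w y := by
  set P := pf c k q w with hP
  set A : ℝ := dot J P P with hA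
  have hA0 : 0 ≤ A := dot_self_nonneg _ _
  set ρ : ℝ := √(e * 2 ^ k) / √A with hρ
  have hc : (0 : ℝ) < 2 ^ k := by positivity
  have hρA : ρ ^ 2 * A ≤ e * 2 ^ k := by
    rw [hρ, div_pow, Real.sq_sqrt (by positivity), Real.sq_sqrt hA0]
    by_cases h0 : A = 0
    · rw [h0]; simp; positivity
    · rw [div_mul_cancel₀ _ h0]
  have hsum : ∑ s ∈ J, (ρ * P s) ^ 2 = ρ ^ 2 * A := by
    rw [hA]; unfold dot; rw [mul_sum]
    exact sum_congr rfl fun s _ => by ring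
  have key : ∀ (x : ℤ) (f : ℤ → ℤ), Set.InjOn f (PL.H315.iv k x) →
      (avg (PL.H315.iv k x) fun y => (if f y ∈ J then ρ * P (f y) else 0) ^ 2) ≤ e := by
    intro x f hf
    have h4 := sum_inj_le (J := J) (a := fun s => ρ * P s) hf
    rw [hsum] at h4
    unfold avg
    rw [PL.H315.card_iv]
    push_cast
    rw [inv_mul_le_iff₀ hc]
    linarith [h4.trans hρA]
  refine ⟨fun s => if s ∈ J then ρ * P s else 0, ⟨?_, ?_, ?_⟩, ?_⟩
  · intro y _ z _
    refine key q.1 (fun x => el c (x, y, z)) fun a _ b _ hab => ?_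
    simp only [el] at hab
    have : c.1 * (a - b) = 0 := by linarith
    rcases mul_eq_zero.mp this with h | h
    · exact absurd h h1
    · linarith
  · intro x _ z _
    refine key q.2.1 (fun y => el c (x, y, z)) fun a _ b _ hab => ?_
    simp only [el] at hab
    have : c.2.1 * (a - b) = 0 := by linarith
    rcases mul_eq_zero.mp this with h | h
    · exact absurd h h2
    · linarith
  · intro x _ y _
    refine key q.2.2 (fun z => el c (x, y, z)) fun a _ b _ hab => ?_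
    simp only [el] at hab
    have : c.2.2 * (a - b) = 0 := by linarith
    rcases mul_eq_zero.mp this with h | h
    · exact absurd h h3
    · linarith
  · have h5 := dot_pf c k q w J (fun s => ρ * P s)
    have h6 : dot J (fun s => ρ * P s) P = ρ * A := by
      rw [hA]; unfold dot; rw [mul_sum]
      exact sum_congr rfl fun s _ => by ring
    have h7 : √(e * 2 ^ k) * √A = ρ * A := by
      by_cases h0 : A = 0
      · rw [h0]; simp
      · have hs : √A ≠ 0 := by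
          rw [Real.sqrt_ne_zero hA0]; exact h0
        rw [hρ]
        field_simp
        rw [Real.sq_sqrt hA0]
    rw [h7, ← h6, h5]
    refine sum_congr rfl fun y _ => ?_
    by_cases hy : el c y ∈ J
    · simp only [hy, if_true]
    · simp only [hy, if_false, zero_mul]

/-! ### The cells which see a cube -/

/-- the triangle inequality for the `ℓ²` norm -/
theorem sqrt_dot_sum_le {X ι : Type*} (Q : Finset X) (s : Finset ι) (f : ι → X → ℝ) :
    √(dot Q (∑ i ∈ s, f i) (∑ i ∈ s, f i)) ≤ ∑ i ∈ s, √(dot Q (f i) (f i)) := by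
  have h : ∀ g : X → ℝ, √(dot Q g g) = ‖toE Q g‖ := by
    intro g; rw [← norm_toE_sq, Real.sqrt_sq (norm_nonneg _)]
  rw [h]
  simp only [h]
  have h2 : toE Q (∑ i ∈ s, f i) = ∑ i ∈ s, toE Q (f i) := by
    ext x
    simp [toE]
  rw [h2]
  exact norm_sum_le _ _

theorem sqrt_en_sum_le {X ι : Type*} (g : Grid X) (T : Finset ι) (f : ι → X → ℝ) (i : ℕ) (y : X) :
    √(en g (∑ q ∈ T, f q) i y) ≤ ∑ q ∈ T, √(en g (f q) i y) := by
  have hc := cd_pos g i y
  unfold en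
  simp only [Real.sqrt_div (dot_self_nonneg _ _)]
  rw [← sum_div]
  exact div_le_div_of_nonneg_right (sqrt_dot_sum_le _ _ _) (Real.sqrt_nonneg _)

/-- the sum over the points of a cell of the mean energies of the subcells -/
theorem sum_en_le {X : Type*} (g : Grid X) {j L : ℕ} (hj : j ≤ L) (x : X) (F : X → ℝ) :
    ∑ z ∈ g.cube L x, en g F j z ≤ dot (g.cube L x) F F := by
  unfold dot
  refine g.sum_le_sum_of_cubes hj x _ _ fun y _ => ?_
  have hc := cd_pos g j y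
  have h1 : ∀ z ∈ g.cube j y, en g F j z = en g F j y := by
    intro z hz
    unfold en cd
    rw [g.eq_of_mem j y z hz]
  rw [sum_congr rfl h1, sum_const, nsmul_eq_mul]
  refine le_of_eq ?_
  unfold en
  show cd g j y * (dot (g.cube j y) F F / cd g j y) = _
  rw [mul_div_cancel₀ _ hc.ne']
  rfl

/-- a set of points in two consecutive cells -/
theorem card_two_cells {c0 : ℕ} {s : ℤ} {j : ℕ} (m : ℤ) {S : Finset ℤ}
    (hS : ∀ z ∈ S, ixs c0 s j z = m ∨ ixs c0 s j z = m + 1) : (S.card : ℝ) ≤ 2 * 2 ^ (j + c0) := by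
  have h2 : (0 : ℤ) < 2 ^ (j + c0) := by positivity
  have h1 : S ⊆ Ico (2 ^ (j + c0) * m - s) (2 ^ (j + c0) * (m + 2) - s) := by
    intro z hz
    have h3 := Int.mul_ediv_add_emod (z + s) (2 ^ (j + c0))
    have h4 := Int.emod_nonneg (z + s) h2.ne'
    have h5 := Int.emod_lt_of_pos (z + s) h2
    rw [mem_Ico]
    rcases hS z hz with h | h <;> unfold ixs at h <;> rw [h] at h3 <;> constructor <;> nlinarith
  have h6 := card_le_card h1
  rw [Int.card_Ico] at h6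
  have h7 : (2 ^ (j + c0) * (m + 2) - s - (2 ^ (j + c0) * m - s)).toNat = 2 * 2 ^ (j + c0) := by
    have : (2 ^ (j + c0) * (m + 2) - s - (2 ^ (j + c0) * m - s) : ℤ) =
        ((2 * 2 ^ (j + c0) : ℕ) : ℤ) := by push_cast; ring
    rw [this, Int.toNat_natCast]
  rw [h7] at h6
  exact_mod_cast h6

/-- **The cells of scale `j` which see one cube of scale `j`.** -/
theorem sum_cells_one {c0 : ℕ} {s : ℤ} {c : Pt} (hc : csz c ≤ 2 ^ c0) {L j : ℕ} (hj : j ≤ L)
    (x : ℤ) (q : Pt) (w : Pt → ℝ) :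
    ∑ z ∈ (gr c0 s).cube L x, √(en (gr c0 s) (pf c j q w) j z) ≤
      √(2 * 2 ^ (j + c0)) * √(dot ((gr c0 s).cube L x) (pf c j q w) (pf c j q w)) := by
  classical
  set F := pf c j q w with hF
  obtain ⟨m, hm⟩ := two_cells_el (c0 := c0) (σ := s) hc j q
  set S := ((gr c0 s).cube L x).filter fun z => ixs c0 s j z = m ∨ ixs c0 s j z = m + 1 with hS
  have h0 : ∀ z ∈ (gr c0 s).cube L x, z ∉ S → √(en (gr c0 s) F j z) = 0 := by
    intro z hz hzS
    have h1 : ¬ (ixs c0 s j z = m ∨ ixs c0 s j z = m + 1) := fun h =>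
      hzS (by rw [hS, mem_filter]; exact ⟨hz, h⟩)
    have h2 : dot ((gr c0 s).cube j z) F F = 0 := by
      unfold dot
      refine sum_eq_zero fun w hw => ?_
      have h3 : F w = 0 := by
        rw [hF]; unfold pf
        refine sum_eq_zero fun y hy => ?_
        rw [if_neg]
        intro he
        rw [mem_gs] at hw
        rw [← hw, ← he] at h1
        exact h1 (hm y hy)
      rw [h3, mul_zero]
    unfold en
    rw [h2, zero_div, Real.sqrt_zero]
  rw [← sum_subset (filter_subset _ _ : S ⊆ _) h0]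
  have h4 : (∑ z ∈ S, √(en (gr c0 s) F j z)) ^ 2 ≤
      (S.card : ℝ) * ∑ z ∈ S, en (gr c0 s) F j z := by
    have := sum_mul_sq_le_sq_mul_sq S (fun _ => (1 : ℝ)) (fun z => √(en (gr c0 s) F j z))
    simp only [one_mul, one_pow, sum_const, nsmul_eq_mul, mul_one] at this
    refine this.trans (le_of_eq ?_)
    congr 1
    exact sum_congr rfl fun z _ => Real.sq_sqrt (H998.en_nonneg _ _)
  have h5 : ∑ z ∈ S, en (gr c0 s) F j z ≤ dot ((gr c0 s).cube L x) F F :=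
    (sum_le_sum_of_subset_of_nonneg (filter_subset _ _) fun _ _ _ => H998.en_nonneg _ _).trans
      (sum_en_le _ hj x F)
  have h6 : (S.card : ℝ) ≤ 2 * 2 ^ (j + c0) :=
    card_two_cells m fun z hz => by rw [hS, mem_filter] at hz; exact hz.2
  have h7 : (0 : ℝ) ≤ ∑ z ∈ S, en (gr c0 s) F j z := sum_nonneg fun _ _ => H998.en_nonneg _ _
  rw [← Real.sqrt_mul (by positivity)]
  refine Real.le_sqrt_of_sq_le (h4.trans ?_)
  exact mul_le_mul h6 h5 h7 (by positivity)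

/-- **The L1 sum of the increments**, from a bound for the stops. -/
theorem sum_inc_le {c0 : ℕ} {s : ℤ} {c : Pt} (hc : csz c ≤ 2 ^ c0) (x : ℤ) {θ : ℝ}
    {E1 E2 E3 : Finset ℤ} {K : ℕ} {q : Pt} {v : Tri} {B : ℝ}
    (hB : ∑ σ ∈ stp θ E1 E2 E3 K (cx K q), √(2 ^ σ.1) *
      √(dot ((gr c0 s).cube K x) (a1 c σ.1 (crn σ, v)) (a1 c σ.1 (crn σ, v))) ≤ B) :
    ∑ i ∈ range (K + 1), ∑ z ∈ (gr c0 s).cube K x,
      √(en (gr c0 s) (inc c θ E1 E2 E3 K q v i) i z) ≤ √(2 * 2 ^ c0) * B := by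
  classical
  have h1 : ∀ i ∈ range (K + 1), ∑ z ∈ (gr c0 s).cube K x,
      √(en (gr c0 s) (inc c θ E1 E2 E3 K q v i) i z) ≤
      ∑ σ ∈ (stp θ E1 E2 E3 K (cx K q)).filter (fun σ => σ.1 = i), √(2 * 2 ^ c0) * (√(2 ^ σ.1) *
      √(dot ((gr c0 s).cube K x) (a1 c σ.1 (crn σ, v)) (a1 c σ.1 (crn σ, v)))) := by
    intro i hi
    have hiK : i ≤ K := by have := mem_range.mp hi; omega
    have h2 : ∀ z ∈ (gr c0 s).cube K x, √(en (gr c0 s) (inc c θ E1 E2 E3 K q v i) i z) ≤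
        ∑ σ ∈ (stp θ E1 E2 E3 K (cx K q)).filter (fun σ => σ.1 = i),
          √(en (gr c0 s) (a1 c σ.1 (crn σ, v)) i z) := by
      intro z _
      unfold inc
      exact sqrt_en_sum_le _ _ _ _ _
    refine (sum_le_sum h2).trans ?_
    rw [sum_comm]
    refine sum_le_sum fun σ hσ => ?_
    rw [mem_filter] at hσ
    obtain ⟨_, rfl⟩ := hσ
    have h3 := sum_cells_one (s := s) hc hiK x (crn σ) (atm v)
    rw [← a1_eq_pf] at h3
    refine h3.trans (le_of_eq ?_)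
    have h5 : √(2 * 2 ^ (σ.1 + c0) : ℝ) = √(2 * 2 ^ c0) * √(2 ^ σ.1) := by
      rw [← Real.sqrt_mul (by positivity)]
      congr 1
      rw [pow_add]; ring
    rw [h5, mul_assoc]
  refine (sum_le_sum h1).trans ?_
  have h4 : ∑ i ∈ range (K + 1), ∑ σ ∈ (stp θ E1 E2 E3 K (cx K q)).filter (fun σ => σ.1 = i),
      √(2 * 2 ^ c0) * (√(2 ^ σ.1) *
      √(dot ((gr c0 s).cube K x) (a1 c σ.1 (crn σ, v)) (a1 c σ.1 (crn σ, v)))) =
      ∑ σ ∈ stp θ E1 E2 E3 K (cx K q), √(2 * 2 ^ c0) * (√(2 ^ σ.1) *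
      √(dot ((gr c0 s).cube K x) (a1 c σ.1 (crn σ, v)) (a1 c σ.1 (crn σ, v)))) :=
    sum_fiberwise_of_maps_to (fun σ hσ => mem_range.mpr (Nat.lt_succ_of_le (stp_le hσ))) _
  rw [h4, ← mul_sum]
  exact mul_le_mul_of_nonneg_left hB (Real.sqrt_nonneg _)

/-- **The stops, tested**: the sum over the stops of the `ℓ²` norms from the sum of the tests. -/
theorem sum_stops_le {c : Pt} (h1 : c.1 ≠ 0) (h2 : c.2.1 ≠ 0) (h3 : c.2.2 ≠ 0)
    {𝒮 : Finset (ℕ × Pt)} (v : Tri) (J : Finset ℤ) {B : ℝ}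
    (hB : ∀ R : ℕ × Pt → Pt → ℝ,
      (∀ σ ∈ 𝒮, LineB 1 (iv σ.1 σ.2.1) (iv σ.1 σ.2.2.1) (iv σ.1 σ.2.2.2) (R σ)) →
      ∑ σ ∈ 𝒮, ∑ y ∈ cb σ.1 σ.2, |R σ y * atm v y| ≤ B) :
    ∑ σ ∈ 𝒮, √(2 ^ σ.1) * √(dot J (a1 c σ.1 (crn σ, v)) (a1 c σ.1 (crn σ, v))) ≤ B := by
  classical
  have hd : ∀ σ : ℕ × Pt, ∃ R : ℤ → ℝ, LineB 1 (iv σ.1 σ.2.1) (iv σ.1 σ.2.2.1)
      (iv σ.1 σ.2.2.2) (fun y => R (el c y)) ∧
      √(2 ^ σ.1) * √(dot J (a1 c σ.1 (crn σ, v)) (a1 c σ.1 (crn σ, v))) =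
        ∑ y ∈ cb σ.1 σ.2, R (el c y) * atm v y := by
    intro σ
    obtain ⟨R, hR, hs⟩ := exists_dual h1 h2 h3 (e := 1) zero_le_one σ.1 (crn σ) (atm v) J
    rw [← a1_eq_pf] at hs
    refine ⟨R, ?_, ?_⟩
    · have e1 : PL.H315.iv σ.1 (crn σ).1 = iv σ.1 σ.2.1 := by
        show iv σ.1 (ix σ.1 (crn σ).1) = _
        rw [show ix σ.1 (crn σ).1 = σ.2.1 from congrArg Prod.fst (cx_crn σ)]
      have e2 : PL.H315.iv σ.1 (crn σ).2.1 = iv σ.1 σ.2.2.1 := by
        show iv σ.1 (ix σ.1 (crn σ).2.1) = _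
        rw [show ix σ.1 (crn σ).2.1 = σ.2.2.1 from congrArg (fun p => p.2.1) (cx_crn σ)]
      have e3 : PL.H315.iv σ.1 (crn σ).2.2 = iv σ.1 σ.2.2.2 := by
        show iv σ.1 (ix σ.1 (crn σ).2.2) = _
        rw [show ix σ.1 (crn σ).2.2 = σ.2.2.2 from congrArg (fun p => p.2.2) (cx_crn σ)]
      rw [e1, e2, e3] at hR
      exact hR
    · rw [one_mul, cube3_crn] at hs
      exact hs
  choose R hR hs using hd
  refine le_trans (le_of_eq (sum_congr rfl fun σ _ => hs σ)) ?_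
  refine le_trans (sum_le_sum fun σ _ => ?_) (hB (fun σ y => R σ (el c y)) fun σ _ => hR σ)
  exact sum_le_sum fun y _ => le_abs_self _

end

end Vale.Agent.P141.H585
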