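import Vale.Agent.P141.H585.Stop1
import Vale.Agent.P141.H829.SO

/-!
# P141, line W, end lemma: every atom = one vertex-type product atom per scale + small increments

`vt_line`: for every atom `u` on a cube of scale `K` and `κ, μ > 0` there is a vertex-type atom `v`
such that at every scale `k ≤ K` the push-forward of `u` is the push-forward of the restriction
`mnA` of `v` to the points with no dense interval above plus accumulated increments, whose `L1` sum
of local `L²` averages is at most `C (κ + κ⁻¹² μ^(-1/2)) · pw · 8 ^ K`.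
-/

namespace Vale.Agent.P141.H585

open Finset
open Vale.Agent.P141.PL (iv ix Pt cb cx mem_iv mem_cb card_iv card_cb ix_ix el)
open Vale.Agent.P141.PL.H315 (avg avg_nonneg cube3 atm Tri e12 e13 e23)
open Vale.Agent.P141.PL.H318 (a1 dot_a1 csz)
open Vale.Agent.P141.H315 (dot dot_self_nonneg Grid)
open Vale.Agent.P141.PL.H95 (gr mem_gr card_gr)
open Vale.Agent.P141.H998 (en)
open Vale.Agent.P141.H834 (LineB)
open Vale.Agent.P141.H829 (VTy rW rW_nonneg pwB pwB_nonneg so_sum vt)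
open Vale.Agent.P141.H922 (n2 n4 nN n2_nonneg)

noncomputable section

/-- the three sides of a cube: the pair weight of the box -/
def pwC (K : ℕ) (q : Pt) (u : Tri) : ℝ :=
  pwB (PL.H315.iv K q.1) (PL.H315.iv K q.2.1) (PL.H315.iv K q.2.2) u

/-- the ratio of the two weights of a cube -/
def rC (K : ℕ) (q : Pt) (u : Tri) : ℝ :=
  rW (PL.H315.iv K q.1) (PL.H315.iv K q.2.1) (PL.H315.iv K q.2.2) u

/-- vertex type on a cube -/
def VC (κ : ℝ) (K : ℕ) (q : Pt) (u v : Tri) (E1 E2 E3 : Finset ℤ) : Prop :=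
  VTy κ (PL.H315.iv K q.1) (PL.H315.iv K q.2.1) (PL.H315.iv K q.2.2) u v E1 E2 E3

theorem pwC_nonneg (K : ℕ) (q : Pt) (u : Tri) : 0 ≤ pwC K q u := pwB_nonneg u

theorem rC_nonneg (K : ℕ) (q : Pt) (u : Tri) : 0 ≤ rC K q u := rW_nonneg u

theorem card_sides (K : ℕ) (q : Pt) :
    ((PL.H315.iv K q.1).card : ℝ) * (PL.H315.iv K q.2.1).card * (PL.H315.iv K q.2.2).card =
      8 ^ K := by
  rw [PL.H315.card_iv, PL.H315.card_iv, PL.H315.card_iv]
  push_cast
  rw [← mul_pow, ← mul_pow]; norm_num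

variable {c : Pt} {κ μ : ℝ} {K : ℕ} {q : Pt} {u v : Tri} {E1 E2 E3 : Finset ℤ}

/-- **The stops of a vertex-type atom.** -/
theorem stops_vty (h1 : c.1 ≠ 0) (h2 : c.2.1 ≠ 0) (h3 : c.2.2 ≠ 0) (hκ : 0 < κ) (hμ : 0 < μ)
    (hv : VC κ K q u v E1 E2 E3) (J : Finset ℤ) :
    κ ^ 12 * √μ * ∑ σ ∈ stp (μ / rC K q u ^ 2) E1 E2 E3 K (cx K q),
      √(2 ^ σ.1) * √(dot J (a1 c σ.1 (crn σ, v)) (a1 c σ.1 (crn σ, v))) ≤
      8 * (pwC K q u * 8 ^ K) := by
  have hp := pwC_nonneg K q u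
  rcases (rC_nonneg K q u).eq_or_lt with h0 | h0
  · have hz : ∀ r, v.1 r = 0 := by
      intro r
      have := hv.hgt12 r
      have e : rW (PL.H315.iv K q.1) (PL.H315.iv K q.2.1) (PL.H315.iv K q.2.2) u = 0 := h0.symm
      rw [e] at this
      simp only [ne_eq, OfNat.ofNat_ne_zero, not_false_eq_true, zero_pow, zero_mul, zero_div]
        at this
      exact abs_nonpos_iff.mp this
    have ha : ∀ σ : ℕ × Pt, a1 c σ.1 (crn σ, v) = 0 := by
      intro σ; funext s
      unfold a1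
      refine sum_eq_zero fun y _ => ?_
      have : atm v y = 0 := by unfold atm e12; rw [hz]; ring
      rw [this, ite_self]
    have : ∑ σ ∈ stp (μ / rC K q u ^ 2) E1 E2 E3 K (cx K q),
      √(2 ^ σ.1) * √(dot J (a1 c σ.1 (crn σ, v)) (a1 c σ.1 (crn σ, v))) = 0 := by
      refine sum_eq_zero fun σ _ => ?_
      rw [ha σ]
      have : dot J (0 : ℤ → ℝ) 0 = 0 := by unfold dot; simp
      rw [this, Real.sqrt_zero, mul_zero]
    rw [this, mul_zero]; positivity
  · have hκ12 : 0 < κ ^ 12 * √μ := by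
      have := Real.sqrt_pos.mpr hμ
      positivity
    have key : ∀ R : ℕ × Pt → Pt → ℝ,
        (∀ σ ∈ stp (μ / rC K q u ^ 2) E1 E2 E3 K (cx K q),
          LineB 1 (iv σ.1 σ.2.1) (iv σ.1 σ.2.2.1) (iv σ.1 σ.2.2.2) (R σ)) →
        ∑ σ ∈ stp (μ / rC K q u ^ 2) E1 E2 E3 K (cx K q), ∑ y ∈ cb σ.1 σ.2, |R σ y * atm v y| ≤
          8 * (pwC K q u * 8 ^ K) / (κ ^ 12 * √μ) := by
      intro R hR
      rw [le_div_iff₀ hκ12, mul_comm]
      have := so_sum hκ hμ zero_le_one hv (stp (μ / rC K q u ^ 2) E1 E2 E3 K (cx K q))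
        (fun σ => iv σ.1 σ.2.1) (fun σ => iv σ.1 σ.2.2.1) (fun σ => iv σ.1 σ.2.2.2)
        (fun i hi j hj hij => by
          have := stp_disj (μ / rC K q u ^ 2) E1 E2 E3 K (cx K q) hi hj hij
          rw [Function.onFun] at this
          exact this)
        (fun σ hσ => (bd_iff_al h0).mp (stp_bd hσ)) R hR
      rw [Real.sqrt_one, mul_one, card_sides] at this
      exact this
    have := sum_stops_le h1 h2 h3 v J key
    rw [le_div_iff₀ hκ12] at this
    rw [mul_comm]; exact this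

/-- **The increments of a vertex-type atom.** -/
theorem inc_vty {c0 : ℕ} (hc : csz c ≤ 2 ^ c0) (h1 : c.1 ≠ 0) (h2 : c.2.1 ≠ 0) (h3 : c.2.2 ≠ 0)
    (hκ : 0 < κ) (hμ : 0 < μ) (hv : VC κ K q u v E1 E2 E3) (s x : ℤ) :
    ∑ i ∈ range (K + 1), ∑ z ∈ (gr c0 s).cube K x,
      √(en (gr c0 s) (inc c (μ / rC K q u ^ 2) E1 E2 E3 K q v i) i z) ≤
      √(2 * 2 ^ c0) * (8 * (pwC K q u * 8 ^ K) / (κ ^ 12 * √μ)) := by
  have hκ12 : 0 < κ ^ 12 * √μ := by
    have := Real.sqrt_pos.mpr hμ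
    positivity
  refine sum_inc_le hc x ?_
  rw [le_div_iff₀ hκ12, mul_comm]
  exact stops_vty h1 h2 h3 hκ hμ hv _

theorem pf_sub (c : Pt) (k : ℕ) (q : Pt) (w w' : Pt → ℝ) :
    pf c k q (fun y => w y - w' y) = pf c k q w - pf c k q w' := by
  funext s
  rw [Pi.sub_apply]
  unfold pf
  rw [← sum_sub_distrib]
  refine sum_congr rfl fun y _ => ?_
  split_ifs <;> ring

/-- **Every atom on a cube**: one vertex-type product atom per scale plus small increments. -/
theorem vt_line {c0 : ℕ} (hc : csz c ≤ 2 ^ c0) (h1 : c.1 ≠ 0) (h2 : c.2.1 ≠ 0) (h3 : c.2.2 ≠ 0)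
    (hκ : 0 < κ) (hμ : 0 < μ) (K : ℕ) (q : Pt) (u : Tri) :
    ∃ (v : Tri) (E1 E2 E3 : Finset ℤ) (F : ℕ → ℤ → ℝ), VC κ K q u v E1 E2 E3 ∧
      (∀ k ≤ K, a1 c K (q, u) = a1 c K (q, mnA (μ / rC K q u ^ 2) E1 E2 E3 K k v) +
        ∑ i ∈ Icc k K, F i) ∧
      ∀ s x : ℤ, ∑ i ∈ range (K + 1), ∑ z ∈ (gr c0 s).cube K x, √(en (gr c0 s) (F i) i z) ≤
        √(2 * 2 ^ c0) * ((6 * κ + 8 / (κ ^ 12 * √μ)) * (pwC K q u * 8 ^ K)) := by
  classical
  obtain ⟨v, E1, E2, E3, hv, hT⟩ := vt (A := PL.H315.iv K q.1) (B := PL.H315.iv K q.2.1)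
    (C := PL.H315.iv K q.2.2) hκ u
  set θ := μ / rC K q u ^ 2 with hθ
  set D : ℤ → ℝ := pf c K q (fun y => atm u y - atm v y) with hD
  have hDe : D = a1 c K (q, u) - a1 c K (q, v) := by
    rw [hD, pf_sub, a1_eq_pf, a1_eq_pf]
  refine ⟨v, E1, E2, E3, fun i => inc c θ E1 E2 E3 K q v i + if i = K then D else 0, hv, ?_, ?_⟩
  · intro k hk
    have e1 := a1_incr c (θ := θ) hv.sup12 hv.sup13 K k q
    rw [sum_add_distrib]
    have e2 : ∑ i ∈ Icc k K, (if i = K then D else 0) = D := by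
      rw [sum_ite_eq' (Icc k K) K (fun _ => D), if_pos (mem_Icc.mpr ⟨hk, le_rfl⟩)]
    rw [e2, ← add_assoc, ← e1, hDe]
    abel
  · intro s x
    have hc0 : (0 : ℝ) ≤ √(2 * 2 ^ c0) := Real.sqrt_nonneg _
    have e3 := inc_vty hc h1 h2 h3 hκ hμ hv s x
    -- the difference
    have e4 : √(2 ^ K) * √(dot ((gr c0 s).cube K x) D D) ≤ 6 * κ * (pwC K q u * 8 ^ K) := by
      obtain ⟨R, hR, hs⟩ := exists_dual h1 h2 h3 (e := 1) zero_le_one K q
        (fun y => atm u y - atm v y) ((gr c0 s).cube K x)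
      rw [one_mul, ← hD] at hs
      rw [hs]
      have e5 := hT 1 (fun y => R (el c y)) zero_le_one hR
      rw [Real.sqrt_one, mul_one] at e5
      unfold avg at e5
      have hcard : (((PL.H315.iv K q.1) ×ˢ (PL.H315.iv K q.2.1) ×ˢ
          (PL.H315.iv K q.2.2)).card : ℝ) = 8 ^ K := by
        rw [card_product, card_product]; push_cast
        rw [← card_sides K q]; ring
      rw [hcard, inv_mul_le_iff₀ (by positivity)] at e5
      calc ∑ y ∈ cube3 K q, R (el c y) * (atm u y - atm v y) ≤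
            ∑ y ∈ cube3 K q, |R (el c y) * (atm u y - atm v y)| :=
            sum_le_sum fun y _ => le_abs_self _
        _ ≤ 8 ^ K * (6 * κ * pwC K q u) := e5
        _ = _ := by ring
    have e6 : ∑ z ∈ (gr c0 s).cube K x, √(en (gr c0 s) D K z) ≤
        √(2 * 2 ^ c0) * (6 * κ * (pwC K q u * 8 ^ K)) := by
      have e7 := sum_cells_one (s := s) hc (le_refl K) x q (fun y => atm u y - atm v y)
      rw [← hD] at e7
      refine e7.trans ?_
      have h5 : √(2 * 2 ^ (K + c0) : ℝ) = √(2 * 2 ^ c0) * √(2 ^ K) := by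
        rw [← Real.sqrt_mul (by positivity)]
        congr 1
        rw [pow_add]; ring
      rw [h5, mul_assoc]
      exact mul_le_mul_of_nonneg_left e4 hc0
    have e8 : ∀ i ∈ range (K + 1), ∑ z ∈ (gr c0 s).cube K x,
        √(en (gr c0 s) (inc c θ E1 E2 E3 K q v i + if i = K then D else 0) i z) ≤
        ∑ z ∈ (gr c0 s).cube K x, √(en (gr c0 s) (inc c θ E1 E2 E3 K q v i) i z) +
          if i = K then ∑ z ∈ (gr c0 s).cube K x, √(en (gr c0 s) D K z) else 0 := by
      intro i _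
      by_cases hi : i = K
      · subst hi
        simp only [if_true]
        rw [← sum_add_distrib]
        refine sum_le_sum fun z _ => ?_
        have := sqrt_en_sum_le (gr c0 s) (univ : Finset (Fin 2))
          ![inc c θ E1 E2 E3 i q v i, D] i z
        simpa [Fin.sum_univ_two] using this
      · simp only [hi, if_false, add_zero]
        exact le_rfl
    refine (sum_le_sum e8).trans ?_
    rw [sum_add_distrib, sum_ite_eq' (range (K + 1)) K, if_pos (mem_range.mpr (Nat.lt_succ_self K))]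
    calc _ ≤ √(2 * 2 ^ c0) * (8 * (pwC K q u * 8 ^ K) / (κ ^ 12 * √μ)) +
          √(2 * 2 ^ c0) * (6 * κ * (pwC K q u * 8 ^ K)) := add_le_add e3 e6
      _ = _ := by ring

end

end Vale.Agent.P141.H585
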